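import Vale.Agent.P226h14.Main3

open MeasureTheory ProbabilityTheory Real Set Filter Topology
open scoped RealInnerProductSpace ENNReal NNReal

namespace Vale.Agent.P226h14

variable {E : Type*} [NormedAddCommGroup E] [InnerProductSpace ℝ E] [FiniteDimensional ℝ E]
  [MeasurableSpace E] [BorelSpace E]

/-- the propeller value -/
noncomputable def muP : ℝ := 9 / (8 * Real.pi)

/-- a cell of a fixed point with negatively correlated moments and value at least the propeller
value can be deleted -/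
def DelStep (E : Type*) [NormedAddCommGroup E] [InnerProductSpace ℝ E] [FiniteDimensional ℝ E]
    [MeasurableSpace E] [BorelSpace E] (m : ℕ) : Prop :=
  ∀ w : Fin m → E, (∀ i, mom (vcell w i) = w i) → (∀ i j, i ≠ j → ⟪w i, w j⟫ < 0) →
    muP ≤ ∑ i, ‖w i‖ ^ 2 →
    ∃ i0 : Fin m, ∃ B : {l // l ≠ i0} → Set E, IsPart B ∧ Fval (vcell w) ≤ Fval B

/-- one conditional deletion step -/
theorem cond_step {m : ℕ} (hm : 2 ≤ m) (hD : DelStep E m) {A : Fin m → Set E} (hA : IsPart A) :
    ∃ i0 : Fin m, ∃ B : {l // l ≠ i0} → Set E, IsPart B ∧ Fval A ≤ max muP (Fval B) := by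
  have hne : Nonempty (Fin m) := ⟨⟨0, by omega⟩⟩
  have hcard2 : ∀ i0 : Fin m, Fintype.card {l // l ≠ i0} = Fintype.card (Fin m) - 1 :=
    card_ne (Fin m)
  have hne2 : ∀ i0 : Fin m, Nonempty {l // l ≠ i0} := by
    intro i0
    apply Fintype.card_pos_iff.1
    rw [hcard2]
    simp only [Fintype.card_fin]
    omega
  by_cases hpos : 0 < Fval A
  · obtain ⟨w, hfix, hle⟩ := exists_fixed hA hpos
    have hFw : Fval (vcell w) = ∑ i, ‖w i‖ ^ 2 := by
      simp only [Fval]
      apply Finset.sum_congr rfl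
      intro i _
      rw [hfix]
    by_cases hobt : ∀ i j, i ≠ j → ⟪w i, w j⟫ < 0
    · by_cases hlarge : muP ≤ ∑ i, ‖w i‖ ^ 2
      · obtain ⟨i0, B, hB, hF⟩ := hD w hfix hobt hlarge
        exact ⟨i0, B, hB, le_max_of_le_right (by linarith)⟩
      · obtain ⟨i0⟩ := hne
        have := hne2 i0
        refine ⟨i0, vcell fun _ => 0, isPart_vcell _, le_max_of_le_left ?_⟩
        push Not at hlarge
        linarith
    · push Not at hobt
      obtain ⟨i, j, hij, hacute⟩ := hobt
      have hP := isPart_vcell w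
      have hacute' : 0 ≤ ⟪mom (vcell w i), mom (vcell w j)⟫ := by
        rw [hfix, hfix]; exact hacute
      obtain ⟨B, hB, hF⟩ := step_merge hP hij hacute'
      exact ⟨j, B, hB, le_max_of_le_right (by linarith)⟩
  · obtain ⟨i0⟩ := hne
    have := hne2 i0
    refine ⟨i0, vcell fun _ => 0, isPart_vcell _, le_max_of_le_right ?_⟩
    have h1 : 0 ≤ Fval (vcell (fun _ : {l // l ≠ i0} => (0 : E))) :=
      Finset.sum_nonneg fun i _ => by positivity
    linarith

/-- reindexing a conditional deletion step -/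
theorem cond_step_fin {m : ℕ} (hm : 2 ≤ m) (hD : DelStep E m) {A : Fin m → Set E} (hA : IsPart A) :
    ∃ B : Fin (m - 1) → Set E, IsPart B ∧ Fval A ≤ max muP (Fval B) := by
  obtain ⟨i0, B, hB, hF⟩ := cond_step hm hD hA
  have hc : Fintype.card {l // l ≠ i0} = m - 1 := by
    rw [card_ne]
    simp
  set e : Fin (m - 1) ≃ {l // l ≠ i0} := (Fintype.equivFinOfCardEq hc).symm
  obtain ⟨hB', hF'⟩ := isPart_reindex e hB
  exact ⟨_, hB', by rwa [hF']⟩

/-- With the deletion steps for `6` and `5` cells, any partition into at least `4` cells is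
dominated by the propeller value or by a partition into `4` cells. -/
theorem reduction4 (h6 : DelStep E 6) (h5 : DelStep E 5) {k : ℕ} (hk : 4 ≤ k)
    {A : Fin k → Set E} (hA : IsPart A) :
    ∃ A' : Fin 4 → Set E, IsPart A' ∧ Fval A ≤ max muP (Fval A') := by
  -- first step, down to `6` cells when `k ≥ 6`
  have hlow : ∀ (A : Fin 6 → Set E), IsPart A →
      ∃ A' : Fin 4 → Set E, IsPart A' ∧ Fval A ≤ max muP (Fval A') := by
    intro A hA
    obtain ⟨B, hB, hF⟩ := cond_step_fin (by norm_num) h6 hA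
    obtain ⟨C, hC, hF2⟩ := cond_step_fin (by norm_num) h5 hB
    refine ⟨C, hC, ?_⟩
    refine hF.trans (max_le (le_max_left _ _) (hF2.trans le_rfl))
  rcases lt_or_ge k 6 with h | h
  · interval_cases k
    · exact ⟨A, hA, le_max_right _ _⟩
    · obtain ⟨C, hC, hF2⟩ := cond_step_fin (by norm_num) h5 hA
      exact ⟨C, hC, hF2⟩
  · obtain ⟨A', hA', hle⟩ := reduction6 h hA
    obtain ⟨C, hC, hF⟩ := hlow A' hA'
    exact ⟨C, hC, hle.trans hF⟩

end Vale.Agent.P226h14
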