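import Vale.Agent.P226h14.Check

open MeasureTheory ProbabilityTheory Real Set Filter Topology
open scoped RealInnerProductSpace ENNReal

namespace Vale.Agent.P226h14

/-- one level of a table -/
structure Row where
  t : ℚ
  qt : ℚ
  lam : ℚ
  k0 : ℚ
  k1 : ℚ
  eta1 : ℚ
  Rc : ℚ

/-- a table for one range of the largest coefficient -/
structure Case where
  N : ℕ
  mono : Bool
  p : ℚ
  q : ℚ
  cap : ℚ
  τ1 : ℚ
  τr : ℚ
  S : ℚ
  Ttop : ℚ
  bins : List ℚ
  rows : List Row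

/-- upper bound for the monotone part -/
def Bbf (t qt : ℚ) : ℚ := 2 * (eUp (t ^ 2 / 2) - t * qt)

/-- upper bound for the convex part -/
def Abf (t T qt qT cc : ℚ) : ℚ :=
  if (2 - cc) * (T ^ 2 - 1) ≤ 2 then
    max (cc * eUp (t ^ 2 / 2) - 2 * t * qt) (cc * eUp (T ^ 2 / 2) - 2 * T * qT)
  else cc * eUp (t ^ 2 / 2) - 2 * t * qT

/-- check of one range of coefficients -/
def binOK (t T lam k0 k1 Ar Bb x y : ℚ) : Bool :=
  decide (k0 - k1 * x ≤ 0) || (decide (y < 1) && decide (0 ≤ x) &&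
    decide ((k0 - k1 * x) ^ 2 ≤ 2 * (T - t) * lam * (Ar - Bb * y) * (1 + x) *
      Eb t T ((1 + y) / (1 - y)) (ru6 ((k0 - k1 * x) / (lam * (1 + x))))))

/-- check of all ranges of coefficients -/
def binsOK (t T lam k0 k1 Ar Bb cap : ℚ) : List ℚ → Bool
  | [] => false
  | [x] => decide (cap ≤ x)
  | x :: y :: l => binOK t T lam k0 k1 Ar Bb x y && binsOK t T lam k0 k1 Ar Bb cap (y :: l)

/-- the constant for the largest vertex -/
def cv1f (c : Case) (T R' qT : ℚ) (r : Row) : ℚ :=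
  -(Abf r.t T r.qt qT (1 + c.S - 2 * c.τ1) + c.q * Bbf r.t r.qt + R')

/-- the constant for the other vertices -/
def Arf (c : Case) (T R' qT : ℚ) (r : Row) : ℚ :=
  -(Abf r.t T r.qt qT (1 + c.S - 2 * c.τr) + R')

/-- the decrement of one level -/
def Dval (c : Case) (r : Row) : ℚ :=
  r.eta1 + ((c.N : ℚ) - 1) * r.k0 - r.k1 * (1 - c.p) - r.lam * r.t * ((c.N : ℚ) + 1)

/-- check of one level -/
def rowOK (c : Case) (T R' qT : ℚ) (r : Row) : Bool :=
  decide (0 < r.t) && decide (r.t < T) && decide (0 < r.lam) && decide (0 ≤ r.k1) &&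
  decide (0 ≤ r.eta1) &&
  decide (r.qt ≤ qT + (T - r.t) * eLow ((T ^ 2 + r.t * T + r.t ^ 2) / 6)) &&
  decide (0 ≤ Bbf r.t r.qt) && decide (0 ≤ cv1f c T R' qT r) &&
  decide (0 ≤ Arf c T R' qT r - c.cap * Bbf r.t r.qt) &&
  (decide (r.eta1 = 0) || (decide (c.q < 1) &&
    decide (r.eta1 ^ 2 ≤ 2 * (T - r.t) * r.lam * cv1f c T R' qT r * (1 + c.p) *
      Eb r.t T ((1 + c.q) / (1 - c.q)) (ru6 (r.eta1 / (r.lam * (1 + c.p))))))) &&
  binsOK r.t T r.lam r.k0 r.k1 (Arf c T R' qT r) (Bbf r.t r.qt) c.cap (0 :: c.bins) &&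
  decide (R' - Dval c r ≤ r.Rc) &&
  (!c.mono || decide (r.lam * r.t ≤ r.k0))

/-- the largest constant of the bound functions -/
def lowf (c : Case) : ℚ := max (1 + c.S + 2 * c.q - 2 * c.τ1) (1 + c.S + 2 * c.cap - 2 * c.τr)

/-- check of all levels -/
def chk (c : Case) : ℚ → ℚ → ℚ → List Row → Bool
  | _, R', _, [] => decide (lowf c + R' ≤ 0)
  | T, R', qT, r :: rs => rowOK c T R' qT r && chk c r.t r.Rc r.qt rs

/-- the global checks of a table -/
def caseOK (c : Case) (qtop : ℚ) : Bool :=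
  decide (0 ≤ c.p) && decide (c.q ≤ 1) && decide (0 ≤ c.cap) && decide (c.cap < 1) &&
  decide (0 < c.Ttop) &&
  decide (0 ≤ 1 + c.S - 2 * c.τ1) && decide (1 + c.S - 2 * c.τ1 < 2) &&
  decide (0 ≤ 1 + c.S - 2 * c.τr) && decide (1 + c.S - 2 * c.τr < 2) &&
  decide (0 < 1 - c.S + 2 * c.τ1) && decide (0 < 1 - c.S + 2 * c.τr) &&
  decide (1 + c.S + 2 * c.q - 2 * c.τ1 ≤ (1 - c.S + 2 * c.τ1) * c.Ttop ^ 2) &&
  decide (1 + c.S + 2 * c.cap - 2 * c.τr ≤ (1 - c.S + 2 * c.τr) * c.Ttop ^ 2) &&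
  chk c c.Ttop 0 qtop c.rows

lemma binsOK_find {t T lam k0 k1 Ar Bb cap : ℚ} :
    ∀ {l : List ℚ} {x : ℚ} {z : ℝ}, binsOK t T lam k0 k1 Ar Bb cap (x :: l) = true →
      (x : ℝ) < z → z ≤ cap → ∃ x' y' : ℚ, (x' : ℝ) < z ∧ z ≤ y' ∧
        binOK t T lam k0 k1 Ar Bb x' y' = true := by
  intro l
  induction l with
  | nil =>
    intro x z h h1 h2
    simp only [binsOK, decide_eq_true_eq] at h
    have : (cap : ℝ) ≤ x := by exact_mod_cast h
    linarith
  | cons y l ih =>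
    intro x z h h1 h2
    simp only [binsOK, Bool.and_eq_true] at h
    by_cases hzy : z ≤ y
    · exact ⟨x, y, h1, hzy, h.1⟩
    · exact ih h.2 (not_le.1 hzy) h2

lemma Bbf_spec {t qt : ℚ} {U : ℝ} (ht : 0 ≤ t) (htu : (t : ℝ) ≤ U) (hq : (qt : ℝ) ≤ Qt t) :
    2 * Psi U ≤ ((Bbf t qt : ℚ) : ℝ) := by
  have h1 := Psi_anti htu
  have h2 : Real.exp (-((t ^ 2 / 2 : ℚ) : ℝ)) ≤ ((eUp (t ^ 2 / 2) : ℚ) : ℝ) :=
    le_eUp (by positivity)
  have h3 : Real.exp (-((t : ℝ) ^ 2 / 2)) ≤ ((eUp (t ^ 2 / 2) : ℚ) : ℝ) := by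
    refine le_trans (le_of_eq ?_) h2
    congr 1
    push_cast
    ring
  have ht' : (0 : ℝ) ≤ t := by exact_mod_cast ht
  have h4 : (t : ℝ) * qt ≤ t * Qt t := mul_le_mul_of_nonneg_left hq ht'
  have e1 : -(t : ℝ) ^ 2 / 2 = -((t : ℝ) ^ 2 / 2) := by ring
  simp only [Bbf]
  push_cast
  simp only [Psi] at h1 ⊢
  rw [e1] at h1
  push_cast at h3
  nlinarith

lemma Abf_spec {t T qt qT cc : ℚ} {U : ℝ} (ht : 0 ≤ t) (htu : (t : ℝ) ≤ U) (huT : U ≤ T)
    (hq : (qt : ℝ) ≤ Qt t) (hqT : (qT : ℝ) ≤ Qt T) (hc0 : 0 ≤ cc) (hc2 : cc < 2) :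
    Ac cc U ≤ ((Abf t T qt qT cc : ℚ) : ℝ) := by
  have ht' : (0 : ℝ) ≤ t := by exact_mod_cast ht
  have hT' : (0 : ℝ) ≤ T := ht'.trans (htu.trans huT)
  have hT0 : 0 ≤ T := by exact_mod_cast hT'
  have hc0' : (0 : ℝ) ≤ cc := by exact_mod_cast hc0
  have hc2' : (cc : ℝ) < 2 := by exact_mod_cast hc2
  have h3 : Real.exp (-((t : ℝ) ^ 2 / 2)) ≤ ((eUp (t ^ 2 / 2) : ℚ) : ℝ) := by
    have h2 : Real.exp (-((t ^ 2 / 2 : ℚ) : ℝ)) ≤ ((eUp (t ^ 2 / 2) : ℚ) : ℝ) :=
      le_eUp (by positivity)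
    refine le_trans (le_of_eq ?_) h2
    congr 1
    push_cast
    ring
  have h3T : Real.exp (-((T : ℝ) ^ 2 / 2)) ≤ ((eUp (T ^ 2 / 2) : ℚ) : ℝ) := by
    have h2 : Real.exp (-((T ^ 2 / 2 : ℚ) : ℝ)) ≤ ((eUp (T ^ 2 / 2) : ℚ) : ℝ) :=
      le_eUp (by positivity)
    refine le_trans (le_of_eq ?_) h2
    congr 1
    push_cast
    ring
  have e1 : -(t : ℝ) ^ 2 / 2 = -((t : ℝ) ^ 2 / 2) := by ring
  have e2 : -(T : ℝ) ^ 2 / 2 = -((T : ℝ) ^ 2 / 2) := by ring
  simp only [Abf]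
  split_ifs with hif
  · have hif' : (2 - (cc : ℝ)) * ((T : ℝ) ^ 2 - 1) ≤ 2 := by exact_mod_cast hif
    have h1 := Ac_le_max hc2' hif' ht' htu huT
    refine h1.trans ?_
    rw [Rat.cast_max]
    apply max_le_max
    · simp only [Ac]
      push_cast
      rw [e1]
      have := mul_le_mul_of_nonneg_left h3 hc0'
      have := mul_le_mul_of_nonneg_left hq ht'
      nlinarith
    · simp only [Ac]
      push_cast
      rw [e2]
      have := mul_le_mul_of_nonneg_left h3T hc0'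
      have := mul_le_mul_of_nonneg_left hqT hT'
      nlinarith
  · have h1 := Ac_le_cross hc0' ht' htu huT
    refine h1.trans ?_
    push_cast
    rw [e1]
    have := mul_le_mul_of_nonneg_left h3 hc0'
    have := mul_le_mul_of_nonneg_left hqT ht'
    nlinarith

variable {E : Type*} [NormedAddCommGroup E] [InnerProductSpace ℝ E] [FiniteDimensional ℝ E]
  [MeasurableSpace E] [BorelSpace E]

variable {ι : Type*} [Fintype ι]

/-- the geometric input -/
structure Geo (v : ι → E) (a τ : ι → ℝ) (n : E) (M : E → ℝ) : Prop where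
  hn : ‖n‖ = 1
  horth : ∀ j, ⟪v j, n⟫ = 0
  ha : ∀ j, 0 < a j
  hsum : ∑ j, a j = 1
  hneg : ∀ j l, j ≠ l → ⟪v j, v l⟫ ≤ 0
  hbal : ∑ j, (1 + a j) • v j = 0
  hvar : ∀ j, 1 - a j ≤ (1 + a j) * ‖v j‖ ^ 2
  hMint : Integrable M (stdGaussian E)
  hM : ∀ x j, (1 + a j) * ⟪v j, x⟫ - (a j - τ j) * ⟪n, x⟫ ≤ M x

/-- the fit of a table to the geometric input -/
structure Fit (c : Case) (a τ : ι → ℝ) (j1 : ι) : Prop where
  hp : (c.p : ℝ) ≤ a j1
  hq : a j1 < c.q
  hτ1 : τ j1 = c.τ1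
  hτr : ∀ l, l ≠ j1 → τ l = c.τr
  hcap : ∀ l, l ≠ j1 → a l ≤ c.cap
  hN : Fintype.card ι = c.N ∨ (c.N ≤ Fintype.card ι ∧ c.mono = true)

lemma norm_facts {v : ι → E} {a : ι → ℝ} {j : ι} (ha : 0 < a j) (ha1 : a j < 1)
    (hvar : 1 - a j ≤ (1 + a j) * ‖v j‖ ^ 2) :
    v j ≠ 0 ∧ (‖v j‖ ^ 2)⁻¹ ≤ (1 + a j) / (1 - a j) := by
  have h1 : 0 < 1 - a j := by linarith
  have h2 : 0 < 1 + a j := by linarith
  have h3 : 0 < ‖v j‖ ^ 2 := by
    by_contra hc
    push Not at hc
    have : (1 + a j) * ‖v j‖ ^ 2 ≤ 0 := mul_nonpos_of_nonneg_of_nonpos h2.le hc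
    linarith
  refine ⟨?_, ?_⟩
  · intro h0
    rw [h0, norm_zero] at h3
    norm_num at h3
  · rw [inv_eq_one_div, div_le_div_iff₀ h3 h1]
    linarith

lemma xb_mono {a y : ℝ} (hay : a ≤ y) (hy : y < 1) :
    (1 + a) / (1 - a) ≤ (1 + y) / (1 - y) := by
  rw [div_le_div_iff₀ (by linarith) (by linarith)]
  nlinarith

/-- One level of the chain. -/
theorem row_step [Nonempty ι] [DecidableEq ι] {v : ι → E} {a τ : ι → ℝ} {n : E} {M : E → ℝ}
    {j1 : ι} (g : Geo v a τ n M) {c : Case} (f : Fit c a τ j1) {T R' qT : ℚ} {r : Row}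
    (hc0 : 0 ≤ 1 + c.S - 2 * c.τ1) (hc1 : 1 + c.S - 2 * c.τ1 < 2)
    (hd0 : 0 ≤ 1 + c.S - 2 * c.τr) (hd1 : 1 + c.S - 2 * c.τr < 2)
    (hq1 : c.q ≤ 1) (hcap1 : c.cap < 1) (hp0 : 0 ≤ c.p)
    (hok : rowOK c T R' qT r = true) (hqT : (qT : ℝ) ≤ Qt T)
    (hclaim : ChainClaim v (Gf v n M c.S) T R') :
    (r.qt : ℝ) ≤ Qt r.t ∧ ChainClaim v (Gf v n M c.S) r.t r.Rc := by
  simp only [rowOK, Bool.and_eq_true, Bool.or_eq_true, decide_eq_true_eq, Bool.not_eq_true'] at hok
  obtain ⟨⟨⟨⟨⟨⟨⟨⟨⟨⟨⟨⟨ht0, htT⟩, hlam⟩, hk1⟩, heta⟩, hqt⟩, hBb⟩, hcv⟩, hAr⟩, hv1⟩, hbins⟩, hRc⟩, hmono⟩ := hok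
  have ht0' : (0 : ℝ) < r.t := by exact_mod_cast ht0
  have htT' : (r.t : ℝ) < T := by exact_mod_cast htT
  have hlam' : (0 : ℝ) < r.lam := by exact_mod_cast hlam
  have hk1' : (0 : ℝ) ≤ r.k1 := by exact_mod_cast hk1
  have heta' : (0 : ℝ) ≤ r.eta1 := by exact_mod_cast heta
  have hp0' : (0 : ℝ) ≤ c.p := by exact_mod_cast hp0
  have hq1' : (c.q : ℝ) ≤ 1 := by exact_mod_cast hq1
  have hcap1' : (c.cap : ℝ) < 1 := by exact_mod_cast hcap1
  have hBb' : (0 : ℝ) ≤ Bbf r.t r.qt := by exact_mod_cast hBb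
  have hcv' : (0 : ℝ) ≤ cv1f c T R' qT r := by exact_mod_cast hcv
  have hAr' : (c.cap : ℝ) * Bbf r.t r.qt ≤ Arf c T R' qT r := by
    have : c.cap * Bbf r.t r.qt ≤ Arf c T R' qT r := by linarith
    exact_mod_cast this
  -- the tail bound at the lower level
  have hqt' : (r.qt : ℝ) ≤ Qt r.t := by
    have h1 := Qt_step htT'.le
    have hM0 : 0 ≤ (T ^ 2 + r.t * T + r.t ^ 2) / 6 := by
      have : 0 < T := ht0.trans htT
      positivity
    have h2 := eLow_le hM0
    have h3 : (r.qt : ℝ) ≤ qT + ((T : ℝ) - r.t) * ((eLow ((T ^ 2 + r.t * T + r.t ^ 2) / 6) : ℚ) : ℝ) := by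
      exact_mod_cast hqt
    have e1 : -(((r.t : ℝ) ^ 2 + r.t * T + (T : ℝ) ^ 2)) / 6 =
        -(((T ^ 2 + r.t * T + r.t ^ 2) / 6 : ℚ) : ℝ) := by
      push_cast
      ring
    rw [e1] at h1
    have h4 := mul_le_mul_of_nonneg_left h2 (sub_nonneg.2 htT'.le)
    linarith
  refine ⟨hqt', ?_⟩
  -- the largest coefficient is below one
  have ha1 : a j1 < 1 := f.hq.trans_le hq1'
  have hal : ∀ l, l ≠ j1 → a l ≤ c.cap := f.hcap
  have hal1 : ∀ l, l ≠ j1 → a l < 1 := fun l hl => (hal l hl).trans_lt hcap1'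
  have hlt1 : ∀ l, a l < 1 := by
    intro l
    by_cases hl : l = j1
    · rw [hl]; exact ha1
    · exact hal1 l hl
  -- the constants of the chain step
  set Bb : ℝ := ((Bbf r.t r.qt : ℚ) : ℝ) with hBbdef
  set Ar : ℝ := ((Arf c T R' qT r : ℚ) : ℝ) with hArdef
  set cv : ℝ := ((cv1f c T R' qT r : ℚ) : ℝ) with hcvdef
  set cf : ι → ℝ := fun j => if j = j1 then cv else Ar - Bb * a j with hcf
  set ηf : ι → ℝ := fun j => ((r.k0 : ℝ) - r.k1 * a j) +
    (if j = j1 then (r.eta1 : ℝ) - (r.k0 - r.k1 * a j1) else 0) with hηf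
  have hη1 : ηf j1 = r.eta1 := by
    simp only [hηf, if_true]
    ring
  have hηl : ∀ l, l ≠ j1 → ηf l = (r.k0 : ℝ) - r.k1 * a l := by
    intro l hl
    simp only [hηf, if_neg hl, add_zero]
  have hcf1 : cf j1 = cv := by simp only [hcf, if_true]
  have hcfl : ∀ l, l ≠ j1 → cf l = Ar - Bb * a l := by
    intro l hl
    simp only [hcf, if_neg hl]
  have hcf0 : ∀ j, 0 ≤ cf j := by
    intro j
    by_cases hj : j = j1
    · rw [hj, hcf1]; exact hcv'
    · rw [hcfl j hj]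
      have := mul_le_mul_of_nonneg_right (hal j hj) hBb'
      nlinarith
  obtain ⟨hae, -⟩ := integrable_slice n g.hn (integrable_cellG v n c.S g.hMint)
  have hGi := integrable_Gf v n c.S g.hn g.hMint
  refine chain_step v a (G := Gf v n M c.S) hGi g.hsum g.hbal (T := T) (R' := R') (lam := r.lam)
    cf ηf htT' ?_ hcf0 ?_ ?_ hclaim
  · -- the bound on the band
    filter_upwards [hae] with x hx j htop hjt hjT
    have hG := inner_bound2 v a τ n M c.S g.hn g.horth g.hM x j htop hx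
    rw [show (1 + (c.S : ℝ) + 2 * a j - 2 * τ j) = 1 + (c.S : ℝ) + 2 * a j - 2 * τ j from rfl,
      gb_decomp] at hG
    have hP := Bbf_spec (qt := r.qt) ht0.le hjt.le hqt'
    by_cases hj : j = j1
    · subst hj
      rw [f.hτ1] at hG
      have hA := Abf_spec (cc := 1 + c.S - 2 * c.τ1) ht0.le hjt.le hjT hqt' hqT hc0 hc1
      have e1 : ((1 + c.S - 2 * c.τ1 : ℚ) : ℝ) = 1 + (c.S : ℝ) - 2 * c.τ1 := by push_cast; ring
      rw [e1] at hA
      rw [hcf1]
      have h2 : 2 * a j * Psi ⟪v j, x⟫ ≤ c.q * Bb := by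
        have h3 : a j * (2 * Psi ⟪v j, x⟫) ≤ a j * Bb :=
          mul_le_mul_of_nonneg_left hP (g.ha j).le
        have h4 : a j * Bb ≤ c.q * Bb := mul_le_mul_of_nonneg_right f.hq.le hBb'
        linarith
      have hcvval : cv = -(((Abf r.t T r.qt qT (1 + c.S - 2 * c.τ1) : ℚ) : ℝ) + c.q * Bb + R') := by
        simp only [hcvdef, cv1f, hBbdef]
        push_cast
        ring
      rw [hcvval]
      linarith
    · rw [f.hτr j hj] at hG
      have hA := Abf_spec (cc := 1 + c.S - 2 * c.τr) ht0.le hjt.le hjT hqt' hqT hd0 hd1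
      have e1 : ((1 + c.S - 2 * c.τr : ℚ) : ℝ) = 1 + (c.S : ℝ) - 2 * c.τr := by push_cast; ring
      rw [e1] at hA
      rw [hcfl j hj]
      have h2 : 2 * a j * Psi ⟪v j, x⟫ ≤ a j * Bb := by
        have h3 : a j * (2 * Psi ⟪v j, x⟫) ≤ a j * Bb :=
          mul_le_mul_of_nonneg_left hP (g.ha j).le
        linarith
      have hArval : Ar = -(((Abf r.t T r.qt qT (1 + c.S - 2 * c.τr) : ℚ) : ℝ) + R') := by
        simp only [hArdef, Arf]
        push_cast
        ring
      rw [hArval]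
      nlinarith
  · -- the per vertex inequalities
    intro j
    have hneg : ∀ l, l ≠ j → ⟪v l, v j⟫ ≤ 0 := fun l hl => g.hneg l j hl
    obtain ⟨hvj, hxj⟩ := norm_facts (g.ha j) (hlt1 j) (g.hvar j)
    have hal0 : 0 < 1 + a j := by linarith [g.ha j]
    by_cases hj : j = j1
    · subst hj
      rw [hη1, hcf1]
      rcases hv1 with h0 | ⟨hq, hle⟩
      · -- the trivial case
        rw [h0]
        push_cast
        apply lemmaL v j hneg hvj (l := 0) (θ := 0) (Y := 0) (xbar := (‖v j‖ ^ 2)⁻¹) (mlow := 0)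
          (e := 0) ht0' htT' hal0 hlam' hcv' le_rfl le_rfl
        intro h
        exact absurd h (lt_irrefl _)
      · have hq' : (c.q : ℝ) < 1 := by exact_mod_cast hq
        have hxb : 0 ≤ (1 + c.q) / (1 - c.q) := by
          have h2 : 0 ≤ c.q := by
            have : (0 : ℝ) ≤ c.q := (g.ha j).le.trans f.hq.le
            exact_mod_cast this
          apply div_nonneg <;> linarith
        have hp1 : 0 < 1 + c.p := by linarith
        have hm0 : 0 ≤ ru6 (r.eta1 / (r.lam * (1 + c.p))) :=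
          le_trans (by positivity) (le_ru6 _)
        apply vertexL v j hneg hvj ht0 htT hxb hm0 hal0 hlam' hcv'
        · refine hxj.trans ?_
          have := xb_mono f.hq.le hq'
          push_cast
          exact this
        · intro hη
          have hp' : (1 : ℝ) + c.p ≤ 1 + a j := by linarith [f.hp]
          have hp1' : (0 : ℝ) < 1 + c.p := by linarith
          constructor
          · have hr : ((r.eta1 / (r.lam * (1 + c.p)) : ℚ) : ℝ) ≤
                ((ru6 (r.eta1 / (r.lam * (1 + c.p))) : ℚ) : ℝ) := by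
              exact_mod_cast le_ru6 _
            refine le_trans ?_ hr
            push_cast
            exact div_le_div_of_nonneg_left heta' (by positivity) (by
              exact mul_le_mul_of_nonneg_left hp' hlam'.le)
          · have h1 : ((r.eta1 : ℝ)) ^ 2 ≤ 2 * ((T : ℝ) - r.t) * r.lam * cv * (1 + c.p) *
                ((Eb r.t T ((1 + c.q) / (1 - c.q)) (ru6 (r.eta1 / (r.lam * (1 + c.p)))) : ℚ) : ℝ) := by
              have h0 := (Rat.cast_le (K := ℝ)).2 hle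
              push_cast at h0
              exact h0
            refine h1.trans ?_
            have hE : (0 : ℝ) ≤
                ((Eb r.t T ((1 + c.q) / (1 - c.q)) (ru6 (r.eta1 / (r.lam * (1 + c.p)))) : ℚ) : ℝ) := by
              exact_mod_cast Eb_nonneg _ _ _ _
            apply mul_le_mul_of_nonneg_right _ hE
            apply mul_le_mul_of_nonneg_left hp'
            have : 0 ≤ (T : ℝ) - r.t := by linarith
            positivity
    · rw [hηl j hj, hcfl j hj]
      have hal2 := hal j hj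
      have htriv : (r.k0 : ℝ) - r.k1 * a j ≤ 0 →
          ∫ y in {x | ∀ m, ⟪v m, x⟫ ≤ (r.t : ℝ)}, (((r.k0 : ℝ) - r.k1 * a j) -
            r.lam * (1 + a j) * (r.t - ⟪v j, y⟫)) ∂(stdGaussian E) ≤
          (Ar - Bb * a j) * (stdGaussian E).real {x | (r.t : ℝ) < ⟪v j, x⟫ ∧ ⟪v j, x⟫ ≤ T ∧
            ∀ m, m ≠ j → ⟪v m, x⟫ ≤ (r.t : ℝ)} := by
        intro h
        have hc2 : 0 ≤ Ar - Bb * a j := by
          have := hcf0 j
          rwa [hcfl j hj] at this
        apply lemmaL v j hneg hvj (l := 0) (θ := 0) (Y := 0) (xbar := (‖v j‖ ^ 2)⁻¹) (mlow := 0)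
          (e := 0) ht0' htT' hal0 hlam' hc2 le_rfl le_rfl
        intro h'
        exact absurd h' (not_lt.2 h)
      have hz0 : ((0 : ℚ) : ℝ) < a j := by simpa using g.ha j
      obtain ⟨x', y', hx', hy', hbin⟩ := binsOK_find hbins hz0 hal2
      have hmon : (r.k0 : ℝ) - r.k1 * a j ≤ (r.k0 : ℝ) - r.k1 * x' := by
        have := mul_le_mul_of_nonneg_left hx'.le hk1'
        linarith
      by_cases hb0 : r.k0 - r.k1 * x' ≤ 0
      · apply htriv
        have : (r.k0 : ℝ) - r.k1 * x' ≤ 0 := by exact_mod_cast hb0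
        linarith
      · simp only [binOK, Bool.or_eq_true, Bool.and_eq_true, decide_eq_true_eq] at hbin
        rcases hbin with hb1 | ⟨⟨hy1, hx0⟩, hle⟩
        · exact absurd hb1 hb0
        · push Not at hb0
          have hb0' : (0 : ℝ) < (r.k0 : ℝ) - r.k1 * x' := by exact_mod_cast hb0
          have hy1' : (y' : ℝ) < 1 := by exact_mod_cast hy1
          have hx0' : (0 : ℝ) ≤ x' := by exact_mod_cast hx0
          have hxb : 0 ≤ (1 + y') / (1 - y') := by
            have hy0 : 0 ≤ y' := by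
              have : (0 : ℝ) ≤ y' := (g.ha j).le.trans hy'
              exact_mod_cast this
            apply div_nonneg <;> linarith
          have hm0 : 0 ≤ ru6 ((r.k0 - r.k1 * x') / (r.lam * (1 + x'))) := by
            have h1 : 0 ≤ r.k0 - r.k1 * x' := hb0.le
            have h2 : 0 < 1 + x' := by linarith
            exact le_trans (by positivity) (le_ru6 _)
          have hc2 : 0 ≤ Ar - Bb * a j := by
            have := hcf0 j
            rwa [hcfl j hj] at this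
          apply vertexL v j hneg hvj ht0 htT hxb hm0 hal0 hlam' hc2
          · refine hxj.trans ?_
            have := xb_mono hy' hy1'
            push_cast
            exact this
          · intro hη
            have hp' : (1 : ℝ) + x' ≤ 1 + a j := by linarith
            have hp1' : (0 : ℝ) < 1 + x' := by linarith
            constructor
            · have hr : (((r.k0 - r.k1 * x') / (r.lam * (1 + x')) : ℚ) : ℝ) ≤
                  ((ru6 ((r.k0 - r.k1 * x') / (r.lam * (1 + x'))) : ℚ) : ℝ) := by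
                exact_mod_cast le_ru6 _
              refine le_trans ?_ hr
              push_cast
              exact div_le_div₀ hb0'.le hmon (by positivity)
                (mul_le_mul_of_nonneg_left hp' hlam'.le)
            · have h1 : ((r.k0 : ℝ) - r.k1 * x') ^ 2 ≤ 2 * ((T : ℝ) - r.t) * r.lam *
                  (Ar - Bb * y') * (1 + x') *
                  ((Eb r.t T ((1 + y') / (1 - y')) (ru6 ((r.k0 - r.k1 * x') / (r.lam * (1 + x')))) : ℚ) : ℝ) := by
                have h0 := (Rat.cast_le (K := ℝ)).2 hle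
                push_cast at h0
                exact h0
              have h2 : ((r.k0 : ℝ) - r.k1 * a j) ^ 2 ≤ ((r.k0 : ℝ) - r.k1 * x') ^ 2 :=
                pow_le_pow_left₀ hη.le hmon 2
              refine h2.trans (h1.trans ?_)
              have hE : (0 : ℝ) ≤
                  ((Eb r.t T ((1 + y') / (1 - y')) (ru6 ((r.k0 - r.k1 * x') / (r.lam * (1 + x')))) : ℚ) : ℝ) := by
                exact_mod_cast Eb_nonneg _ _ _ _
              apply mul_le_mul_of_nonneg_right _ hE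
              have hD : 0 ≤ 2 * ((T : ℝ) - r.t) * r.lam := by
                have : 0 ≤ (T : ℝ) - r.t := by linarith
                positivity
              have h3 : (Ar - Bb * y') * (1 + x') ≤ (Ar - Bb * a j) * (1 + a j) := by
                have h4 : Ar - Bb * y' ≤ Ar - Bb * a j := by
                  have := mul_le_mul_of_nonneg_left hy' hBb'
                  linarith
                calc (Ar - Bb * y') * (1 + x') ≤ (Ar - Bb * a j) * (1 + x') :=
                      mul_le_mul_of_nonneg_right h4 hp1'.le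
                  _ ≤ (Ar - Bb * a j) * (1 + a j) := mul_le_mul_of_nonneg_left hp' hc2
              calc 2 * ((T : ℝ) - r.t) * r.lam * (Ar - Bb * y') * (1 + x')
                  = 2 * ((T : ℝ) - r.t) * r.lam * ((Ar - Bb * y') * (1 + x')) := by ring
                _ ≤ 2 * ((T : ℝ) - r.t) * r.lam * ((Ar - Bb * a j) * (1 + a j)) :=
                    mul_le_mul_of_nonneg_left h3 hD
                _ = 2 * ((T : ℝ) - r.t) * r.lam * (Ar - Bb * a j) * (1 + a j) := by ring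
  · -- the decrement
    have hsumη : ∑ j, ηf j = (Fintype.card ι : ℝ) * r.k0 - r.k1 + ((r.eta1 : ℝ) - (r.k0 - r.k1 * a j1)) := by
      simp only [hηf]
      rw [Finset.sum_add_distrib, Finset.sum_sub_distrib, ← Finset.mul_sum, g.hsum,
        Finset.sum_ite_eq' Finset.univ j1]
      simp
    rw [hsumη]
    have hRc' : (R' : ℝ) - (r.eta1 + ((c.N : ℝ) - 1) * r.k0 - r.k1 * (1 - c.p) -
        r.lam * r.t * ((c.N : ℝ) + 1)) ≤ r.Rc := by
      have h0 := (Rat.cast_le (K := ℝ)).2 hRc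
      simp only [Dval] at h0
      push_cast at h0
      exact h0
    have h1 : 0 ≤ (r.k1 : ℝ) * (a j1 - c.p) := mul_nonneg hk1' (by linarith [f.hp])
    have h2 : 0 ≤ ((Fintype.card ι : ℝ) - c.N) * ((r.k0 : ℝ) - r.lam * r.t) := by
      rcases f.hN with hN | ⟨hN, hm⟩
      · rw [hN]
        simp
      · have h3 : (c.N : ℝ) ≤ Fintype.card ι := by exact_mod_cast hN
        have h4 : r.lam * r.t ≤ r.k0 := by
          rcases hmono with h5 | h5
          · rw [hm] at h5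
            exact absurd h5 (by simp)
          · exact h5
        have h5 : (r.lam : ℝ) * r.t ≤ r.k0 := by exact_mod_cast h4
        exact mul_nonneg (by linarith) (by linarith)
    nlinarith

/-- the chain from any level down to the base -/
theorem chk_sound [Nonempty ι] [DecidableEq ι] {v : ι → E} {a τ : ι → ℝ} {n : E} {M : E → ℝ}
    {j1 : ι} (g : Geo v a τ n M) {c : Case} (f : Fit c a τ j1)
    (hc0 : 0 ≤ 1 + c.S - 2 * c.τ1) (hc1 : 1 + c.S - 2 * c.τ1 < 2)
    (hd0 : 0 ≤ 1 + c.S - 2 * c.τr) (hd1 : 1 + c.S - 2 * c.τr < 2)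
    (hq1 : c.q ≤ 1) (hcap1 : c.cap < 1) (hp0 : 0 ≤ c.p) :
    ∀ (rows : List Row) (T R' qT : ℚ), chk c T R' qT rows = true → (qT : ℝ) ≤ Qt T →
      ChainClaim v (Gf v n M c.S) T R' → ∫ x, Gf v n M c.S x ∂(stdGaussian E) ≤ 0 := by
  intro rows
  induction rows with
  | nil =>
    intro T R' qT hchk _ hclaim
    simp only [chk, decide_eq_true_eq] at hchk
    have hGi := integrable_Gf v n c.S g.hn g.hMint
    obtain ⟨hae, -⟩ := integrable_slice n g.hn (integrable_cellG v n c.S g.hMint)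
    refine chain_base v (low := ((lowf c : ℚ) : ℝ)) hGi ?_ hclaim ?_
    · filter_upwards [hae] with x hx _
      obtain ⟨j, -, hj⟩ := Finset.exists_max_image Finset.univ (fun l => ⟪v l, x⟫)
        Finset.univ_nonempty
      have hj' : ∀ l, ⟪v l, x⟫ ≤ ⟪v j, x⟫ := fun l => hj l (Finset.mem_univ l)
      have hu0 := top_nonneg (fun l => (g.ha l).le) g.hbal hj'
      have hG := inner_bound2 v a τ n M c.S g.hn g.horth g.hM x j hj' hx
      have hlow1 : (1 + (c.S : ℝ) + 2 * c.q - 2 * c.τ1) ≤ ((lowf c : ℚ) : ℝ) := by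
        have h1 : 1 + c.S + 2 * c.q - 2 * c.τ1 ≤ lowf c := le_max_left _ _
        exact_mod_cast h1
      have hlow2 : (1 + (c.S : ℝ) + 2 * c.cap - 2 * c.τr) ≤ ((lowf c : ℚ) : ℝ) := by
        have h1 : 1 + c.S + 2 * c.cap - 2 * c.τr ≤ lowf c := le_max_right _ _
        exact_mod_cast h1
      have haj := g.ha j
      by_cases hjj : j = j1
      · subst hjj
        rw [f.hτ1] at hG
        have hβ : 0 ≤ 1 + (c.S : ℝ) + 2 * a j - 2 * c.τ1 := by
          have : (0 : ℝ) ≤ 1 + c.S - 2 * c.τ1 := by exact_mod_cast hc0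
          linarith
        have h1 := gb_le hβ (by linarith) hu0 (al := 1 + a j)
        have := f.hq
        linarith
      · rw [f.hτr j hjj] at hG
        have hβ : 0 ≤ 1 + (c.S : ℝ) + 2 * a j - 2 * c.τr := by
          have : (0 : ℝ) ≤ 1 + c.S - 2 * c.τr := by exact_mod_cast hd0
          linarith
        have h1 := gb_le hβ (by linarith) hu0 (al := 1 + a j)
        have := f.hcap j hjj
        linarith
    · exact_mod_cast hchk
  | cons r rs ih =>
    intro T R' qT hchk hq hclaim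
    simp only [chk, Bool.and_eq_true] at hchk
    obtain ⟨h1, h2⟩ := row_step g f hc0 hc1 hd0 hd1 hq1 hcap1 hp0 hchk.1 hq hclaim
    exact ih _ _ _ hchk.2 h1 h2

/-- The main inequality from a table. -/
theorem case_sound [Nonempty ι] [DecidableEq ι] {v : ι → E} {a τ : ι → ℝ} {n : E} {M : E → ℝ}
    {j1 : ι} (g : Geo v a τ n M) {c : Case} {qtop : ℚ} (f : Fit c a τ j1)
    (hok : caseOK c qtop = true) (hq : (qtop : ℝ) ≤ Qt c.Ttop) :
    ∫ x, cellG v n M c.S x ∂(stdGaussian E) ≤ 0 := by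
  simp only [caseOK, Bool.and_eq_true, decide_eq_true_eq] at hok
  obtain ⟨⟨⟨⟨⟨⟨⟨⟨⟨⟨⟨⟨⟨hp0, hq1⟩, hcap0⟩, hcap1⟩, hT0⟩, hc0⟩, hc1⟩, hd0⟩, hd1⟩, hk1⟩, hk2⟩, ht1⟩, ht2⟩, hchk⟩ := hok
  have hT0' : (0 : ℝ) < c.Ttop := by exact_mod_cast hT0
  have hGi := integrable_Gf v n c.S g.hn g.hMint
  obtain ⟨hae, -⟩ := integrable_slice n g.hn (integrable_cellG v n c.S g.hMint)
  have htop : ChainClaim v (Gf v n M c.S) c.Ttop ((0 : ℚ) : ℝ) := by
    have := chain_top v (T := c.Ttop) hGi (by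
      filter_upwards [hae] with x hx j hj hjT
      have hG := inner_bound2 v a τ n M c.S g.hn g.horth g.hM x j hj hx
      have haj := g.ha j
      have hk1' : (0 : ℝ) < 1 - c.S + 2 * c.τ1 := by exact_mod_cast hk1
      have hk2' : (0 : ℝ) < 1 - c.S + 2 * c.τr := by exact_mod_cast hk2
      have ht1' : 1 + (c.S : ℝ) + 2 * c.q - 2 * c.τ1 ≤ (1 - c.S + 2 * c.τ1) * (c.Ttop : ℝ) ^ 2 := by
        exact_mod_cast ht1
      have ht2' : 1 + (c.S : ℝ) + 2 * c.cap - 2 * c.τr ≤ (1 - c.S + 2 * c.τr) * (c.Ttop : ℝ) ^ 2 := by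
        exact_mod_cast ht2
      by_cases hjj : j = j1
      · subst hjj
        rw [f.hτ1] at hG
        refine hG.trans (gb_nonpos hT0' hjT.le (by linarith) (by linarith) ?_)
        have e : 2 * (1 + a j) - (1 + (c.S : ℝ) + 2 * a j - 2 * c.τ1) = 1 - c.S + 2 * c.τ1 := by ring
        rw [e]
        have := f.hq
        linarith
      · rw [f.hτr j hjj] at hG
        refine hG.trans (gb_nonpos hT0' hjT.le (by linarith) (by linarith) ?_)
        have e : 2 * (1 + a j) - (1 + (c.S : ℝ) + 2 * a j - 2 * c.τr) = 1 - c.S + 2 * c.τr := by ring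
        rw [e]
        have := f.hcap j hjj
        linarith)
    simpa using this
  have hfinal := chk_sound g f hc0 hc1 hd0 hd1 hq1 hcap1 hp0 c.rows c.Ttop 0 qtop hchk hq htop
  rw [integral_Gf v n c.S g.hn g.hMint] at hfinal
  have h0 := inv_pos.2 ph_zero_pos
  by_contra hc
  push Not at hc
  have := mul_pos h0 hc
  linarith

end Vale.Agent.P226h14
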