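import Vale.Agent.P226h14.Grow2

open MeasureTheory ProbabilityTheory Real Set Filter Topology
open scoped RealInnerProductSpace ENNReal

namespace Vale.Agent.P226h14

variable {E : Type*} [NormedAddCommGroup E] [InnerProductSpace ℝ E] [FiniteDimensional ℝ E]
  [MeasurableSpace E] [BorelSpace E]

variable {ι : Type*} [Fintype ι]

/-- the chain statement at one level -/
def ChainClaim (v : ι → E) (G : E → ℝ) (t R : ℝ) : Prop :=
  ∫ x in {x | ∀ m, ⟪v m, x⟫ ≤ t}ᶜ, G x ∂(stdGaussian E) ≤
    R * (stdGaussian E).real {x | ∀ m, ⟪v m, x⟫ ≤ t}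

/-- One step of the chain. -/
theorem chain_step [Nonempty ι] (v : ι → E) (a : ι → ℝ) {G : E → ℝ}
    (hG : Integrable G (stdGaussian E))
    (hsum : ∑ j, a j = 1)
    (hbal : ∑ j, (1 + a j) • v j = 0)
    {t T R' R lam : ℝ} (c η : ι → ℝ) (htT : t < T)
    (hband : ∀ᵐ x ∂(stdGaussian E), ∀ j, (∀ l, ⟪v l, x⟫ ≤ ⟪v j, x⟫) → t < ⟪v j, x⟫ →
      ⟪v j, x⟫ ≤ T → G x + R' ≤ - c j)
    (hc : ∀ j, 0 ≤ c j)
    (hL : ∀ j, ∫ y in {x | ∀ m, ⟪v m, x⟫ ≤ t},
        (η j - lam * (1 + a j) * (t - ⟪v j, y⟫)) ∂(stdGaussian E) ≤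
      c j * (stdGaussian E).real {x | t < ⟪v j, x⟫ ∧ ⟪v j, x⟫ ≤ T ∧ ∀ m, m ≠ j → ⟪v m, x⟫ ≤ t})
    (hR : R' - (∑ j, η j - lam * t * (Fintype.card ι + 1)) ≤ R)
    (hclaim : ChainClaim v G T R') : ChainClaim v G t R := by
  classical
  set γ := stdGaussian E with hγ
  set K : Set E := {x | ∀ m, ⟪v m, x⟫ ≤ t} with hK
  set K' : Set E := {x | ∀ m, ⟪v m, x⟫ ≤ T} with hK'
  set S : ι → Set E := fun j => {x | t < ⟪v j, x⟫ ∧ ⟪v j, x⟫ ≤ T ∧ ∀ m, m ≠ j → ⟪v m, x⟫ ≤ t}
    with hS
  have hmK : MeasurableSet K := measurableSet_K v t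
  have hmK' : MeasurableSet K' := measurableSet_K v T
  have hmS : ∀ j, MeasurableSet (S j) := fun j => measurableSet_layer v j
  have hsub : K ⊆ K' := fun x hx m => (hx m).trans htT.le
  set B : Set E := K' \ K with hB
  have hmB : MeasurableSet B := hmK'.diff hmK
  have hcompl : Kᶜ = K'ᶜ ∪ B := by
    ext x
    simp only [mem_compl_iff, mem_union, hB, Set.mem_sdiff]
    constructor
    · intro hx
      by_cases hx' : x ∈ K'
      · exact Or.inr ⟨hx', hx⟩
      · exact Or.inl hx'
    · rintro (hx | hx)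
      · exact fun h => hx (hsub h)
      · exact hx.2
  have hdisj : Disjoint K'ᶜ B := by
    rw [Set.disjoint_left]
    intro x hx hx'
    exact hx hx'.1
  have hmeas : γ.real K' = γ.real K + γ.real B := by
    have h1 : K' = K ∪ B := by
      rw [hB, Set.union_sdiff_cancel hsub]
    rw [h1, measureReal_union Set.disjoint_sdiff_right hmB]
  have hsplit : ∫ x in Kᶜ, G x ∂γ = ∫ x in K'ᶜ, G x ∂γ + ∫ x in B, G x ∂γ := by
    rw [hcompl]
    exact setIntegral_union hdisj hmB hG.integrableOn hG.integrableOn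
  have hSsub : ∀ j, S j ⊆ B := by
    intro j x hx
    refine ⟨?_, ?_⟩
    · intro m
      by_cases hm : m = j
      · rw [hm]; exact hx.2.1
      · exact (hx.2.2 m hm).trans htT.le
    · intro hxK
      exact absurd (hxK j) (not_le.2 hx.1)
  -- the comparison on the band
  set W : E → ℝ := fun x => - ∑ j, c j * (S j).indicator (fun _ => (1 : ℝ)) x with hW
  have hWi : Integrable W γ := by
    apply Integrable.neg
    exact integrable_finsetSum _ fun j _ =>
      ((integrable_const (1 : ℝ)).indicator (hmS j)).const_mul _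
  have hband2 : ∫ x in B, (G x + R') ∂γ ≤ ∫ x in B, W x ∂γ := by
    apply setIntegral_mono_on_ae
      ((hG.integrableOn).add (integrableOn_const (by simp))) hWi.integrableOn hmB
    filter_upwards [hband] with x hx hxB
    obtain ⟨j, -, hj⟩ := Finset.exists_max_image Finset.univ (fun l => ⟪v l, x⟫)
      Finset.univ_nonempty
    have hj' : ∀ l, ⟪v l, x⟫ ≤ ⟪v j, x⟫ := fun l => hj l (Finset.mem_univ l)
    have hjt : t < ⟪v j, x⟫ := by
      by_contra h0
      exact hxB.2 fun m => (hj' m).trans (not_lt.1 h0)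
    have h1 := hx j hj' hjt (hxB.1 j)
    refine h1.trans ?_
    simp only [hW]
    rw [neg_le_neg_iff]
    have h2 : ∑ l, c l * (S l).indicator (fun _ => (1 : ℝ)) x =
        c j * (S j).indicator (fun _ => (1 : ℝ)) x := by
      apply Finset.sum_eq_single j
      · intro l _ hl
        have : x ∉ S l := by
          intro hxl
          have := hxl.2.2 j (Ne.symm hl)
          linarith
        rw [indicator_of_notMem this, mul_zero]
      · intro h
        exact absurd (Finset.mem_univ j) h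
    rw [h2]
    have h3 : (S j).indicator (fun _ => (1 : ℝ)) x ≤ 1 := by
      by_cases h : x ∈ S j
      · rw [indicator_of_mem h]
      · rw [indicator_of_notMem h]; exact zero_le_one
    have := hc j
    nlinarith
  have hWval : ∫ x in B, W x ∂γ = - ∑ j, c j * γ.real (S j) := by
    simp only [hW]
    rw [integral_neg, integral_finsetSum]
    · congr 1
      apply Finset.sum_congr rfl
      intro j _
      rw [integral_const_mul, setIntegral_indicator (hmS j)]
      have : B ∩ S j = S j := inter_eq_right.2 (hSsub j)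
      rw [this]
      simp
    · intro j _
      exact (((integrable_const (1 : ℝ)).indicator (hmS j)).const_mul _).integrableOn
  have hBval : ∫ x in B, (G x + R') ∂γ = ∫ x in B, G x ∂γ + R' * γ.real B := by
    rw [integral_add hG.integrableOn (integrableOn_const (by simp))]
    simp [mul_comm]
  -- the sum over vertices
  have hsumL : (∑ j, η j - lam * t * (Fintype.card ι + 1)) * γ.real K ≤ ∑ j, c j * γ.real (S j) := by
    have h1 : ∑ j, ∫ y in K, (η j - lam * (1 + a j) * (t - ⟪v j, y⟫)) ∂γ ≤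
        ∑ j, c j * γ.real (S j) := Finset.sum_le_sum fun j _ => hL j
    refine le_trans (le_of_eq ?_) h1
    have hint : ∀ j, IntegrableOn (fun y : E => η j - lam * (1 + a j) * (t - ⟪v j, y⟫)) K γ := by
      intro j
      have h2 : Integrable (fun y : E => ⟪v j, y⟫) γ :=
        IsGaussian.integrable_dual (stdGaussian E) (innerSL ℝ (v j))
      exact ((integrable_const _).sub (((integrable_const _).sub h2).const_mul _)).integrableOn
    rw [← integral_finsetSum _ fun j _ => hint j]
    have hpt : ∀ y, ∑ j, (η j - lam * (1 + a j) * (t - ⟪v j, y⟫)) =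
        ∑ j, η j - lam * t * (Fintype.card ι + 1) := by
      intro y
      have h3 : ∑ j, (1 + a j) * ⟪v j, y⟫ = 0 := by
        have := congrArg (fun z => ⟪z, y⟫) hbal
        simp only [sum_inner, inner_smul_left, inner_zero_left] at this
        simpa using this
      have h4 : ∑ j, (1 + a j) = (Fintype.card ι : ℝ) + 1 := by
        rw [Finset.sum_add_distrib, hsum]
        simp
      have h5 : ∀ j, η j - lam * (1 + a j) * (t - ⟪v j, y⟫) =
          η j - lam * t * (1 + a j) + lam * ((1 + a j) * ⟪v j, y⟫) := by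
        intro j
        ring
      simp_rw [h5]
      rw [Finset.sum_add_distrib, Finset.sum_sub_distrib, ← Finset.mul_sum, ← Finset.mul_sum, h3, h4]
      ring
    simp_rw [hpt]
    simp [mul_comm]
  -- conclude
  have hK0 : 0 ≤ γ.real K := measureReal_nonneg
  have hmul := mul_le_mul_of_nonneg_right hR hK0
  simp only [ChainClaim] at hclaim ⊢
  change ∫ x in Kᶜ, G x ∂γ ≤ R * γ.real K
  change ∫ x in K'ᶜ, G x ∂γ ≤ R' * γ.real K' at hclaim
  rw [hsplit]
  rw [hmeas] at hclaim
  rw [hBval, hWval] at hband2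
  have e1 : (R' - (∑ j, η j - lam * t * (Fintype.card ι + 1))) * γ.real K =
      R' * γ.real K - (∑ j, η j - lam * t * (Fintype.card ι + 1)) * γ.real K := by ring
  have e2 : R' * (γ.real K + γ.real B) = R' * γ.real K + R' * γ.real B := by ring
  rw [e1] at hmul
  rw [e2] at hclaim
  linarith

/-- The top of the chain. -/
lemma chain_top [Nonempty ι] (v : ι → E) {G : E → ℝ} {T : ℝ}
    (hG : Integrable G (stdGaussian E))
    (htop : ∀ᵐ x ∂(stdGaussian E), ∀ j, (∀ l, ⟪v l, x⟫ ≤ ⟪v j, x⟫) → T < ⟪v j, x⟫ → G x ≤ 0) :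
    ChainClaim v G T 0 := by
  classical
  simp only [ChainClaim, zero_mul]
  have hm : MeasurableSet {x | ∀ m, ⟪v m, x⟫ ≤ T}ᶜ := (measurableSet_K v T).compl
  have : ∫ x in {x | ∀ m, ⟪v m, x⟫ ≤ T}ᶜ, G x ∂(stdGaussian E) ≤
      ∫ x in {x | ∀ m, ⟪v m, x⟫ ≤ T}ᶜ, (0 : ℝ) ∂(stdGaussian E) := by
    apply setIntegral_mono_on_ae hG.integrableOn (integrableOn_const (by simp)) hm
    filter_upwards [htop] with x hx hxc
    obtain ⟨j, -, hj⟩ := Finset.exists_max_image Finset.univ (fun l => ⟪v l, x⟫)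
      Finset.univ_nonempty
    have hj' : ∀ l, ⟪v l, x⟫ ≤ ⟪v j, x⟫ := fun l => hj l (Finset.mem_univ l)
    have hjt : T < ⟪v j, x⟫ := by
      by_contra h0
      exact hxc fun m => (hj' m).trans (not_lt.1 h0)
    exact hx j hj' hjt
  simpa using this

/-- The base of the chain. -/
lemma chain_base [Nonempty ι] (v : ι → E) {G : E → ℝ} {t R low : ℝ}
    (hG : Integrable G (stdGaussian E))
    (hlow : ∀ᵐ x ∂(stdGaussian E), (∀ l, ⟪v l, x⟫ ≤ t) → G x ≤ low)
    (hclaim : ChainClaim v G t R) (hfin : low + R ≤ 0) :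
    ∫ x, G x ∂(stdGaussian E) ≤ 0 := by
  classical
  set K : Set E := {x | ∀ m, ⟪v m, x⟫ ≤ t} with hK
  have hmK : MeasurableSet K := measurableSet_K v t
  have h1 : ∫ x, G x ∂(stdGaussian E) =
      ∫ x in K, G x ∂(stdGaussian E) + ∫ x in Kᶜ, G x ∂(stdGaussian E) :=
    (integral_add_compl hmK hG).symm
  have h2 : ∫ x in K, G x ∂(stdGaussian E) ≤ ∫ x in K, low ∂(stdGaussian E) := by
    apply setIntegral_mono_on_ae hG.integrableOn (integrableOn_const (by simp)) hmK
    filter_upwards [hlow] with x hx hxK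
    exact hx hxK
  have h3 : ∫ x in K, low ∂(stdGaussian E) = low * (stdGaussian E).real K := by
    simp [mul_comm]
  have h4 : 0 ≤ (stdGaussian E).real K := measureReal_nonneg
  have h5 := mul_le_mul_of_nonneg_right hfin h4
  have hc : ∫ x in Kᶜ, G x ∂(stdGaussian E) ≤ R * (stdGaussian E).real K := hclaim
  rw [h3] at h2
  rw [h1]
  have e : (low + R) * (stdGaussian E).real K =
      low * (stdGaussian E).real K + R * (stdGaussian E).real K := by
    ring
  rw [e, zero_mul] at h5
  linarith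

end Vale.Agent.P226h14
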