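import Vale.Agent.P226h14.Qt3
import Vale.Agent.P226h14.CaseT

open MeasureTheory ProbabilityTheory Real Set Filter Topology
open scoped RealInnerProductSpace ENNReal

namespace Vale.Agent.P226h14

variable {E : Type*} [NormedAddCommGroup E] [InnerProductSpace ℝ E] [FiniteDimensional ℝ E]
  [MeasurableSpace E] [BorelSpace E]

variable {ι : Type*} [Fintype ι]

/-- the chain statement for vertex dependent levels -/
def Claim3 (v : ι → E) (G : E → ℝ) (L : ι → ℝ) (R : ℝ) : Prop :=
  ∫ x in {x | ∀ m, ⟪v m, x⟫ ≤ L m}ᶜ, G x ∂(stdGaussian E) ≤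
    R * (stdGaussian E).real {x | ∀ m, ⟪v m, x⟫ ≤ L m}

/-- One step of the chain with vertex dependent levels. -/
theorem chain_step3 [Nonempty ι] (v : ι → E) (a : ι → ℝ) {G : E → ℝ}
    (hG : Integrable G (stdGaussian E))
    (hbal : ∑ j, (1 + a j) • v j = 0)
    {L L' : ι → ℝ} {R' R lam : ℝ} (c η : ι → ℝ) (hLL : ∀ j, L j ≤ L' j)
    (hband : ∀ᵐ x ∂(stdGaussian E), (∀ m, ⟪v m, x⟫ ≤ L' m) → ¬ (∀ m, ⟪v m, x⟫ ≤ L m) →
      G x + R' ≤ 0 ∧ ∀ j, (L j < ⟪v j, x⟫ ∧ ⟪v j, x⟫ ≤ L' j ∧ ∀ m, m ≠ j → ⟪v m, x⟫ ≤ L m) →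
        G x + R' ≤ - c j)
    (hc : ∀ j, 0 ≤ c j)
    (hL : ∀ j, ∫ y in {x | ∀ m, ⟪v m, x⟫ ≤ L m},
        (η j - lam * (1 + a j) * (L j - ⟪v j, y⟫)) ∂(stdGaussian E) ≤
      c j * (stdGaussian E).real
        {x | L j < ⟪v j, x⟫ ∧ ⟪v j, x⟫ ≤ L' j ∧ ∀ m, m ≠ j → ⟪v m, x⟫ ≤ L m})
    (hR : R' - (∑ j, η j - lam * ∑ j, (1 + a j) * L j) ≤ R)
    (hclaim : Claim3 v G L' R') : Claim3 v G L R := by
  classical
  set γ := stdGaussian E with hγ
  set K : Set E := {x | ∀ m, ⟪v m, x⟫ ≤ L m} with hK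
  set K' : Set E := {x | ∀ m, ⟪v m, x⟫ ≤ L' m} with hK'
  set S : ι → Set E := fun j => {x | L j < ⟪v j, x⟫ ∧ ⟪v j, x⟫ ≤ L' j ∧ ∀ m, m ≠ j → ⟪v m, x⟫ ≤ L m}
    with hS
  have hmK : MeasurableSet K := measurableSet_KL v L
  have hmK' : MeasurableSet K' := measurableSet_KL v L'
  have hmS : ∀ j, MeasurableSet (S j) := fun j => measurableSet_layerL v j L
  have hsub : K ⊆ K' := fun x hx m => (hx m).trans (hLL m)
  set B : Set E := K' \ K with hB
  have hmB : MeasurableSet B := hmK'.diff hmK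
  have hcompl : Kᶜ = K'ᶜ ∪ B := by
    ext x
    simp only [mem_compl_iff, mem_union, hB, Set.mem_sdiff]
    constructor
    · intro hx
      by_cases hx' : x ∈ K'
      · exact Or.inr ⟨hx', hx⟩
      · exact Or.inl hx'
    · rintro (hx | hx)
      · exact fun h => hx (hsub h)
      · exact hx.2
  have hdisj : Disjoint K'ᶜ B := by
    rw [Set.disjoint_left]
    intro x hx hx'
    exact hx hx'.1
  have hmeas : γ.real K' = γ.real K + γ.real B := by
    have h1 : K' = K ∪ B := by
      rw [hB, Set.union_sdiff_cancel hsub]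
    rw [h1, measureReal_union Set.disjoint_sdiff_right hmB]
  have hsplit : ∫ x in Kᶜ, G x ∂γ = ∫ x in K'ᶜ, G x ∂γ + ∫ x in B, G x ∂γ := by
    rw [hcompl]
    exact setIntegral_union hdisj hmB hG.integrableOn hG.integrableOn
  have hSsub : ∀ j, S j ⊆ B := by
    intro j x hx
    refine ⟨?_, ?_⟩
    · intro m
      by_cases hm : m = j
      · rw [hm]; exact hx.2.1
      · exact (hx.2.2 m hm).trans (hLL m)
    · intro hxK
      exact absurd (hxK j) (not_le.2 hx.1)
  -- the comparison on the band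
  set W : E → ℝ := fun x => - ∑ j, c j * (S j).indicator (fun _ => (1 : ℝ)) x with hW
  have hWi : Integrable W γ := by
    apply Integrable.neg
    exact integrable_finsetSum _ fun j _ =>
      ((integrable_const (1 : ℝ)).indicator (hmS j)).const_mul _
  have hband2 : ∫ x in B, (G x + R') ∂γ ≤ ∫ x in B, W x ∂γ := by
    apply setIntegral_mono_on_ae
      ((hG.integrableOn).add (integrableOn_const (by simp))) hWi.integrableOn hmB
    filter_upwards [hband] with x hx hxB
    obtain ⟨h0, h1⟩ := hx hxB.1 hxB.2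
    simp only [hW]
    by_cases hex : ∃ j, x ∈ S j
    · obtain ⟨j, hj⟩ := hex
      have h2 : ∑ l, c l * (S l).indicator (fun _ => (1 : ℝ)) x = c j := by
        rw [Finset.sum_eq_single j]
        · rw [indicator_of_mem hj, mul_one]
        · intro l _ hl
          have : x ∉ S l := by
            intro hxl
            have h3 := hxl.2.2 j (Ne.symm hl)
            exact absurd h3 (not_le.2 hj.1)
          rw [indicator_of_notMem this, mul_zero]
        · intro h
          exact absurd (Finset.mem_univ j) h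
      rw [h2]
      exact h1 j hj
    · push Not at hex
      have h2 : ∑ l, c l * (S l).indicator (fun _ => (1 : ℝ)) x = 0 := by
        apply Finset.sum_eq_zero
        intro l _
        rw [indicator_of_notMem (hex l), mul_zero]
      rw [h2]
      simpa using h0
  have hWval : ∫ x in B, W x ∂γ = - ∑ j, c j * γ.real (S j) := by
    simp only [hW]
    rw [integral_neg, integral_finsetSum]
    · congr 1
      apply Finset.sum_congr rfl
      intro j _
      rw [integral_const_mul, setIntegral_indicator (hmS j)]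
      have : B ∩ S j = S j := inter_eq_right.2 (hSsub j)
      rw [this]
      simp
    · intro j _
      exact (((integrable_const (1 : ℝ)).indicator (hmS j)).const_mul _).integrableOn
  have hBval : ∫ x in B, (G x + R') ∂γ = ∫ x in B, G x ∂γ + R' * γ.real B := by
    rw [integral_add hG.integrableOn (integrableOn_const (by simp))]
    simp [mul_comm]
  -- the sum over vertices
  have hsumL : (∑ j, η j - lam * ∑ j, (1 + a j) * L j) * γ.real K ≤ ∑ j, c j * γ.real (S j) := by
    have h1 : ∑ j, ∫ y in K, (η j - lam * (1 + a j) * (L j - ⟪v j, y⟫)) ∂γ ≤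
        ∑ j, c j * γ.real (S j) := Finset.sum_le_sum fun j _ => hL j
    refine le_trans (le_of_eq ?_) h1
    have hint : ∀ j, IntegrableOn (fun y : E => η j - lam * (1 + a j) * (L j - ⟪v j, y⟫)) K γ := by
      intro j
      have h2 : Integrable (fun y : E => ⟪v j, y⟫) γ :=
        IsGaussian.integrable_dual (stdGaussian E) (innerSL ℝ (v j))
      exact ((integrable_const _).sub (((integrable_const _).sub h2).const_mul _)).integrableOn
    rw [← integral_finsetSum _ fun j _ => hint j]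
    have hpt : ∀ y, ∑ j, (η j - lam * (1 + a j) * (L j - ⟪v j, y⟫)) =
        ∑ j, η j - lam * ∑ j, (1 + a j) * L j := by
      intro y
      have h3 : ∑ j, (1 + a j) * ⟪v j, y⟫ = 0 := by
        have := congrArg (fun z => ⟪z, y⟫) hbal
        simp only [sum_inner, inner_smul_left, inner_zero_left] at this
        simpa using this
      have h5 : ∀ j, η j - lam * (1 + a j) * (L j - ⟪v j, y⟫) =
          η j - lam * ((1 + a j) * L j) + lam * ((1 + a j) * ⟪v j, y⟫) := by
        intro j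
        ring
      simp_rw [h5]
      rw [Finset.sum_add_distrib, Finset.sum_sub_distrib, ← Finset.mul_sum, ← Finset.mul_sum, h3]
      ring
    simp_rw [hpt]
    simp [mul_comm]
  -- conclude
  have hK0 : 0 ≤ γ.real K := measureReal_nonneg
  have hmul := mul_le_mul_of_nonneg_right hR hK0
  simp only [Claim3] at hclaim ⊢
  change ∫ x in Kᶜ, G x ∂γ ≤ R * γ.real K
  change ∫ x in K'ᶜ, G x ∂γ ≤ R' * γ.real K' at hclaim
  rw [hsplit]
  rw [hmeas] at hclaim
  rw [hBval, hWval] at hband2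
  have e1 : (R' - (∑ j, η j - lam * ∑ j, (1 + a j) * L j)) * γ.real K =
      R' * γ.real K - (∑ j, η j - lam * ∑ j, (1 + a j) * L j) * γ.real K := by ring
  have e2 : R' * (γ.real K + γ.real B) = R' * γ.real K + R' * γ.real B := by ring
  rw [e1] at hmul
  rw [e2] at hclaim
  linarith

/-- The base of the chain. -/
lemma chain_base3 [Nonempty ι] (v : ι → E) {G : E → ℝ} {L : ι → ℝ} {R low : ℝ}
    (hG : Integrable G (stdGaussian E))
    (hlow : ∀ᵐ x ∂(stdGaussian E), G x ≤ low)
    (hclaim : Claim3 v G L R) (hfin : low + R ≤ 0) :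
    ∫ x, G x ∂(stdGaussian E) ≤ 0 := by
  classical
  set K : Set E := {x | ∀ m, ⟪v m, x⟫ ≤ L m} with hK
  have hmK : MeasurableSet K := measurableSet_KL v L
  have h1 : ∫ x, G x ∂(stdGaussian E) =
      ∫ x in K, G x ∂(stdGaussian E) + ∫ x in Kᶜ, G x ∂(stdGaussian E) :=
    (integral_add_compl hmK hG).symm
  have h2 : ∫ x in K, G x ∂(stdGaussian E) ≤ ∫ x in K, low ∂(stdGaussian E) := by
    apply setIntegral_mono_on_ae hG.integrableOn (integrableOn_const (by simp)) hmK
    filter_upwards [hlow] with x hx _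
    exact hx
  have h3 : ∫ x in K, low ∂(stdGaussian E) = low * (stdGaussian E).real K := by
    simp [mul_comm]
  have h4 : 0 ≤ (stdGaussian E).real K := measureReal_nonneg
  have h5 := mul_le_mul_of_nonneg_right hfin h4
  have hc : ∫ x in Kᶜ, G x ∂(stdGaussian E) ≤ R * (stdGaussian E).real K := hclaim
  rw [h3] at h2
  rw [h1]
  have e : (low + R) * (stdGaussian E).real K =
      low * (stdGaussian E).real K + R * (stdGaussian E).real K := by
    ring
  rw [e, zero_mul] at h5
  linarith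

/-- the per vertex inequality with vertex dependent levels in terms of rational parameters -/
lemma vertexLv (v : ι → E) (j : ι) (L : ι → ℝ) (hneg : ∀ l, l ≠ j → ⟪v l, v j⟫ ≤ 0) (hvj : v j ≠ 0)
    {t T xb hm : ℚ} (hLj : L j = t) (ht : 0 < t) (htT : t < T) (hxb : 0 ≤ xb) (hm0 : 0 ≤ hm)
    {al lam c η : ℝ} (hal : 0 < al) (hlam : 0 < lam) (hc : 0 ≤ c)
    (hx : (‖v j‖ ^ 2)⁻¹ ≤ xb)
    (hmain : 0 < η → η / (lam * al) ≤ hm ∧
      η ^ 2 ≤ 2 * ((T : ℝ) - t) * lam * c * al * ((Eb t T xb hm : ℚ) : ℝ)) :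
    ∫ y in {x | ∀ m, ⟪v m, x⟫ ≤ L m}, (η - lam * al * (t - ⟪v j, y⟫)) ∂(stdGaussian E) ≤
      c * (stdGaussian E).real {x | (t : ℝ) < ⟪v j, x⟫ ∧ ⟪v j, x⟫ ≤ T ∧
        ∀ m, m ≠ j → ⟪v m, x⟫ ≤ L m} := by
  have ht' : (0 : ℝ) < t := by exact_mod_cast ht
  have htT' : (t : ℝ) < T := by exact_mod_cast htT
  have hθ0 : (0 : ℝ) ≤ ((ebθ xb (ebY t hm) : ℚ) : ℝ) := by exact_mod_cast ebθ_nonneg _ _
  apply lemmaLv v j L hneg hvj (l := ((ebl t hm : ℚ) : ℝ)) (θ := ((ebθ xb (ebY t hm) : ℚ) : ℝ))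
    (Y := ((ebY t hm : ℚ) : ℝ)) (xbar := (xb : ℝ)) (mlow := ((ebm t hm : ℚ) : ℝ))
    (e := ((Eb t T xb hm : ℚ) : ℝ)) hLj ht' htT' hal hlam hc hx hθ0
  intro hη
  obtain ⟨hle, hsq⟩ := hmain hη
  set h : ℝ := η / (lam * al) with hh
  have hh0 : 0 < h := by positivity
  have hle' : h ≤ (hm : ℝ) := hle
  have hm0' : (0 : ℝ) ≤ hm := by exact_mod_cast hm0
  refine ⟨?_, ?_, ?_, ?_, ?_, ?_, ?_⟩
  · -- the range of the square
    intro u hu
    have hu1 : (t : ℝ) - hm < u := by linarith [hu.1]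
    have hu2 : u ≤ t := hu.2
    have hlval : ((ebl t hm : ℚ) : ℝ) = (max ((t : ℝ) - hm) 0) ^ 2 / 2 := by
      simp only [ebl]
      push_cast
      rfl
    have hYval : ((ebY t hm : ℚ) : ℝ) = (max ((t : ℝ) ^ 2) (((hm : ℝ) - t) ^ 2)) / 2 -
        ((ebl t hm : ℚ) : ℝ) := by
      simp only [ebY]
      push_cast
      rfl
    constructor
    · rw [hlval]
      have h1 : (max ((t : ℝ) - hm) 0) ^ 2 ≤ u ^ 2 := by
        rcases le_total ((t : ℝ) - hm) 0 with h2 | h2
        · rw [max_eq_right h2]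
          nlinarith [sq_nonneg u]
        · rw [max_eq_left h2]
          exact pow_le_pow_left₀ h2 hu1.le 2
      linarith
    · rw [hYval]
      have h1 : u ^ 2 ≤ max ((t : ℝ) ^ 2) (((hm : ℝ) - t) ^ 2) := by
        rcases le_total 0 u with h2 | h2
        · exact (pow_le_pow_left₀ h2 hu2 2).trans (le_max_left _ _)
        · refine le_trans ?_ (le_max_right _ _)
          nlinarith
      linarith
  · -- the chord
    intro y hy0 hy1
    exact chord hxb (ebY_nonneg ht hm0) y hy0 hy1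
  · exact_mod_cast ebY_nonneg ht hm0
  · -- second moment
    have hval : ((ebm t hm : ℚ) : ℝ) = if (hm : ℝ) ≤ 2 * t then
        (t : ℝ) ^ 2 - 2 * t * hm / 3 + (hm : ℝ) ^ 2 / 6 else (t : ℝ) ^ 2 / 3 := by
      simp only [ebm]
      split_ifs with h1 h2 h2
      · push_cast; ring
      · exfalso; apply h2; exact_mod_cast h1
      · exfalso; apply h1; exact_mod_cast h2
      · push_cast; ring
    rw [hval]
    split_ifs with h1
    · have h2 : 0 ≤ ((hm : ℝ) - h) * (2 * t / 3 - (h + hm) / 6) := by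
        apply mul_nonneg (by linarith)
        linarith
      nlinarith
    · nlinarith [sq_nonneg (h - 2 * t)]
  · -- the exponent is nonnegative
    have h1 := ebX_nonneg (xb := xb) ht htT hm0
    have h2 : (0 : ℝ) ≤ ((ebX t T xb hm : ℚ) : ℝ) := by exact_mod_cast h1
    simp only [ebX] at h2
    push_cast at h2 ⊢
    exact h2
  · -- the exponential
    refine (Eb_le ht htT hxb hm0).trans (le_of_eq ?_)
    congr 2
    simp only [ebX]
    push_cast
    rfl
  · exact hsq

end Vale.Agent.P226h14
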