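import Mathlib

namespace Vale.Agent.P226h14

/-- the scale of the fixed point computations -/
def SC : ℕ := 1000000000000000

/-- upward Horner step -/
def stepU (Y m a : ℕ) : ℕ := SC + (Y * a / (m * SC) + 1)

/-- downward Horner step -/
def stepD (Y m a : ℕ) : ℕ := SC + Y * a / (m * SC)

/-- upward Horner scheme of degree nine -/
def hU (Y : ℕ) : ℕ :=
  stepU Y 1 (stepU Y 2 (stepU Y 3 (stepU Y 4 (stepU Y 5 (stepU Y 6 (stepU Y 7 (stepU Y 8
    (stepU Y 9 SC))))))))

/-- downward Horner scheme of degree nine -/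
def hD (Y : ℕ) : ℕ :=
  stepD Y 1 (stepD Y 2 (stepD Y 3 (stepD Y 4 (stepD Y 5 (stepD Y 6 (stepD Y 7 (stepD Y 8
    (stepD Y 9 SC))))))))

/-- the remainder of the Taylor series -/
def errN (Y : ℕ) : ℕ := Y ^ 10 * 11 / (SC ^ 9 * 36288000) + 1

/-- the number of factors for an input with scale `10^9` -/
def kN (X : ℕ) : ℕ := X / 500000000 + 1

/-- the fixed point lower bound of `exp (-X / 10^9)` -/
def eLowN (X : ℕ) : ℕ :=
  let k := kN X
  let Y := X * SC / (1000000000 * k) + 1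
  if Y ≤ SC then (SC * SC / (hU Y + errN Y)) ^ k / SC ^ (k - 1) else 0

/-- the fixed point upper bound of `exp (-X / 10^9)` -/
def eUpN (X : ℕ) : ℕ :=
  let k := kN X
  let Y := X * SC / (1000000000 * k)
  if Y ≤ SC then (SC * SC / hD Y + 1) ^ k / SC ^ (k - 1) + 1 else SC

/-- a rational lower bound of `exp (-x)` -/
def eLow (x : ℚ) : ℚ := (eLowN ⌈x * 1000000000⌉₊ : ℚ) / (SC : ℚ)

/-- a rational upper bound of `exp (-x)` -/
def eUp (x : ℚ) : ℚ := (eUpN ⌊x * 1000000000⌋₊ : ℚ) / (SC : ℚ)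

/-- rounding down the slope -/
def rd6 (z : ℚ) : ℚ := ((⌊z * 1000000⌋ : ℤ) : ℚ) / 1000000

/-- rounding up the kernel width -/
def ru6 (z : ℚ) : ℚ := ((⌈z * 1000000⌉ : ℤ) : ℚ) / 1000000

lemma rd6_le (z : ℚ) : rd6 z ≤ z := by
  unfold rd6
  rw [div_le_iff₀ (by norm_num)]
  exact Int.floor_le _

lemma le_ru6 (z : ℚ) : z ≤ ru6 z := by
  unfold ru6
  rw [le_div_iff₀ (by norm_num)]
  exact Int.le_ceil _

lemma SC_pos : (0 : ℝ) < (SC : ℝ) := by
  unfold SC
  norm_num

lemma div_le_floor_add_one (m n : ℕ) (hn : 0 < n) : (m : ℝ) / n ≤ ((m / n : ℕ) : ℝ) + 1 := by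
  have h1 : n * (m / n) + m % n = m := Nat.div_add_mod m n
  have h2 : m % n < n := Nat.mod_lt _ hn
  have hn' : (0 : ℝ) < n := by exact_mod_cast hn
  have h3 : (m : ℝ) = n * ((m / n : ℕ) : ℝ) + ((m % n : ℕ) : ℝ) := by
    exact_mod_cast h1.symm
  have h4 : ((m % n : ℕ) : ℝ) ≤ n := by exact_mod_cast h2.le
  rw [div_le_iff₀ hn']
  nlinarith

lemma stepU_spec {Y m a : ℕ} (hm : 0 < m) {h : ℝ} (hh : h * SC ≤ a) :
    (1 + (Y : ℝ) / SC / m * h) * SC ≤ (stepU Y m a : ℝ) := by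
  have hS := SC_pos
  have hm' : (0 : ℝ) < m := by exact_mod_cast hm
  have hpos : 0 < m * SC := Nat.mul_pos hm (by unfold SC; norm_num)
  have h1 := div_le_floor_add_one (Y * a) (m * SC) hpos
  have h2 : (Y : ℝ) / SC / m * h * SC ≤ ((Y * a : ℕ) : ℝ) / ((m * SC : ℕ) : ℝ) := by
    push_cast
    rw [le_div_iff₀ (by positivity)]
    have h3 : (Y : ℝ) / SC / m * h * SC * (m * SC) = Y * (h * SC) := by
      field_simp
    rw [h3]
    exact mul_le_mul_of_nonneg_left hh (Nat.cast_nonneg _)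
  have h4 : ((stepU Y m a : ℕ) : ℝ) = SC + (((Y * a / (m * SC) : ℕ) : ℝ) + 1) := by
    simp only [stepU]
    push_cast
    ring
  rw [h4]
  have h5 : (1 + (Y : ℝ) / SC / m * h) * SC = SC + (Y : ℝ) / SC / m * h * SC := by ring
  rw [h5]
  linarith

lemma stepD_spec {Y m a : ℕ} (hm : 0 < m) {h : ℝ} (hh : (a : ℝ) ≤ h * SC) :
    (stepD Y m a : ℝ) ≤ (1 + (Y : ℝ) / SC / m * h) * SC := by
  have hS := SC_pos
  have hm' : (0 : ℝ) < m := by exact_mod_cast hm
  have h1 : ((Y * a / (m * SC) : ℕ) : ℝ) ≤ ((Y * a : ℕ) : ℝ) / ((m * SC : ℕ) : ℝ) :=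
    Nat.cast_div_le
  have h2 : ((Y * a : ℕ) : ℝ) / ((m * SC : ℕ) : ℝ) ≤ (Y : ℝ) / SC / m * h * SC := by
    push_cast
    rw [div_le_iff₀ (by positivity)]
    have h3 : (Y : ℝ) / SC / m * h * SC * (m * SC) = Y * (h * SC) := by
      field_simp
    rw [h3]
    exact mul_le_mul_of_nonneg_left hh (Nat.cast_nonneg _)
  have h4 : ((stepD Y m a : ℕ) : ℝ) = SC + ((Y * a / (m * SC) : ℕ) : ℝ) := by
    simp only [stepD]
    push_cast
    ring
  rw [h4]
  have h5 : (1 + (Y : ℝ) / SC / m * h) * SC = SC + (Y : ℝ) / SC / m * h * SC := by ring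
  rw [h5]
  linarith

/-- the Taylor polynomial in nested form -/
noncomputable def tayR (y : ℝ) : ℝ :=
  1 + y / (1 : ℕ) * (1 + y / (2 : ℕ) * (1 + y / (3 : ℕ) * (1 + y / (4 : ℕ) * (1 + y / (5 : ℕ) *
    (1 + y / (6 : ℕ) * (1 + y / (7 : ℕ) * (1 + y / (8 : ℕ) * (1 + y / (9 : ℕ) * 1))))))))

lemma tayR_eq (y : ℝ) : tayR y = ∑ m ∈ Finset.range 10, y ^ m / (m.factorial : ℝ) := by
  simp only [tayR, Finset.sum_range_succ, Finset.sum_range_zero, Nat.factorial]
  push_cast
  ring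

lemma hU_spec (Y : ℕ) : tayR ((Y : ℝ) / SC) * SC ≤ (hU Y : ℝ) := by
  unfold hU
  set y : ℝ := (Y : ℝ) / SC with hy
  have h9 := stepU_spec (Y := Y) (m := 9) (a := SC) (by norm_num) (h := 1) (by simp)
  have h8 := stepU_spec (Y := Y) (m := 8) (by norm_num) h9
  have h7 := stepU_spec (Y := Y) (m := 7) (by norm_num) h8
  have h6 := stepU_spec (Y := Y) (m := 6) (by norm_num) h7
  have h5 := stepU_spec (Y := Y) (m := 5) (by norm_num) h6
  have h4 := stepU_spec (Y := Y) (m := 4) (by norm_num) h5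
  have h3 := stepU_spec (Y := Y) (m := 3) (by norm_num) h4
  have h2 := stepU_spec (Y := Y) (m := 2) (by norm_num) h3
  have h1 := stepU_spec (Y := Y) (m := 1) (by norm_num) h2
  exact h1

lemma hD_spec (Y : ℕ) : (hD Y : ℝ) ≤ tayR ((Y : ℝ) / SC) * SC := by
  unfold hD
  set y : ℝ := (Y : ℝ) / SC with hy
  have h9 := stepD_spec (Y := Y) (m := 9) (a := SC) (by norm_num) (h := 1) (by simp)
  have h8 := stepD_spec (Y := Y) (m := 8) (by norm_num) h9
  have h7 := stepD_spec (Y := Y) (m := 7) (by norm_num) h8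
  have h6 := stepD_spec (Y := Y) (m := 6) (by norm_num) h7
  have h5 := stepD_spec (Y := Y) (m := 5) (by norm_num) h6
  have h4 := stepD_spec (Y := Y) (m := 4) (by norm_num) h5
  have h3 := stepD_spec (Y := Y) (m := 3) (by norm_num) h4
  have h2 := stepD_spec (Y := Y) (m := 2) (by norm_num) h3
  have h1 := stepD_spec (Y := Y) (m := 1) (by norm_num) h2
  exact h1

lemma SC_le_hD (Y : ℕ) : SC ≤ hD Y := by
  unfold hD
  exact Nat.le_add_right _ _

lemma SC_le_hU (Y : ℕ) : SC ≤ hU Y := by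
  unfold hU
  exact Nat.le_add_right _ _

lemma exp_le_U {Y : ℕ} (hY : Y ≤ SC) :
    Real.exp ((Y : ℝ) / SC) * SC ≤ ((hU Y + errN Y : ℕ) : ℝ) := by
  have hS := SC_pos
  set y : ℝ := (Y : ℝ) / SC with hy
  have hy0 : 0 ≤ y := by positivity
  have hy1 : y ≤ 1 := by
    rw [hy, div_le_one hS]
    exact_mod_cast hY
  have h1 := Real.exp_bound' hy0 hy1 (n := 10) (by norm_num)
  rw [← tayR_eq] at h1
  have h2 := hU_spec Y
  have h3 : y ^ 10 * ((10 : ℕ) + 1) / ((10 : ℕ).factorial * (10 : ℕ)) * SC ≤ (errN Y : ℝ) := by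
    have hpos : 0 < SC ^ 9 * 36288000 := by
      unfold SC
      norm_num
    have h4 := div_le_floor_add_one (Y ^ 10 * 11) (SC ^ 9 * 36288000) hpos
    have h5 : ((errN Y : ℕ) : ℝ) = ((Y ^ 10 * 11 / (SC ^ 9 * 36288000) : ℕ) : ℝ) + 1 := by
      simp only [errN]
      push_cast
      ring
    rw [h5]
    refine le_trans (le_of_eq ?_) h4
    simp only [Nat.factorial, hy]
    push_cast
    field_simp
    ring
  have h6 := mul_le_mul_of_nonneg_right h1 hS.le
  rw [add_mul] at h6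
  push_cast
  linarith

lemma D_le_exp (Y : ℕ) : (hD Y : ℝ) ≤ Real.exp ((Y : ℝ) / SC) * SC := by
  have hS := SC_pos
  have h1 := hD_spec Y
  have h2 := Real.sum_le_exp_of_nonneg (x := (Y : ℝ) / SC) (by positivity) 10
  rw [← tayR_eq] at h2
  have h3 := mul_le_mul_of_nonneg_right h2 hS.le
  linarith

lemma pow_div_scale {L k : ℕ} (hk : 0 < k) :
    ((L ^ k / SC ^ (k - 1) : ℕ) : ℝ) / SC ≤ ((L : ℝ) / SC) ^ k := by
  have hS := SC_pos
  have h1 : ((L ^ k / SC ^ (k - 1) : ℕ) : ℝ) ≤ ((L ^ k : ℕ) : ℝ) / ((SC ^ (k - 1) : ℕ) : ℝ) :=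
    Nat.cast_div_le
  have e : (k - 1) + 1 = k := Nat.sub_add_cancel hk
  have h2 : ((L : ℝ) / SC) ^ k = ((L ^ k : ℕ) : ℝ) / ((SC ^ (k - 1) : ℕ) : ℝ) / SC := by
    push_cast
    rw [div_pow]
    conv_lhs => rw [← e, pow_succ (SC : ℝ)]
    rw [e]
    field_simp
  rw [h2]
  exact div_le_div_of_nonneg_right h1 hS.le

lemma scale_le_pow {L k : ℕ} (hk : 0 < k) :
    ((L : ℝ) / SC) ^ k ≤ (((L ^ k / SC ^ (k - 1) + 1 : ℕ)) : ℝ) / SC := by
  have hS := SC_pos
  have hpos : 0 < SC ^ (k - 1) := by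
    apply pow_pos
    unfold SC
    norm_num
  have h1 := div_le_floor_add_one (L ^ k) (SC ^ (k - 1)) hpos
  have e : (k - 1) + 1 = k := Nat.sub_add_cancel hk
  have h2 : ((L : ℝ) / SC) ^ k = ((L ^ k : ℕ) : ℝ) / ((SC ^ (k - 1) : ℕ) : ℝ) / SC := by
    push_cast
    rw [div_pow]
    conv_lhs => rw [← e, pow_succ (SC : ℝ)]
    rw [e]
    field_simp
  rw [h2]
  apply div_le_div_of_nonneg_right _ hS.le
  push_cast at h1 ⊢
  exact h1

lemma eLowN_spec (X : ℕ) : ((eLowN X : ℕ) : ℝ) / SC ≤ Real.exp (-((X : ℝ) / 1000000000)) := by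
  have hS := SC_pos
  unfold eLowN
  simp only []
  split_ifs with hY
  · set k := kN X with hk
    have hk0 : 0 < k := by
      simp only [hk, kN]
      omega
    have hk0' : (0 : ℝ) < k := by exact_mod_cast hk0
    set Y := X * SC / (1000000000 * k) + 1 with hYd
    set y : ℝ := (Y : ℝ) / SC with hy
    have hpos : 0 < 1000000000 * k := by positivity
    have h1 := div_le_floor_add_one (X * SC) (1000000000 * k) hpos
    have hyy : (X : ℝ) / 1000000000 ≤ k * y := by
      have h2 : ((X * SC : ℕ) : ℝ) / ((1000000000 * k : ℕ) : ℝ) ≤ (Y : ℝ) := by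
        rw [hYd]
        push_cast
        push_cast at h1
        exact h1
      push_cast at h2
      rw [div_le_iff₀ (by positivity)] at h2
      rw [hy]
      rw [div_le_iff₀ (by norm_num)]
      have e : (k : ℝ) * ((Y : ℝ) / SC) * 1000000000 = (Y * (1000000000 * k)) / SC := by
        field_simp
      rw [e, le_div_iff₀ hS]
      linarith
    have hU0 := exp_le_U hY
    set U := hU Y + errN Y with hUd
    have hUpos : (0 : ℝ) < U := by
      have : 0 < U := by
        have := SC_le_hU Y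
        have h3 : 0 < SC := by unfold SC; norm_num
        omega
      exact_mod_cast this
    set L := SC * SC / U with hL
    have hL1 : (L : ℝ) / SC ≤ Real.exp (-y) := by
      have h3 : (L : ℝ) ≤ ((SC * SC : ℕ) : ℝ) / (U : ℝ) := Nat.cast_div_le
      have h4 : ((SC * SC : ℕ) : ℝ) / (U : ℝ) ≤ SC * Real.exp (-y) := by
        rw [div_le_iff₀ hUpos]
        push_cast
        have h5 : Real.exp y * Real.exp (-y) = 1 := by
          rw [← Real.exp_add]
          simp
        have h6 := mul_le_mul_of_nonneg_right hU0 (mul_pos hS (Real.exp_pos (-y))).le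
        have h7 : Real.exp y * SC * (SC * Real.exp (-y)) = SC * SC := by
          calc Real.exp y * SC * (SC * Real.exp (-y)) = (Real.exp y * Real.exp (-y)) * SC * SC := by
                ring
            _ = SC * SC := by rw [h5]; ring
        rw [h7] at h6
        linarith
      rw [div_le_iff₀ hS]
      linarith
    have h8 := pow_div_scale (L := L) hk0
    have h9 : ((L : ℝ) / SC) ^ k ≤ Real.exp (-y) ^ k :=
      pow_le_pow_left₀ (by positivity) hL1 k
    have h10 : Real.exp (-y) ^ k = Real.exp (-(k * y)) := by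
      rw [← Real.exp_nat_mul]
      congr 1
      ring
    rw [h10] at h9
    refine h8.trans (h9.trans (Real.exp_le_exp.2 ?_))
    linarith
  · simp
    exact (Real.exp_pos _).le

lemma eUpN_spec (X : ℕ) : Real.exp (-((X : ℝ) / 1000000000)) ≤ ((eUpN X : ℕ) : ℝ) / SC := by
  have hS := SC_pos
  unfold eUpN
  simp only []
  split_ifs with hY
  · set k := kN X with hk
    have hk0 : 0 < k := by
      simp only [hk, kN]
      omega
    have hk0' : (0 : ℝ) < k := by exact_mod_cast hk0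
    set Y := X * SC / (1000000000 * k) with hYd
    set y : ℝ := (Y : ℝ) / SC with hy
    have hyy : k * y ≤ (X : ℝ) / 1000000000 := by
      have h2 : (Y : ℝ) ≤ ((X * SC : ℕ) : ℝ) / ((1000000000 * k : ℕ) : ℝ) := Nat.cast_div_le
      push_cast at h2
      rw [le_div_iff₀ (by positivity)] at h2
      rw [hy]
      rw [le_div_iff₀ (by norm_num)]
      have e : (k : ℝ) * ((Y : ℝ) / SC) * 1000000000 = (Y * (1000000000 * k)) / SC := by
        field_simp
      rw [e, div_le_iff₀ hS]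
      linarith
    have hD0 := D_le_exp Y
    set D := hD Y with hDd
    have hDpos : 0 < D := by
      have := SC_le_hD Y
      have h3 : 0 < SC := by unfold SC; norm_num
      omega
    have hDpos' : (0 : ℝ) < D := by exact_mod_cast hDpos
    set L := SC * SC / D + 1 with hL
    have hL1 : Real.exp (-y) ≤ (L : ℝ) / SC := by
      have h3 := div_le_floor_add_one (SC * SC) D hDpos
      have h4 : SC * Real.exp (-y) ≤ ((SC * SC : ℕ) : ℝ) / (D : ℝ) := by
        rw [le_div_iff₀ hDpos']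
        push_cast
        have h5 : Real.exp y * Real.exp (-y) = 1 := by
          rw [← Real.exp_add]
          simp
        have h6 := mul_le_mul_of_nonneg_right hD0 (mul_pos hS (Real.exp_pos (-y))).le
        have h7 : Real.exp y * SC * (SC * Real.exp (-y)) = SC * SC := by
          calc Real.exp y * SC * (SC * Real.exp (-y)) = (Real.exp y * Real.exp (-y)) * SC * SC := by
                ring
            _ = SC * SC := by rw [h5]; ring
        rw [h7] at h6
        linarith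
      rw [le_div_iff₀ hS]
      have h8 : ((L : ℕ) : ℝ) = ((SC * SC / D : ℕ) : ℝ) + 1 := by
        rw [hL]
        push_cast
        ring
      rw [h8]
      linarith
    have h8 := scale_le_pow (L := L) hk0
    have h9 : Real.exp (-y) ^ k ≤ ((L : ℝ) / SC) ^ k :=
      pow_le_pow_left₀ (Real.exp_pos _).le hL1 k
    have h10 : Real.exp (-y) ^ k = Real.exp (-(k * y)) := by
      rw [← Real.exp_nat_mul]
      congr 1
      ring
    rw [h10] at h9
    refine le_trans (Real.exp_le_exp.2 ?_) (h9.trans h8)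
    linarith
  · rw [div_self hS.ne']
    apply Real.exp_le_one_iff.2
    have : (0 : ℝ) ≤ (X : ℝ) / 1000000000 := by positivity
    linarith

/-- soundness of the lower bound -/
lemma eLow_le {x : ℚ} (_hx : 0 ≤ x) : ((eLow x : ℚ) : ℝ) ≤ Real.exp (-(x : ℝ)) := by
  have h1 := eLowN_spec ⌈x * 1000000000⌉₊
  have h2 : ((eLow x : ℚ) : ℝ) = ((eLowN ⌈x * 1000000000⌉₊ : ℕ) : ℝ) / SC := by
    simp only [eLow]
    push_cast
    rfl
  rw [h2]
  refine h1.trans (Real.exp_le_exp.2 ?_)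
  have h3 : x * 1000000000 ≤ (⌈x * 1000000000⌉₊ : ℚ) := Nat.le_ceil _
  have h4 : (x : ℝ) * 1000000000 ≤ (⌈x * 1000000000⌉₊ : ℝ) := by exact_mod_cast h3
  have h5 : (x : ℝ) ≤ (⌈x * 1000000000⌉₊ : ℝ) / 1000000000 := by
    rw [le_div_iff₀ (by norm_num)]
    exact h4
  linarith

/-- soundness of the upper bound -/
lemma le_eUp {x : ℚ} (hx : 0 ≤ x) : Real.exp (-(x : ℝ)) ≤ ((eUp x : ℚ) : ℝ) := by
  have h1 := eUpN_spec ⌊x * 1000000000⌋₊
  have h2 : ((eUp x : ℚ) : ℝ) = ((eUpN ⌊x * 1000000000⌋₊ : ℕ) : ℝ) / SC := by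
    simp only [eUp]
    push_cast
    rfl
  rw [h2]
  refine le_trans (Real.exp_le_exp.2 ?_) h1
  have h3 : (⌊x * 1000000000⌋₊ : ℚ) ≤ x * 1000000000 := Nat.floor_le (by positivity)
  have h4 : (⌊x * 1000000000⌋₊ : ℝ) ≤ (x : ℝ) * 1000000000 := by exact_mod_cast h3
  have h5 : (⌊x * 1000000000⌋₊ : ℝ) / 1000000000 ≤ (x : ℝ) := by
    rw [div_le_iff₀ (by norm_num)]
    exact h4
  linarith

lemma eLow_nonneg (x : ℚ) : 0 ≤ eLow x := by
  unfold eLow
  positivity

end Vale.Agent.P226h14
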