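import Vale.Agent.P226h14.Key2
import Vale.Agent.P226h14.RatExp

open MeasureTheory ProbabilityTheory Real Set Filter Topology
open scoped RealInnerProductSpace ENNReal

namespace Vale.Agent.P226h14

/-- lower level of the square on the kernel support -/
def ebl (t hm : ℚ) : ℚ := (max (t - hm) 0) ^ 2 / 2

/-- width of the range of the square on the kernel support -/
def ebY (t hm : ℚ) : ℚ := (max (t ^ 2) ((hm - t) ^ 2)) / 2 - ebl t hm

/-- the chord slope -/
def ebθ (xb Y : ℚ) : ℚ := min 1 (max 0 (rd6 ((1 - eUp (xb * Y)) / (xb * Y))))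

/-- lower bound for the second moment of the kernel -/
def ebm (t hm : ℚ) : ℚ := if hm ≤ 2 * t then t ^ 2 - 2 * t * hm / 3 + hm ^ 2 / 6 else t ^ 2 / 3

/-- the exponent -/
def ebX (t T xb hm : ℚ) : ℚ :=
  (T ^ 2 + t * T + t ^ 2) / 6 - (ebl t hm + ebθ xb (ebY t hm) * (ebm t hm / 2 - ebl t hm))

/-- lower bound of the growth factor -/
def Eb (t T xb hm : ℚ) : ℚ := eLow (xb * ebX t T xb hm)

lemma Eb_nonneg (t T xb hm : ℚ) : 0 ≤ Eb t T xb hm := eLow_nonneg _

lemma ebθ_nonneg (xb Y : ℚ) : 0 ≤ ebθ xb Y := by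
  unfold ebθ
  exact le_min zero_le_one (le_max_left _ _)

lemma ebθ_le_one (xb Y : ℚ) : ebθ xb Y ≤ 1 := min_le_left _ _

/-- the chord bound -/
lemma chord {xb Y : ℚ} (hxb : 0 ≤ xb) (hY : 0 ≤ Y) (y : ℝ) (hy : 0 ≤ y)
    (hy2 : y ≤ (xb : ℝ) * (Y : ℝ)) :
    Real.exp (-y) ≤ 1 - ((ebθ xb Y : ℚ) : ℝ) * y := by
  have hz : 0 ≤ xb * Y := mul_nonneg hxb hY
  have hθ0 : (0 : ℝ) ≤ ((ebθ xb Y : ℚ) : ℝ) := by exact_mod_cast ebθ_nonneg xb Y
  rcases hz.eq_or_lt with h0 | hpos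
  · have h1 : (xb : ℝ) * (Y : ℝ) = 0 := by
      have : ((xb * Y : ℚ) : ℝ) = 0 := by rw [← h0]; simp
      simpa using this
    have hy0 : y = 0 := le_antisymm (by rw [h1] at hy2; exact hy2) hy
    rw [hy0]
    simp
  · by_cases hθz : ebθ xb Y = 0
    · rw [hθz]
      simp only [Rat.cast_zero, zero_mul, sub_zero]
      exact Real.exp_le_one_iff.2 (by linarith)
    · -- the slope is positive, hence below the true chord
      have h1 : ebθ xb Y ≤ (1 - eUp (xb * Y)) / (xb * Y) := by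
        unfold ebθ at hθz ⊢
        rcases le_total (rd6 ((1 - eUp (xb * Y)) / (xb * Y))) 0 with h3 | h3
        · exfalso
          apply hθz
          rw [max_eq_left h3]
          simp
        · rw [max_eq_right h3]
          exact (min_le_right _ _).trans (rd6_le _)
      have hZ : (0 : ℝ) < (xb : ℝ) * (Y : ℝ) := by exact_mod_cast hpos
      have h1r : ((ebθ xb Y : ℚ) : ℝ) * ((xb : ℝ) * (Y : ℝ)) ≤ 1 - ((eUp (xb * Y) : ℚ) : ℝ) := by
        have h2 : ebθ xb Y * (xb * Y) ≤ 1 - eUp (xb * Y) := by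
          rwa [le_div_iff₀ hpos] at h1
        exact_mod_cast h2
      have h3 : Real.exp (-((xb : ℝ) * (Y : ℝ))) ≤ ((eUp (xb * Y) : ℚ) : ℝ) := by
        have := le_eUp hz
        simpa using this
      -- convexity
      set Z : ℝ := (xb : ℝ) * (Y : ℝ) with hZdef
      set s : ℝ := y / Z with hs
      have hs0 : 0 ≤ s := div_nonneg hy hZ.le
      have hs1 : s ≤ 1 := (div_le_one hZ).2 hy2
      have hyZ : y = s * Z := by
        rw [hs]; field_simp
      have hconv := convexOn_exp.2 (mem_univ (0 : ℝ)) (mem_univ (-Z)) (sub_nonneg.2 hs1) hs0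
        (by ring)
      simp only [smul_eq_mul, mul_zero, zero_add, Real.exp_zero, mul_one] at hconv
      have e1 : s * -Z = -y := by rw [hyZ]; ring
      rw [e1] at hconv
      refine hconv.trans ?_
      have h4 : s * Real.exp (-Z) ≤ s * (1 - ((ebθ xb Y : ℚ) : ℝ) * Z) :=
        mul_le_mul_of_nonneg_left (by linarith) hs0
      rw [hyZ]
      nlinarith

section facts

variable {t T xb hm : ℚ}

lemma ebl_nonneg (t hm : ℚ) : 0 ≤ ebl t hm := by
  unfold ebl
  positivity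

lemma ebl_le (ht : 0 < t) (hm0 : 0 ≤ hm) : ebl t hm ≤ t ^ 2 / 2 := by
  unfold ebl
  have h1 : max (t - hm) 0 ≤ t := max_le (by linarith) ht.le
  have h2 : 0 ≤ max (t - hm) 0 := le_max_right _ _
  have := pow_le_pow_left₀ h2 h1 2
  linarith

lemma ebY_nonneg (ht : 0 < t) (hm0 : 0 ≤ hm) : 0 ≤ ebY t hm := by
  unfold ebY
  have h1 := ebl_le ht hm0
  have h2 : t ^ 2 ≤ max (t ^ 2) ((hm - t) ^ 2) := le_max_left _ _
  linarith

lemma ebm_le (ht : 0 < t) (hm0 : 0 ≤ hm) : ebm t hm ≤ t ^ 2 := by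
  unfold ebm
  split_ifs with h
  · nlinarith
  · nlinarith [sq_nonneg t]

lemma ebX_nonneg (ht : 0 < t) (htT : t < T) (hm0 : 0 ≤ hm) : 0 ≤ ebX t T xb hm := by
  unfold ebX
  have h1 := ebl_le ht hm0
  have h2 := ebm_le ht hm0
  have h3 := ebθ_nonneg xb (ebY t hm)
  have h4 := ebθ_le_one xb (ebY t hm)
  have h5 : t ^ 2 / 2 ≤ (T ^ 2 + t * T + t ^ 2) / 6 := by nlinarith
  set θ := ebθ xb (ebY t hm)
  set l := ebl t hm
  set m := ebm t hm
  have h6 : l + θ * (m / 2 - l) ≤ t ^ 2 / 2 := by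
    have e : l + θ * (m / 2 - l) = (1 - θ) * l + θ * (m / 2) := by ring
    rw [e]
    have h7 : (1 - θ) * l ≤ (1 - θ) * (t ^ 2 / 2) :=
      mul_le_mul_of_nonneg_left h1 (by linarith)
    have h8 : θ * (m / 2) ≤ θ * (t ^ 2 / 2) :=
      mul_le_mul_of_nonneg_left (by linarith) h3
    nlinarith
  linarith

lemma Eb_le (ht : 0 < t) (htT : t < T) (hxb : 0 ≤ xb) (hm0 : 0 ≤ hm) :
    ((Eb t T xb hm : ℚ) : ℝ) ≤ Real.exp (-((xb * ebX t T xb hm : ℚ) : ℝ)) := by
  exact eLow_le (mul_nonneg hxb (ebX_nonneg ht htT hm0))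

end facts

variable {E : Type*} [NormedAddCommGroup E] [InnerProductSpace ℝ E] [FiniteDimensional ℝ E]
  [MeasurableSpace E] [BorelSpace E]

variable {ι : Type*} [Fintype ι]

/-- the per vertex inequality in terms of rational parameters -/
lemma vertexL (v : ι → E) (j : ι) (hneg : ∀ l, l ≠ j → ⟪v l, v j⟫ ≤ 0) (hvj : v j ≠ 0)
    {t T xb hm : ℚ} (ht : 0 < t) (htT : t < T) (hxb : 0 ≤ xb) (hm0 : 0 ≤ hm)
    {al lam c η : ℝ} (hal : 0 < al) (hlam : 0 < lam) (hc : 0 ≤ c)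
    (hx : (‖v j‖ ^ 2)⁻¹ ≤ xb)
    (hmain : 0 < η → η / (lam * al) ≤ hm ∧
      η ^ 2 ≤ 2 * ((T : ℝ) - t) * lam * c * al * ((Eb t T xb hm : ℚ) : ℝ)) :
    ∫ y in {x | ∀ m, ⟪v m, x⟫ ≤ (t : ℝ)}, (η - lam * al * (t - ⟪v j, y⟫)) ∂(stdGaussian E) ≤
      c * (stdGaussian E).real {x | (t : ℝ) < ⟪v j, x⟫ ∧ ⟪v j, x⟫ ≤ T ∧
        ∀ m, m ≠ j → ⟪v m, x⟫ ≤ (t : ℝ)} := by
  have ht' : (0 : ℝ) < t := by exact_mod_cast ht
  have htT' : (t : ℝ) < T := by exact_mod_cast htT
  have hθ0 : (0 : ℝ) ≤ ((ebθ xb (ebY t hm) : ℚ) : ℝ) := by exact_mod_cast ebθ_nonneg _ _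
  apply lemmaL v j hneg hvj (l := ((ebl t hm : ℚ) : ℝ)) (θ := ((ebθ xb (ebY t hm) : ℚ) : ℝ))
    (Y := ((ebY t hm : ℚ) : ℝ)) (xbar := (xb : ℝ)) (mlow := ((ebm t hm : ℚ) : ℝ))
    (e := ((Eb t T xb hm : ℚ) : ℝ)) ht' htT' hal hlam hc hx hθ0
  intro hη
  obtain ⟨hle, hsq⟩ := hmain hη
  set h : ℝ := η / (lam * al) with hh
  have hh0 : 0 < h := by positivity
  have hle' : h ≤ (hm : ℝ) := hle
  have hm0' : (0 : ℝ) ≤ hm := by exact_mod_cast hm0
  refine ⟨?_, ?_, ?_, ?_, ?_, ?_, ?_⟩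
  · -- the range of the square
    intro u hu
    have hu1 : (t : ℝ) - hm < u := by linarith [hu.1]
    have hu2 : u ≤ t := hu.2
    have hlval : ((ebl t hm : ℚ) : ℝ) = (max ((t : ℝ) - hm) 0) ^ 2 / 2 := by
      simp only [ebl]
      push_cast
      rfl
    have hYval : ((ebY t hm : ℚ) : ℝ) = (max ((t : ℝ) ^ 2) (((hm : ℝ) - t) ^ 2)) / 2 -
        ((ebl t hm : ℚ) : ℝ) := by
      simp only [ebY]
      push_cast
      rfl
    constructor
    · rw [hlval]
      have h1 : (max ((t : ℝ) - hm) 0) ^ 2 ≤ u ^ 2 := by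
        rcases le_total ((t : ℝ) - hm) 0 with h2 | h2
        · rw [max_eq_right h2]
          nlinarith [sq_nonneg u]
        · rw [max_eq_left h2]
          exact pow_le_pow_left₀ h2 hu1.le 2
      linarith
    · rw [hYval]
      have h1 : u ^ 2 ≤ max ((t : ℝ) ^ 2) (((hm : ℝ) - t) ^ 2) := by
        rcases le_total 0 u with h2 | h2
        · exact (pow_le_pow_left₀ h2 hu2 2).trans (le_max_left _ _)
        · refine le_trans ?_ (le_max_right _ _)
          nlinarith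
      linarith
  · -- the chord
    intro y hy0 hy1
    exact chord hxb (ebY_nonneg ht hm0) y hy0 hy1
  · exact_mod_cast ebY_nonneg ht hm0
  · -- second moment
    have hval : ((ebm t hm : ℚ) : ℝ) = if (hm : ℝ) ≤ 2 * t then
        (t : ℝ) ^ 2 - 2 * t * hm / 3 + (hm : ℝ) ^ 2 / 6 else (t : ℝ) ^ 2 / 3 := by
      simp only [ebm]
      split_ifs with h1 h2 h2
      · push_cast; ring
      · exfalso; apply h2; exact_mod_cast h1
      · exfalso; apply h1; exact_mod_cast h2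
      · push_cast; ring
    rw [hval]
    split_ifs with h1
    · have h2 : 0 ≤ ((hm : ℝ) - h) * (2 * t / 3 - (h + hm) / 6) := by
        apply mul_nonneg (by linarith)
        linarith
      nlinarith
    · nlinarith [sq_nonneg (h - 2 * t)]
  · -- the exponent is nonnegative
    have h1 := ebX_nonneg (xb := xb) ht htT hm0
    have h2 : (0 : ℝ) ≤ ((ebX t T xb hm : ℚ) : ℝ) := by exact_mod_cast h1
    simp only [ebX] at h2
    push_cast at h2 ⊢
    exact h2
  · -- the exponential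
    refine (Eb_le ht htT hxb hm0).trans (le_of_eq ?_)
    congr 2
    simp only [ebX]
    push_cast
    rfl
  · exact hsq

end Vale.Agent.P226h14
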