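import Vale.Agent.P226h14.Two

open MeasureTheory ProbabilityTheory Real Set Filter Topology
open scoped RealInnerProductSpace ENNReal

namespace Vale.Agent.P226h14

/-- one level of a table with a separate level for the largest vertex -/
structure Row3 where
  t : ℚ
  Lv : ℚ
  lam : ℚ
  k0 : ℚ
  k1 : ℚ
  eta1 : ℚ
  Wb : ℚ
  Bb : ℚ
  Ar : ℚ
  cv : ℚ
  Rc : ℚ

/-- a table for one range of the largest coefficient -/
structure Case3 where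
  N : ℕ
  p : ℚ
  q : ℚ
  cap : ℚ
  τ1 : ℚ
  τ0 : ℚ
  κ : ℚ
  S : ℚ
  Ttop : ℚ
  bins : List ℚ
  ys : List ℚ
  rows : List Row3

/-- upper bound for the monotone part -/
def Bbg (t : ℚ) : ℚ := Bbf t (qlo t)

/-- upper bound for the convex part -/
def Abg (t T cc : ℚ) : ℚ := Abf t T (qlo t) (qlo T) cc

/-- rounding up to the grid -/
def ru2 (z : ℚ) : ℚ := ((⌈z * 100⌉ : ℤ) : ℚ) / 100

lemma le_ru2 (z : ℚ) : z ≤ ru2 z := by
  unfold ru2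
  rw [le_div_iff₀ (by norm_num)]
  exact Int.le_ceil _

/-- the cut of the two line bound -/
def rhof (c : Case3) (t y : ℚ) : ℚ :=
  ru2 (max y (((1 + c.q) * y - t) / (c.q - c.τ1 + c.τ0)))

/-- the two line bound without the slope in the coefficient -/
def Wval (c : Case3) (t yl y ρ : ℚ) : ℚ :=
  (1 + c.S - 2 * c.τ1 + 2 * c.q) * (eUp (y ^ 2 / 2) - eLow (ρ ^ 2 / 2)) -
    2 * (1 + c.q) * yl * qdiff y ρ + (1 + c.S - 2 * c.τ0) * eUp (ρ ^ 2 / 2) - 2 * t * qlo ρ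

/-- the slope of the two line bound in the coefficient -/
def Sl2 (c : Case3) (t ρ : ℚ) : ℚ := 2 * ((1 - c.κ) * eUp (ρ ^ 2 / 2) - t * qlo ρ)

/-- check of one cell of the two line bound -/
def cellOK (c : Case3) (t Lv Wb Bb x y : ℚ) : Bool :=
  decide (y ≤ t) || decide (Lv ≤ x) ||
    (decide ((1 + c.S - 2 * c.τ1 + 2 * c.q) * y ≤ 2 * (1 + c.q) * max x t) &&
     decide (Wval c t (max x t) y (rhof c t y) ≤ Wb) &&
     decide (Sl2 c t (rhof c t y) ≤ Bb))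

/-- check of all cells -/
def cellsOK (c : Case3) (t Lv Wb Bb : ℚ) : List ℚ → Bool
  | [] => false
  | [x] => decide (Lv ≤ x)
  | x :: y :: l => cellOK c t Lv Wb Bb x y && cellsOK c t Lv Wb Bb (y :: l)

lemma cellsOK_find {c : Case3} {t Lv Wb Bb : ℚ} :
    ∀ {l : List ℚ} {x : ℚ} {z : ℝ}, cellsOK c t Lv Wb Bb (x :: l) = true →
      (x : ℝ) < z → z ≤ Lv → ∃ x' y' : ℚ, (x' : ℝ) < z ∧ z ≤ y' ∧
        cellOK c t Lv Wb Bb x' y' = true := by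
  intro l
  induction l with
  | nil =>
    intro x z h h1 h2
    simp only [cellsOK, decide_eq_true_eq] at h
    have : (Lv : ℝ) ≤ x := by exact_mod_cast h
    linarith
  | cons y l ih =>
    intro x z h h1 h2
    simp only [cellsOK, Bool.and_eq_true] at h
    by_cases hzy : z ≤ y
    · exact ⟨x, y, h1, hzy, h.1⟩
    · exact ih h.2 (not_le.1 hzy) h2

/-- the constant of the other vertices -/
def Arg (c : Case3) (T R' : ℚ) (r : Row3) : ℚ :=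
  -(max (Abg r.t T (1 + c.S - 2 * c.τ0)) r.Wb + R')

/-- the constant of the largest vertex -/
def cvg (c : Case3) (LT R' : ℚ) (r : Row3) : ℚ :=
  -(Abg r.Lv LT (1 + c.S - 2 * c.τ1) + c.q * Bbg r.Lv + R')

/-- the decrement of one level -/
def Dv3 (c : Case3) (r : Row3) : ℚ :=
  r.eta1 + ((c.N : ℚ) - 1) * r.k0 - r.k1 * (1 - c.p) -
    r.lam * (r.t * ((c.N : ℚ) + 1) + (1 + c.q) * (r.Lv - r.t))

/-- check of the largest vertex in one level -/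
def topOK (c : Case3) (LT : ℚ) (r : Row3) : Bool :=
  (decide (r.Lv = LT) && decide (r.eta1 = 0)) ||
  (decide (r.Lv < LT) && decide (0 ≤ Bbg r.Lv) && decide (0 ≤ r.cv) &&
    (decide (r.eta1 = 0) || (decide (c.q < 1) &&
      decide (r.eta1 ^ 2 ≤ 2 * (LT - r.Lv) * r.lam * r.cv * (1 + c.p) *
        Eb r.Lv LT ((1 + c.q) / (1 - c.q)) (ru6 (r.eta1 / (r.lam * (1 + c.p))))))))

/-- check of one level -/
def rowOK3 (c : Case3) (T LT R' : ℚ) (r : Row3) : Bool :=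
  decide (0 < r.t) && decide (r.t ≤ r.Lv) && decide (r.t < T) && decide (r.Lv ≤ LT) &&
  decide (0 < r.lam) && decide (0 ≤ r.k1) && decide (0 ≤ r.eta1) && decide (0 ≤ r.Bb) &&
  decide (2 * (eUp (r.t ^ 2 / 2) - r.t * qlo r.t - c.κ * eLow (T ^ 2 / 2)) ≤ r.Bb) &&
  decide (r.Ar ≤ Arg c T R' r) && decide (r.cv ≤ cvg c LT R' r) &&
  decide (0 ≤ r.Ar - c.cap * r.Bb) &&
  topOK c LT r &&
  binsOK r.t T r.lam r.k0 r.k1 r.Ar r.Bb c.cap (0 :: c.bins) &&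
  cellsOK c r.t r.Lv r.Wb r.Bb (0 :: c.ys) &&
  decide (R' - Dv3 c r ≤ r.Rc)

/-- the largest constant of the base bound -/
def lowg (c : Case3) : ℚ :=
  1 + c.S + 2 * ((1 - c.τ1 - ((c.N : ℚ) - 1) * c.τ0 - c.κ * (1 - c.q)) / (c.N : ℚ))

/-- check of all levels -/
def chk3 (c : Case3) : ℚ → ℚ → ℚ → List Row3 → Bool
  | _, _, R', [] => decide (lowg c + R' ≤ 0)
  | T, LT, R', r :: rs => rowOK3 c T LT R' r && chk3 c r.t r.Lv r.Rc rs

/-- the global checks of a table -/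
def caseOK3 (c : Case3) : Bool :=
  decide (0 ≤ c.p) && decide (c.q ≤ 1) && decide (0 ≤ c.cap) && decide (c.cap < 1) &&
  decide (0 ≤ c.κ) && decide (c.κ ≤ 1) && decide (0 < c.Ttop) && decide (0 < c.N) &&
  decide (0 ≤ 1 + c.S - 2 * c.τ1) && decide (1 + c.S - 2 * c.τ1 < 2) &&
  decide (0 ≤ 1 + c.S - 2 * c.τ0) && decide (1 + c.S - 2 * c.τ0 < 2) &&
  decide (1 + c.S - 2 * c.τ1 + 2 * c.q ≤ (2 - (1 + c.S - 2 * c.τ1)) * c.Ttop ^ 2) &&
  decide (1 + c.S - 2 * c.τ0 + 2 * (1 - c.κ) * c.cap ≤ (2 - (1 + c.S - 2 * c.τ0)) * c.Ttop ^ 2) &&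
  decide (0 ≤ lowg c) &&
  chk3 c c.Ttop c.Ttop 0 c.rows

variable {E : Type*} [NormedAddCommGroup E] [InnerProductSpace ℝ E] [FiniteDimensional ℝ E]
  [MeasurableSpace E] [BorelSpace E]

variable {ι : Type*} [Fintype ι]

/-- the levels of a table -/
def lev [DecidableEq ι] (j1 : ι) (t Lv : ℝ) (m : ι) : ℝ := if m = j1 then Lv else t

/-- the fit of a table to the geometric input -/
structure Fit3 (c : Case3) (a τ : ι → ℝ) (j1 : ι) : Prop where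
  hp : (c.p : ℝ) ≤ a j1
  hq : a j1 < c.q
  hτ1 : τ j1 = c.τ1
  hτr : ∀ l, l ≠ j1 → τ l = c.τ0 + c.κ * a l
  hcap : ∀ l, l ≠ j1 → a l ≤ c.cap
  hN : Fintype.card ι = c.N

/-- the bound function for the other vertices -/
lemma gb_decomp3 (S τ0 κ a u : ℝ) :
    gb (1 + S + 2 * a - 2 * (τ0 + κ * a)) (1 + a) u =
      Ac (1 + S - 2 * τ0) u + a * (2 * (Psi u - κ * Real.exp (-u ^ 2 / 2))) := by
  simp only [gb, Ac, Psi]
  ring

lemma exp_le_eUp {t : ℚ} {u : ℝ} (ht : 0 ≤ t) (hu : (t : ℝ) ≤ u) :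
    Real.exp (-u ^ 2 / 2) ≤ ((eUp (t ^ 2 / 2) : ℚ) : ℝ) := by
  have ht' : (0 : ℝ) ≤ t := by exact_mod_cast ht
  have h2 : Real.exp (-((t ^ 2 / 2 : ℚ) : ℝ)) ≤ ((eUp (t ^ 2 / 2) : ℚ) : ℝ) :=
    le_eUp (by positivity)
  refine le_trans ?_ h2
  apply Real.exp_le_exp.2
  have : (t : ℝ) ^ 2 ≤ u ^ 2 := pow_le_pow_left₀ ht' hu 2
  push_cast
  linarith

lemma eLow_le_exp {T : ℚ} {u : ℝ} (hu0 : 0 ≤ u) (hu : u ≤ T) :
    ((eLow (T ^ 2 / 2) : ℚ) : ℝ) ≤ Real.exp (-u ^ 2 / 2) := by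
  have h2 : ((eLow (T ^ 2 / 2) : ℚ) : ℝ) ≤ Real.exp (-((T ^ 2 / 2 : ℚ) : ℝ)) :=
    eLow_le (by positivity)
  refine h2.trans ?_
  apply Real.exp_le_exp.2
  have : u ^ 2 ≤ (T : ℝ) ^ 2 := pow_le_pow_left₀ hu0 hu 2
  push_cast
  linarith

lemma band_A [Nonempty ι] {v : ι → E} {a τ : ι → ℝ} {n : E} {M : E → ℝ}
    {j1 : ι} (g : Geo v a τ n M) {c : Case3} (f : Fit3 c a τ j1) {LT R' : ℚ} {r : Row3}
    (hc0 : 0 ≤ 1 + c.S - 2 * c.τ1) (hc1 : 1 + c.S - 2 * c.τ1 < 2) (hL0 : 0 < r.Lv)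
    (hcv : r.cv ≤ cvg c LT R' r) (hBbL : r.Lv < LT → 0 ≤ Bbg r.Lv)
    (x : E) (hx : Integrable (fun s => cellG v n M c.S (slice n (x, s))) (gaussianReal 0 1))
    (htopx : ∀ m, ⟪v m, x⟫ ≤ ⟪v j1, x⟫) (h1 : (r.Lv : ℝ) < ⟪v j1, x⟫) (h2 : ⟪v j1, x⟫ ≤ LT) :
    Gf v n M c.S x + R' ≤ - (r.cv : ℝ) ∧ r.Lv < LT := by
  have hLT : r.Lv < LT := by
    have : (r.Lv : ℝ) < LT := h1.trans_le h2
    exact_mod_cast this
  refine ⟨?_, hLT⟩
  have hG := inner_bound2 v a τ n M c.S g.hn g.horth g.hM x j1 htopx hx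
  rw [gb_decomp, f.hτ1] at hG
  have hcvv : (r.cv : ℝ) ≤ -(((Abg r.Lv LT (1 + c.S - 2 * c.τ1) : ℚ) : ℝ) +
      c.q * ((Bbg r.Lv : ℚ) : ℝ) + R') := by
    have := (Rat.cast_le (K := ℝ)).2 hcv
    simp only [cvg] at this
    push_cast at this
    exact this
  have hP := Bbf_spec (t := r.Lv) (qt := qlo r.Lv) hL0.le h1.le qlo_le
  have hAc := Abf_spec (t := r.Lv) (T := LT) (qt := qlo r.Lv) (qT := qlo LT)
    (cc := 1 + c.S - 2 * c.τ1) hL0.le h1.le h2 qlo_le qlo_le hc0 hc1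
  have e1 : ((1 + c.S - 2 * c.τ1 : ℚ) : ℝ) = 1 + (c.S : ℝ) - 2 * c.τ1 := by push_cast; ring
  rw [e1] at hAc
  have hBbL' : (0 : ℝ) ≤ ((Bbg r.Lv : ℚ) : ℝ) := by exact_mod_cast hBbL hLT
  have h3 : 2 * a j1 * Psi ⟪v j1, x⟫ ≤ c.q * ((Bbg r.Lv : ℚ) : ℝ) := by
    have h4 : a j1 * (2 * Psi ⟪v j1, x⟫) ≤ a j1 * ((Bbg r.Lv : ℚ) : ℝ) :=
      mul_le_mul_of_nonneg_left hP (g.ha j1).le
    have h5 := mul_le_mul_of_nonneg_right f.hq.le hBbL'
    linarith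
  have hAb : ((Abg r.Lv LT (1 + c.S - 2 * c.τ1) : ℚ) : ℝ) =
      ((Abf r.Lv LT (qlo r.Lv) (qlo LT) (1 + c.S - 2 * c.τ1) : ℚ) : ℝ) := rfl
  rw [hAb] at hcvv
  linarith

lemma band_B [Nonempty ι] {v : ι → E} {a τ : ι → ℝ} {n : E} {M : E → ℝ}
    {j1 : ι} (g : Geo v a τ n M) {c : Case3} (f : Fit3 c a τ j1) {T R' : ℚ} {r : Row3}
    (hd0 : 0 ≤ 1 + c.S - 2 * c.τ0) (hd1 : 1 + c.S - 2 * c.τ0 < 2) (ht0 : 0 < r.t)
    (hκ0 : 0 ≤ c.κ) (hAr : r.Ar ≤ Arg c T R' r)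
    (hBbS : 2 * (eUp (r.t ^ 2 / 2) - r.t * qlo r.t - c.κ * eLow (T ^ 2 / 2)) ≤ r.Bb)
    (x : E) (hx : Integrable (fun s => cellG v n M c.S (slice n (x, s))) (gaussianReal 0 1))
    (l : ι) (hl : l ≠ j1) (htopx : ∀ m, ⟪v m, x⟫ ≤ ⟪v l, x⟫) (h1 : (r.t : ℝ) < ⟪v l, x⟫)
    (h2 : ⟪v l, x⟫ ≤ T) :
    Gf v n M c.S x + R' ≤ - ((r.Ar : ℝ) - r.Bb * a l) := by
  have ht0' : (0 : ℝ) < r.t := by exact_mod_cast ht0
  have hκ0' : (0 : ℝ) ≤ c.κ := by exact_mod_cast hκ0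
  have hqt : ((qlo r.t : ℚ) : ℝ) ≤ Qt r.t := qlo_le
  have hG := inner_bound2 v a τ n M c.S g.hn g.horth g.hM x l htopx hx
  rw [f.hτr l hl, gb_decomp3] at hG
  have hAc := Abf_spec (t := r.t) (T := T) (qt := qlo r.t) (qT := qlo T)
    (cc := 1 + c.S - 2 * c.τ0) ht0.le h1.le h2 hqt qlo_le hd0 hd1
  have e1 : ((1 + c.S - 2 * c.τ0 : ℚ) : ℝ) = 1 + (c.S : ℝ) - 2 * c.τ0 := by push_cast; ring
  rw [e1] at hAc
  have hu0 : 0 ≤ ⟪v l, x⟫ := ht0'.le.trans h1.le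
  have hP := Psi_anti h1.le
  have hPt : Psi r.t ≤ ((eUp (r.t ^ 2 / 2) : ℚ) : ℝ) - r.t * ((qlo r.t : ℚ) : ℝ) := by
    have h3 := exp_le_eUp (t := r.t) (u := r.t) ht0.le le_rfl
    have h4 := mul_le_mul_of_nonneg_left hqt ht0'.le
    simp only [Psi]
    linarith
  have he := eLow_le_exp (T := T) hu0 h2
  have hS : 2 * (Psi ⟪v l, x⟫ - c.κ * Real.exp (-⟪v l, x⟫ ^ 2 / 2)) ≤ r.Bb := by
    have h5 : (2 * ((eUp (r.t ^ 2 / 2) : ℚ) - r.t * (qlo r.t : ℚ) -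
        c.κ * (eLow ((T : ℚ) ^ 2 / 2) : ℚ)) : ℝ) ≤ r.Bb := by
      exact_mod_cast hBbS
    have h6 := mul_le_mul_of_nonneg_left he hκ0'
    linarith
  have h7 := mul_le_mul_of_nonneg_left hS (g.ha l).le
  have hArv : (r.Ar : ℝ) ≤ -(max ((Abg r.t T (1 + c.S - 2 * c.τ0) : ℚ) : ℝ) (r.Wb : ℝ) + R') := by
    have := (Rat.cast_le (K := ℝ)).2 hAr
    simp only [Arg] at this
    push_cast at this
    exact this
  have hmax : ((Abg r.t T (1 + c.S - 2 * c.τ0) : ℚ) : ℝ) ≤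
      max ((Abg r.t T (1 + c.S - 2 * c.τ0) : ℚ) : ℝ) (r.Wb : ℝ) := le_max_left _ _
  have hAb : ((Abg r.t T (1 + c.S - 2 * c.τ0) : ℚ) : ℝ) =
      ((Abf r.t T (qlo r.t) (qlo T) (1 + c.S - 2 * c.τ0) : ℚ) : ℝ) := rfl
  rw [hAb] at hmax hArv
  nlinarith

/-- the numerical form of the two line bound -/
lemma two_num {c : Case3} {t yl y' ρ Wb Bb : ℚ} {al GG : ℝ} (ht0 : 0 < t) (hyl0 : (0 : ℝ) ≤ yl)
    (hy0 : 0 ≤ y') (hyρ : y' ≤ ρ) (hq0 : (0 : ℝ) < c.q)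
    (hc0 : (0 : ℝ) ≤ 1 + c.S - 2 * c.τ1) (hd0 : (0 : ℝ) ≤ 1 + c.S - 2 * c.τ0)
    (hκ1 : (c.κ : ℝ) ≤ 1) (hal : 0 < al)
    (hG : GG ≤ (1 + (c.S : ℝ) - 2 * c.τ1 + 2 * c.q) * (Real.exp (-(y' : ℝ) ^ 2 / 2) -
        Real.exp (-(ρ : ℝ) ^ 2 / 2)) - 2 * (1 + (c.q : ℝ)) * yl * (Qt y' - Qt ρ) +
        (1 + (c.S : ℝ) + 2 * (al - ((c.τ0 : ℝ) + c.κ * al))) * Real.exp (-(ρ : ℝ) ^ 2 / 2) -
        2 * (1 + al) * t * Qt ρ)
    (hW : Wval c t yl y' ρ ≤ Wb) (hSl : Sl2 c t ρ ≤ Bb) :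
    GG ≤ Wb + Bb * al := by
  have ht0' : (0 : ℝ) < t := by exact_mod_cast ht0
  have hρ0 : 0 ≤ ρ := hy0.trans hyρ
  have hρ0' : (0 : ℝ) ≤ ρ := by exact_mod_cast hρ0
  have hb0 : (0 : ℝ) ≤ 1 + c.S - 2 * c.τ1 + 2 * c.q := by linarith
  have he1 := exp_le_eUp (t := y') (u := y') hy0 le_rfl
  have he2 := exp_le_eUp (t := ρ) (u := ρ) hρ0 le_rfl
  have he3 := eLow_le_exp (T := ρ) (u := ρ) hρ0' le_rfl
  have hq2 : ((qdiff y' ρ : ℚ) : ℝ) ≤ Qt y' - Qt ρ := qdiff_le hρ0 hyρ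
  have hq3 : ((qlo ρ : ℚ) : ℝ) ≤ Qt ρ := qlo_le
  have hWv : (((Wval c t yl y' ρ : ℚ) : ℝ)) ≤ Wb := by exact_mod_cast hW
  have hSv : (((Sl2 c t ρ : ℚ) : ℝ)) ≤ Bb := by exact_mod_cast hSl
  simp only [Wval] at hWv
  simp only [Sl2] at hSv
  push_cast at hWv hSv
  have h10 : (1 + (c.S : ℝ) - 2 * c.τ1 + 2 * c.q) * (Real.exp (-(y' : ℝ) ^ 2 / 2) -
      Real.exp (-(ρ : ℝ) ^ 2 / 2)) ≤ (1 + (c.S : ℝ) - 2 * c.τ1 + 2 * c.q) *
      (((eUp ((y' : ℚ) ^ 2 / 2) : ℚ) : ℝ) - ((eLow ((ρ : ℚ) ^ 2 / 2) : ℚ) : ℝ)) :=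
    mul_le_mul_of_nonneg_left (by linarith) hb0
  have h11 : 2 * (1 + (c.q : ℝ)) * yl * ((qdiff y' ρ : ℚ) : ℝ) ≤
      2 * (1 + (c.q : ℝ)) * yl * (Qt y' - Qt ρ) :=
    mul_le_mul_of_nonneg_left hq2 (by positivity)
  have h12 : (1 + (c.S : ℝ) - 2 * c.τ0) * Real.exp (-(ρ : ℝ) ^ 2 / 2) ≤
      (1 + (c.S : ℝ) - 2 * c.τ0) * ((eUp ((ρ : ℚ) ^ 2 / 2) : ℚ) : ℝ) :=
    mul_le_mul_of_nonneg_left he2 hd0
  have h13 : 2 * (t : ℝ) * ((qlo ρ : ℚ) : ℝ) ≤ 2 * (t : ℝ) * Qt ρ :=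
    mul_le_mul_of_nonneg_left hq3 (by positivity)
  have h14 : 2 * ((1 - (c.κ : ℝ)) * Real.exp (-(ρ : ℝ) ^ 2 / 2) - t * Qt ρ) ≤ Bb := by
    have h15 : (1 - (c.κ : ℝ)) * Real.exp (-(ρ : ℝ) ^ 2 / 2) ≤
        (1 - (c.κ : ℝ)) * ((eUp ((ρ : ℚ) ^ 2 / 2) : ℚ) : ℝ) :=
      mul_le_mul_of_nonneg_left he2 (by linarith)
    have h16 : (t : ℝ) * ((qlo ρ : ℚ) : ℝ) ≤ (t : ℝ) * Qt ρ :=
      mul_le_mul_of_nonneg_left hq3 ht0'.le
    linarith
  have h17 := mul_le_mul_of_nonneg_left h14 hal.le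
  have e5 : (1 + (c.S : ℝ) + 2 * (al - ((c.τ0 : ℝ) + c.κ * al))) * Real.exp (-(ρ : ℝ) ^ 2 / 2) -
      2 * (1 + al) * t * Qt ρ = (1 + (c.S : ℝ) - 2 * c.τ0) * Real.exp (-(ρ : ℝ) ^ 2 / 2) -
      2 * t * Qt ρ + al * (2 * ((1 - (c.κ : ℝ)) * Real.exp (-(ρ : ℝ) ^ 2 / 2) - t * Qt ρ)) := by
    ring
  have hWv' : (1 + (c.S : ℝ) - 2 * c.τ1 + 2 * c.q) *
      (((eUp ((y' : ℚ) ^ 2 / 2) : ℚ) : ℝ) - ((eLow ((ρ : ℚ) ^ 2 / 2) : ℚ) : ℝ)) -
      2 * (1 + (c.q : ℝ)) * yl * ((qdiff y' ρ : ℚ) : ℝ) +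
      (1 + (c.S : ℝ) - 2 * c.τ0) * ((eUp ((ρ : ℚ) ^ 2 / 2) : ℚ) : ℝ) -
      2 * (t : ℝ) * ((qlo ρ : ℚ) : ℝ) ≤ Wb := by
    refine le_trans (le_of_eq ?_) hWv
    push_cast
    ring
  linarith

lemma band_C [Nonempty ι] {v : ι → E} {a τ : ι → ℝ} {n : E} {M : E → ℝ}
    {j1 : ι} (g : Geo v a τ n M) {c : Case3} (f : Fit3 c a τ j1) {T R' : ℚ} {r : Row3}
    (hc0 : (0 : ℝ) ≤ 1 + c.S - 2 * c.τ1) (hd0 : (0 : ℝ) ≤ 1 + c.S - 2 * c.τ0)
    (hκ1 : (c.κ : ℝ) ≤ 1) (ht0 : 0 < r.t) (hAr : r.Ar ≤ Arg c T R' r)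
    (hcells : cellsOK c r.t r.Lv r.Wb r.Bb (0 :: c.ys) = true)
    (x : E) (hx : Integrable (fun s => cellG v n M c.S (slice n (x, s))) (gaussianReal 0 1))
    (l : ι) (hl : l ≠ j1) (htopx : ∀ m, ⟪v m, x⟫ ≤ ⟪v j1, x⟫) (h1 : (r.t : ℝ) < ⟪v l, x⟫)
    (h1' : (r.t : ℝ) < ⟪v j1, x⟫) (h2 : ⟪v j1, x⟫ ≤ r.Lv) :
    Gf v n M c.S x + R' ≤ - ((r.Ar : ℝ) - r.Bb * a l) := by
  have ht0' : (0 : ℝ) < r.t := by exact_mod_cast ht0
  have hz0 : ((0 : ℚ) : ℝ) < ⟪v j1, x⟫ := by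
    have : (0 : ℝ) < ⟪v j1, x⟫ := ht0'.trans h1'
    simpa using this
  have hq0 : (0 : ℝ) < c.q := (g.ha j1).trans f.hq
  obtain ⟨x', y', hx', hy', hcell⟩ := cellsOK_find hcells hz0 h2
  simp only [cellOK, Bool.or_eq_true, Bool.and_eq_true, decide_eq_true_eq] at hcell
  have hnot1 : ¬ y' ≤ r.t := by
    intro h
    have : (y' : ℝ) ≤ r.t := by exact_mod_cast h
    linarith
  have hnot2 : ¬ r.Lv ≤ x' := by
    intro h
    have : (r.Lv : ℝ) ≤ x' := by exact_mod_cast h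
    linarith
  rcases hcell with (h | h) | ⟨⟨hd, hW⟩, hSl⟩
  · exact absurd h hnot1
  · exact absurd h hnot2
  set ρ : ℚ := rhof c r.t y' with hρdef
  set yl : ℚ := max x' r.t with hyl
  have hyl' : (yl : ℝ) ≤ ⟪v j1, x⟫ := by
    have : ((max x' r.t : ℚ) : ℝ) = max (x' : ℝ) (r.t : ℝ) := by push_cast; rfl
    rw [hyl, this]
    exact max_le hx'.le h1'.le
  have hyl0 : (0 : ℝ) ≤ yl := by
    have : (r.t : ℝ) ≤ yl := by
      have h5 : r.t ≤ yl := le_max_right _ _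
      exact_mod_cast h5
    linarith
  have hy0 : 0 ≤ y' := by
    have : (0 : ℝ) ≤ y' := (ht0'.trans h1').le.trans hy'
    exact_mod_cast this
  have hyρ : y' ≤ ρ := (le_max_left _ _).trans (le_ru2 _)
  have hyρ' : (y' : ℝ) ≤ ρ := by exact_mod_cast hyρ
  have hq1a : (0 : ℝ) ≤ 1 + c.q := by linarith
  have hb0 : (0 : ℝ) ≤ 1 + c.S - 2 * c.τ1 + 2 * c.q := by linarith
  have hal0 : (0 : ℝ) ≤ 1 + a l := by linarith [g.ha l]
  have hd' : (1 + (c.S : ℝ) - 2 * τ j1 + 2 * c.q) * y' ≤ 2 * (1 + c.q) * yl := by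
    rw [f.hτ1]
    exact_mod_cast hd
  have hG := inner_two v a τ n M c.S g.hn g.horth g.hM x j1 l htopx hx (q := c.q) (t := r.t)
    (yl := yl) (y2 := y') (ρ := ρ) f.hq.le hq1a hyl' hy' hyρ' h1.le hal0
    (by rw [f.hτ1]; exact hb0) hd'
  rw [f.hτ1, f.hτr l hl] at hG
  have hnum := two_num ht0 hyl0 hy0 hyρ hq0 hc0 hd0 hκ1 (g.ha l) hG hW hSl
  have hArv : (r.Ar : ℝ) ≤ -(max ((Abg r.t T (1 + c.S - 2 * c.τ0) : ℚ) : ℝ) (r.Wb : ℝ) + R') := by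
    have := (Rat.cast_le (K := ℝ)).2 hAr
    simp only [Arg] at this
    push_cast at this
    exact this
  have hmax : (r.Wb : ℝ) ≤ max ((Abg r.t T (1 + c.S - 2 * c.τ0) : ℚ) : ℝ) (r.Wb : ℝ) :=
    le_max_right _ _
  linarith

/-- the per vertex inequality of the largest vertex -/
lemma vertex_top [Nonempty ι] [DecidableEq ι] {v : ι → E} {a τ : ι → ℝ} {n : E} {M : E → ℝ}
    {j : ι} (g : Geo v a τ n M) {c : Case3} (f : Fit3 c a τ j) {LT : ℚ} {r : Row3}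
    (hq1 : c.q ≤ 1) (hp0 : 0 ≤ c.p) (ht0 : 0 < r.t) (htL : r.t ≤ r.Lv) (hlam : 0 < r.lam)
    (heta : 0 ≤ r.eta1) (htop : topOK c LT r = true) {t' : ℝ} :
    ∫ y in {x | ∀ m, ⟪v m, x⟫ ≤ lev j t' (r.Lv : ℝ) m},
      ((r.eta1 : ℝ) - r.lam * (1 + a j) * ((r.Lv : ℝ) - ⟪v j, y⟫)) ∂(stdGaussian E) ≤
    (if r.Lv < LT then (r.cv : ℝ) else 0) * (stdGaussian E).real
      {x | (r.Lv : ℝ) < ⟪v j, x⟫ ∧ ⟪v j, x⟫ ≤ LT ∧ ∀ m, m ≠ j → ⟪v m, x⟫ ≤ lev j t' (r.Lv : ℝ) m} := by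
  simp only [topOK, Bool.or_eq_true, Bool.and_eq_true, decide_eq_true_eq] at htop
  have hlam' : (0 : ℝ) < r.lam := by exact_mod_cast hlam
  have heta' : (0 : ℝ) ≤ r.eta1 := by exact_mod_cast heta
  have hp0' : (0 : ℝ) ≤ c.p := by exact_mod_cast hp0
  have hq1' : (c.q : ℝ) ≤ 1 := by exact_mod_cast hq1
  have hq0 : (0 : ℝ) < c.q := (g.ha j).trans f.hq
  have hlt1 : a j < 1 := f.hq.trans_le hq1'
  have hL0 : 0 < r.Lv := ht0.trans_le htL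
  have hLv0 : (0 : ℝ) < r.Lv := by exact_mod_cast hL0
  have hneg : ∀ l, l ≠ j → ⟪v l, v j⟫ ≤ 0 := fun l hl => g.hneg l j hl
  obtain ⟨hvj, hxj⟩ := norm_facts (g.ha j) hlt1 (g.hvar j)
  have hal0 : 0 < 1 + a j := by linarith [g.ha j]
  have hL1 : lev j t' (r.Lv : ℝ) j = r.Lv := by simp [lev]
  rcases htop with ⟨h1, h2⟩ | ⟨⟨⟨h1, _⟩, hcv⟩, h3⟩
  · -- no band in this level
    rw [if_neg (by rw [h1]; exact lt_irrefl _), zero_mul, h2]
    apply setIntegral_nonpos (measurableSet_KL v _)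
    intro x hx
    have h5 := hx j
    rw [hL1] at h5
    have h6 : 0 ≤ (r.lam : ℝ) * (1 + a j) * ((r.Lv : ℝ) - ⟪v j, x⟫) :=
      mul_nonneg (by positivity) (by linarith)
    push_cast
    linarith
  · rw [if_pos h1]
    have hLT' : (r.Lv : ℝ) < LT := by exact_mod_cast h1
    have hcv1 : (0 : ℝ) ≤ r.cv := by exact_mod_cast hcv
    rcases h3 with h0 | ⟨hq, hle⟩
    · rw [h0]
      push_cast
      apply lemmaLv v j (lev j t' (r.Lv : ℝ)) hneg hvj hL1 (l := 0) (θ := 0) (Y := 0)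
        (xbar := (‖v j‖ ^ 2)⁻¹) (mlow := 0) (e := 0) hLv0 hLT' hal0 hlam' hcv1 le_rfl le_rfl
      intro h
      exact absurd h (lt_irrefl _)
    · have hq' : (c.q : ℝ) < 1 := by exact_mod_cast hq
      have hxb : 0 ≤ (1 + c.q) / (1 - c.q) := by
        have h2 : 0 ≤ c.q := by
          have : (0 : ℝ) ≤ c.q := hq0.le
          exact_mod_cast this
        apply div_nonneg <;> linarith
      have hp1 : 0 < 1 + c.p := by linarith
      have hm0 : 0 ≤ ru6 (r.eta1 / (r.lam * (1 + c.p))) :=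
        le_trans (by positivity) (le_ru6 _)
      apply vertexLv v j (lev j t' (r.Lv : ℝ)) hneg hvj hL1 hL0 h1 hxb hm0 hal0 hlam' hcv1
      · refine hxj.trans ?_
        have := xb_mono f.hq.le hq'
        push_cast
        exact this
      · intro hη
        have hp' : (1 : ℝ) + c.p ≤ 1 + a j := by linarith [f.hp]
        have hp1' : (0 : ℝ) < 1 + c.p := by linarith
        constructor
        · have hr : ((r.eta1 / (r.lam * (1 + c.p)) : ℚ) : ℝ) ≤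
              ((ru6 (r.eta1 / (r.lam * (1 + c.p))) : ℚ) : ℝ) := by
            exact_mod_cast le_ru6 _
          refine le_trans ?_ hr
          push_cast
          exact div_le_div_of_nonneg_left heta' (by positivity) (by
            exact mul_le_mul_of_nonneg_left hp' hlam'.le)
        · have h1' : ((r.eta1 : ℝ)) ^ 2 ≤ 2 * ((LT : ℝ) - r.Lv) * r.lam * r.cv * (1 + c.p) *
              ((Eb r.Lv LT ((1 + c.q) / (1 - c.q)) (ru6 (r.eta1 / (r.lam * (1 + c.p)))) : ℚ) : ℝ) := by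
            have h0 := (Rat.cast_le (K := ℝ)).2 hle
            push_cast at h0
            exact h0
          refine h1'.trans ?_
          have hE : (0 : ℝ) ≤
              ((Eb r.Lv LT ((1 + c.q) / (1 - c.q)) (ru6 (r.eta1 / (r.lam * (1 + c.p)))) : ℚ) : ℝ) := by
            exact_mod_cast Eb_nonneg _ _ _ _
          apply mul_le_mul_of_nonneg_right _ hE
          apply mul_le_mul_of_nonneg_left hp'
          have : 0 ≤ (LT : ℝ) - r.Lv := by linarith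
          positivity

/-- the per vertex inequality of the other vertices -/
lemma vertex_other [Nonempty ι] [DecidableEq ι] {v : ι → E} {a τ : ι → ℝ} {n : E} {M : E → ℝ}
    {j1 : ι} (g : Geo v a τ n M) {c : Case3} (f : Fit3 c a τ j1) {T : ℚ} {r : Row3}
    (hcap1 : c.cap < 1) (hq1 : c.q ≤ 1) (ht0 : 0 < r.t) (htT : r.t < T) (hlam : 0 < r.lam)
    (hk1 : 0 ≤ r.k1) (hBb : 0 ≤ r.Bb) (hArc : 0 ≤ r.Ar - c.cap * r.Bb)
    (hbins : binsOK r.t T r.lam r.k0 r.k1 r.Ar r.Bb c.cap (0 :: c.bins) = true)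
    (j : ι) (hj : j ≠ j1) {Lv' : ℝ} :
    ∫ y in {x | ∀ m, ⟪v m, x⟫ ≤ lev j1 (r.t : ℝ) Lv' m}, (((r.k0 : ℝ) - r.k1 * a j) -
        r.lam * (1 + a j) * ((r.t : ℝ) - ⟪v j, y⟫)) ∂(stdGaussian E) ≤
      ((r.Ar : ℝ) - r.Bb * a j) * (stdGaussian E).real {x | (r.t : ℝ) < ⟪v j, x⟫ ∧ ⟪v j, x⟫ ≤ T ∧
        ∀ m, m ≠ j → ⟪v m, x⟫ ≤ lev j1 (r.t : ℝ) Lv' m} := by
  have ht0' : (0 : ℝ) < r.t := by exact_mod_cast ht0
  have htT' : (r.t : ℝ) < T := by exact_mod_cast htT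
  have hlam' : (0 : ℝ) < r.lam := by exact_mod_cast hlam
  have hk1' : (0 : ℝ) ≤ r.k1 := by exact_mod_cast hk1
  have hBb' : (0 : ℝ) ≤ r.Bb := by exact_mod_cast hBb
  have hcap1' : (c.cap : ℝ) < 1 := by exact_mod_cast hcap1
  have hArc' : (c.cap : ℝ) * r.Bb ≤ r.Ar := by
    have : c.cap * r.Bb ≤ r.Ar := by linarith
    exact_mod_cast this
  have hal2 := f.hcap j hj
  have hlt1 : a j < 1 := hal2.trans_lt hcap1'
  have hneg : ∀ l, l ≠ j → ⟪v l, v j⟫ ≤ 0 := fun l hl => g.hneg l j hl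
  obtain ⟨hvj, hxj⟩ := norm_facts (g.ha j) hlt1 (g.hvar j)
  have hal0 : 0 < 1 + a j := by linarith [g.ha j]
  have hLj : lev j1 (r.t : ℝ) Lv' j = r.t := by simp [lev, hj]
  have hc2 : 0 ≤ (r.Ar : ℝ) - r.Bb * a j := by
    have := mul_le_mul_of_nonneg_right hal2 hBb'
    nlinarith
  have htriv : (r.k0 : ℝ) - r.k1 * a j ≤ 0 →
      ∫ y in {x | ∀ m, ⟪v m, x⟫ ≤ lev j1 (r.t : ℝ) Lv' m}, (((r.k0 : ℝ) - r.k1 * a j) -
        r.lam * (1 + a j) * (r.t - ⟪v j, y⟫)) ∂(stdGaussian E) ≤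
      ((r.Ar : ℝ) - r.Bb * a j) * (stdGaussian E).real {x | (r.t : ℝ) < ⟪v j, x⟫ ∧ ⟪v j, x⟫ ≤ T ∧
        ∀ m, m ≠ j → ⟪v m, x⟫ ≤ lev j1 (r.t : ℝ) Lv' m} := by
    intro h
    apply lemmaLv v j (lev j1 (r.t : ℝ) Lv') hneg hvj hLj (l := 0) (θ := 0) (Y := 0)
      (xbar := (‖v j‖ ^ 2)⁻¹) (mlow := 0) (e := 0) ht0' htT' hal0 hlam' hc2 le_rfl le_rfl
    intro h'
    exact absurd h' (not_lt.2 h)
  have hz0 : ((0 : ℚ) : ℝ) < a j := by simpa using g.ha j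
  obtain ⟨x', y', hx', hy', hbin⟩ := binsOK_find hbins hz0 hal2
  have hmon : (r.k0 : ℝ) - r.k1 * a j ≤ (r.k0 : ℝ) - r.k1 * x' := by
    have := mul_le_mul_of_nonneg_left hx'.le hk1'
    linarith
  by_cases hb0 : r.k0 - r.k1 * x' ≤ 0
  · apply htriv
    have : (r.k0 : ℝ) - r.k1 * x' ≤ 0 := by exact_mod_cast hb0
    linarith
  · simp only [binOK, Bool.or_eq_true, Bool.and_eq_true, decide_eq_true_eq] at hbin
    rcases hbin with hb1 | ⟨⟨hy1, hx0⟩, hle⟩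
    · exact absurd hb1 hb0
    · push Not at hb0
      have hb0' : (0 : ℝ) < (r.k0 : ℝ) - r.k1 * x' := by exact_mod_cast hb0
      have hy1' : (y' : ℝ) < 1 := by exact_mod_cast hy1
      have hx0' : (0 : ℝ) ≤ x' := by exact_mod_cast hx0
      have hxb : 0 ≤ (1 + y') / (1 - y') := by
        have hy0 : 0 ≤ y' := by
          have : (0 : ℝ) ≤ y' := (g.ha j).le.trans hy'
          exact_mod_cast this
        apply div_nonneg <;> linarith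
      have hm0 : 0 ≤ ru6 ((r.k0 - r.k1 * x') / (r.lam * (1 + x'))) := by
        have h1 : 0 ≤ r.k0 - r.k1 * x' := hb0.le
        have h2 : 0 < 1 + x' := by linarith
        exact le_trans (by positivity) (le_ru6 _)
      apply vertexLv v j (lev j1 (r.t : ℝ) Lv') hneg hvj hLj ht0 htT hxb hm0 hal0 hlam' hc2
      · refine hxj.trans ?_
        have := xb_mono hy' hy1'
        push_cast
        exact this
      · intro hη
        have hp' : (1 : ℝ) + x' ≤ 1 + a j := by linarith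
        have hp1' : (0 : ℝ) < 1 + x' := by linarith
        constructor
        · have hr : (((r.k0 - r.k1 * x') / (r.lam * (1 + x')) : ℚ) : ℝ) ≤
              ((ru6 ((r.k0 - r.k1 * x') / (r.lam * (1 + x'))) : ℚ) : ℝ) := by
            exact_mod_cast le_ru6 _
          refine le_trans ?_ hr
          push_cast
          exact div_le_div₀ hb0'.le hmon (by positivity)
            (mul_le_mul_of_nonneg_left hp' hlam'.le)
        · have h1 : ((r.k0 : ℝ) - r.k1 * x') ^ 2 ≤ 2 * ((T : ℝ) - r.t) * r.lam *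
              ((r.Ar : ℝ) - r.Bb * y') * (1 + x') *
              ((Eb r.t T ((1 + y') / (1 - y')) (ru6 ((r.k0 - r.k1 * x') / (r.lam * (1 + x')))) : ℚ) : ℝ) := by
            have h0 := (Rat.cast_le (K := ℝ)).2 hle
            push_cast at h0
            exact h0
          have h2 : ((r.k0 : ℝ) - r.k1 * a j) ^ 2 ≤ ((r.k0 : ℝ) - r.k1 * x') ^ 2 :=
            pow_le_pow_left₀ hη.le hmon 2
          refine h2.trans (h1.trans ?_)
          have hE : (0 : ℝ) ≤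
              ((Eb r.t T ((1 + y') / (1 - y')) (ru6 ((r.k0 - r.k1 * x') / (r.lam * (1 + x')))) : ℚ) : ℝ) := by
            exact_mod_cast Eb_nonneg _ _ _ _
          apply mul_le_mul_of_nonneg_right _ hE
          have hD : 0 ≤ 2 * ((T : ℝ) - r.t) * r.lam := by
            have : 0 ≤ (T : ℝ) - r.t := by linarith
            positivity
          have h3 : ((r.Ar : ℝ) - r.Bb * y') * (1 + x') ≤ ((r.Ar : ℝ) - r.Bb * a j) * (1 + a j) := by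
            have h4 : (r.Ar : ℝ) - r.Bb * y' ≤ (r.Ar : ℝ) - r.Bb * a j := by
              have := mul_le_mul_of_nonneg_left hy' hBb'
              linarith
            calc ((r.Ar : ℝ) - r.Bb * y') * (1 + x') ≤ ((r.Ar : ℝ) - r.Bb * a j) * (1 + x') :=
                  mul_le_mul_of_nonneg_right h4 hp1'.le
              _ ≤ ((r.Ar : ℝ) - r.Bb * a j) * (1 + a j) := mul_le_mul_of_nonneg_left hp' hc2
          calc 2 * ((T : ℝ) - r.t) * r.lam * ((r.Ar : ℝ) - r.Bb * y') * (1 + x')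
              = 2 * ((T : ℝ) - r.t) * r.lam * (((r.Ar : ℝ) - r.Bb * y') * (1 + x')) := by ring
            _ ≤ 2 * ((T : ℝ) - r.t) * r.lam * (((r.Ar : ℝ) - r.Bb * a j) * (1 + a j)) :=
                mul_le_mul_of_nonneg_left h3 hD
            _ = 2 * ((T : ℝ) - r.t) * r.lam * ((r.Ar : ℝ) - r.Bb * a j) * (1 + a j) := by ring

/-- the decrement of one level -/
lemma decrement3 [Nonempty ι] [DecidableEq ι] {v : ι → E} {a τ : ι → ℝ} {n : E} {M : E → ℝ}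
    {j1 : ι} (g : Geo v a τ n M) {c : Case3} (f : Fit3 c a τ j1) {R' : ℚ} {r : Row3}
    (htL : r.t ≤ r.Lv) (hlam : 0 < r.lam) (hk1 : 0 ≤ r.k1)
    (hRc : R' - Dv3 c r ≤ r.Rc) :
    (R' : ℝ) - (∑ j, (((r.k0 : ℝ) - r.k1 * a j) +
      (if j = j1 then (r.eta1 : ℝ) - (r.k0 - r.k1 * a j1) else 0)) -
      r.lam * ∑ j, (1 + a j) * lev j1 (r.t : ℝ) (r.Lv : ℝ) j) ≤ r.Rc := by
  have htL' : (r.t : ℝ) ≤ r.Lv := by exact_mod_cast htL
  have hlam' : (0 : ℝ) < r.lam := by exact_mod_cast hlam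
  have hk1' : (0 : ℝ) ≤ r.k1 := by exact_mod_cast hk1
  have hsumη : ∑ j, (((r.k0 : ℝ) - r.k1 * a j) +
      (if j = j1 then (r.eta1 : ℝ) - (r.k0 - r.k1 * a j1) else 0)) =
      (Fintype.card ι : ℝ) * r.k0 - r.k1 + ((r.eta1 : ℝ) - (r.k0 - r.k1 * a j1)) := by
    rw [Finset.sum_add_distrib, Finset.sum_sub_distrib, ← Finset.mul_sum, g.hsum,
      Finset.sum_ite_eq' Finset.univ j1]
    simp
  have hsumL : ∑ j, (1 + a j) * lev j1 (r.t : ℝ) (r.Lv : ℝ) j =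
      (r.t : ℝ) * ((Fintype.card ι : ℝ) + 1) + (1 + a j1) * ((r.Lv : ℝ) - r.t) := by
    have h1 : ∀ j, (1 + a j) * lev j1 (r.t : ℝ) (r.Lv : ℝ) j = (r.t : ℝ) * (1 + a j) +
        (if j = j1 then (1 + a j1) * ((r.Lv : ℝ) - r.t) else 0) := by
      intro j
      by_cases hj : j = j1
      · simp only [lev, hj, if_true]
        ring
      · simp only [lev, if_neg hj]
        ring
    simp_rw [h1]
    rw [Finset.sum_add_distrib, ← Finset.mul_sum, Finset.sum_add_distrib, g.hsum,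
      Finset.sum_ite_eq' Finset.univ j1]
    simp
  rw [hsumη, hsumL, f.hN]
  have hRc' : (R' : ℝ) - (r.eta1 + ((c.N : ℝ) - 1) * r.k0 - r.k1 * (1 - c.p) -
      r.lam * (r.t * ((c.N : ℝ) + 1) + (1 + c.q) * ((r.Lv : ℝ) - r.t))) ≤ r.Rc := by
    have h0 := (Rat.cast_le (K := ℝ)).2 hRc
    simp only [Dv3] at h0
    push_cast at h0
    exact h0
  have h1 : 0 ≤ (r.k1 : ℝ) * (a j1 - c.p) := mul_nonneg hk1' (by linarith [f.hp])
  have h2 : 0 ≤ (r.lam : ℝ) * (((c.q : ℝ) - a j1) * ((r.Lv : ℝ) - r.t)) :=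
    mul_nonneg hlam'.le (mul_nonneg (by linarith [f.hq]) (by linarith))
  nlinarith

/-- one level of the chain -/
theorem row_step3 [Nonempty ι] [DecidableEq ι] {v : ι → E} {a τ : ι → ℝ} {n : E} {M : E → ℝ}
    {j1 : ι} (g : Geo v a τ n M) {c : Case3} (f : Fit3 c a τ j1) {T LT R' : ℚ} {r : Row3}
    (hl0 : ∃ l, l ≠ j1)
    (hc0 : 0 ≤ 1 + c.S - 2 * c.τ1) (hc1 : 1 + c.S - 2 * c.τ1 < 2)
    (hd0 : 0 ≤ 1 + c.S - 2 * c.τ0) (hd1 : 1 + c.S - 2 * c.τ0 < 2)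
    (hq1 : c.q ≤ 1) (hcap1 : c.cap < 1) (hp0 : 0 ≤ c.p) (hκ0 : 0 ≤ c.κ) (hκ1 : c.κ ≤ 1)
    (hok : rowOK3 c T LT R' r = true)
    (hclaim : Claim3 v (Gf v n M c.S) (lev j1 (T : ℝ) (LT : ℝ)) R') :
    Claim3 v (Gf v n M c.S) (lev j1 (r.t : ℝ) (r.Lv : ℝ)) r.Rc := by
  simp only [rowOK3, Bool.and_eq_true, decide_eq_true_eq] at hok
  obtain ⟨⟨⟨⟨⟨⟨⟨⟨⟨⟨⟨⟨⟨⟨⟨ht0, htL⟩, htT⟩, hLL⟩, hlam⟩, hk1⟩, heta⟩, hBb⟩, hBbS⟩, hAr⟩, hcv⟩, hArc⟩,
    htop⟩, hbins⟩, hcells⟩, hRc⟩ := hok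
  have ht0' : (0 : ℝ) < r.t := by exact_mod_cast ht0
  have htT' : (r.t : ℝ) < T := by exact_mod_cast htT
  have hLL' : (r.Lv : ℝ) ≤ LT := by exact_mod_cast hLL
  have hBb' : (0 : ℝ) ≤ r.Bb := by exact_mod_cast hBb
  have hArc' : (c.cap : ℝ) * r.Bb ≤ r.Ar := by
    have : c.cap * r.Bb ≤ r.Ar := by linarith
    exact_mod_cast this
  have hc0' : (0 : ℝ) ≤ 1 + c.S - 2 * c.τ1 := by exact_mod_cast hc0
  have hd0' : (0 : ℝ) ≤ 1 + c.S - 2 * c.τ0 := by exact_mod_cast hd0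
  have hκ1' : (c.κ : ℝ) ≤ 1 := by exact_mod_cast hκ1
  have hL1 : ∀ t Lv : ℝ, lev j1 t Lv j1 = Lv := fun t Lv => by simp [lev]
  have hLl : ∀ (t Lv : ℝ) (l : ι), l ≠ j1 → lev j1 t Lv l = t := fun t Lv l hl => by simp [lev, hl]
  have htop0 := htop
  simp only [topOK, Bool.or_eq_true, Bool.and_eq_true, decide_eq_true_eq] at htop0
  set cv' : ℝ := if r.Lv < LT then (r.cv : ℝ) else 0 with hcvdef
  set cf : ι → ℝ := fun j => if j = j1 then cv' else (r.Ar : ℝ) - r.Bb * a j with hcf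
  set ηf : ι → ℝ := fun j => ((r.k0 : ℝ) - r.k1 * a j) +
    (if j = j1 then (r.eta1 : ℝ) - (r.k0 - r.k1 * a j1) else 0) with hηf
  have hη1 : ηf j1 = r.eta1 := by
    simp only [hηf, if_true]
    ring
  have hηl : ∀ l, l ≠ j1 → ηf l = (r.k0 : ℝ) - r.k1 * a l := by
    intro l hl
    simp only [hηf, if_neg hl, add_zero]
  have hcf1 : cf j1 = cv' := by simp only [hcf, if_true]
  have hcfl : ∀ l, l ≠ j1 → cf l = (r.Ar : ℝ) - r.Bb * a l := by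
    intro l hl
    simp only [hcf, if_neg hl]
  have hcv0 : 0 ≤ cv' := by
    simp only [hcvdef]
    split_ifs with h
    · rcases htop0 with ⟨h1, _⟩ | ⟨⟨⟨_, h2⟩, h3⟩, _⟩
      · rw [h1] at h
        exact absurd h (lt_irrefl _)
      · exact_mod_cast h3
    · exact le_rfl
  have hcf0 : ∀ j, 0 ≤ cf j := by
    intro j
    by_cases hj : j = j1
    · rw [hj, hcf1]; exact hcv0
    · rw [hcfl j hj]
      have := mul_le_mul_of_nonneg_right (f.hcap j hj) hBb'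
      nlinarith
  have hBbL : r.Lv < LT → 0 ≤ Bbg r.Lv := by
    intro h
    rcases htop0 with ⟨h1, _⟩ | ⟨⟨⟨_, h2⟩, _⟩, _⟩
    · rw [h1] at h
      exact absurd h (lt_irrefl _)
    · exact h2
  have hL0 : 0 < r.Lv := ht0.trans_le htL
  obtain ⟨hae, -⟩ := integrable_slice n g.hn (integrable_cellG v n c.S g.hMint)
  have hGi := integrable_Gf v n c.S g.hn g.hMint
  have hA := band_A (LT := LT) (R' := R') (r := r) g f hc0 hc1 hL0 hcv hBbL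
  have hB := band_B (T := T) (R' := R') (r := r) g f hd0 hd1 ht0 hκ0 hAr hBbS
  have hC := band_C (T := T) (R' := R') (r := r) g f hc0' hd0' hκ1' ht0 hAr hcells
  refine chain_step3 v a (G := Gf v n M c.S) hGi g.hbal (R' := R') (lam := r.lam)
    cf ηf ?_ ?_ hcf0 ?_ (decrement3 g f htL hlam hk1 hRc) hclaim
  · -- the levels are ordered
    intro j
    by_cases hj : j = j1
    · rw [hj, hL1, hL1]; exact hLL'
    · rw [hLl _ _ j hj, hLl _ _ j hj]; exact htT'.le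
  · -- the bound on the band
    filter_upwards [hae] with x hx hxL' hxL
    obtain ⟨l0, hl0⟩ := hl0
    obtain ⟨l, hlmem, hlmax⟩ := Finset.exists_max_image (Finset.univ.erase j1)
      (fun m => ⟪v m, x⟫) ⟨l0, Finset.mem_erase.2 ⟨hl0, Finset.mem_univ _⟩⟩
    have hlj : l ≠ j1 := (Finset.mem_erase.1 hlmem).1
    have hlm : ∀ m, m ≠ j1 → ⟪v m, x⟫ ≤ ⟪v l, x⟫ := fun m hm =>
      hlmax m (Finset.mem_erase.2 ⟨hm, Finset.mem_univ _⟩)
    have hyLT : ⟪v j1, x⟫ ≤ LT := by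
      have := hxL' j1
      rwa [hL1] at this
    have hwT : ⟪v l, x⟫ ≤ T := by
      have := hxL' l
      rwa [hLl _ _ l hlj] at this
    have hAc : (r.Lv : ℝ) < ⟪v j1, x⟫ → (∀ m, ⟪v m, x⟫ ≤ ⟪v j1, x⟫) →
        Gf v n M c.S x + R' ≤ - cv' ∧ 0 ≤ cv' := by
      intro h1 h2
      obtain ⟨h3, h4⟩ := hA x hx h2 h1 hyLT
      refine ⟨?_, hcv0⟩
      simp only [hcvdef]
      rw [if_pos h4]
      exact h3
    by_cases hw : ⟪v l, x⟫ ≤ r.t
    · -- only the largest vertex is above its level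
      have hy : (r.Lv : ℝ) < ⟪v j1, x⟫ := by
        by_contra h
        push Not at h
        apply hxL
        intro m
        by_cases hm : m = j1
        · rw [hm, hL1]; exact h
        · rw [hLl _ _ m hm]; exact (hlm m hm).trans hw
      have htopx : ∀ m, ⟪v m, x⟫ ≤ ⟪v j1, x⟫ := by
        intro m
        by_cases hm : m = j1
        · rw [hm]
        · have := hlm m hm
          have h5 : (r.t : ℝ) ≤ r.Lv := by exact_mod_cast htL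
          linarith
      obtain ⟨h1, _⟩ := hAc hy htopx
      refine ⟨by linarith, ?_⟩
      intro j hS
      by_cases hj : j = j1
      · rw [hj, hcf1]; exact h1
      · exfalso
        have h2 := hS.1
        rw [hLl _ _ j hj] at h2
        have := hlm j hj
        linarith
    · push Not at hw
      -- the common conclusion
      have hfin : Gf v n M c.S x + R' ≤ - ((r.Ar : ℝ) - r.Bb * a l) →
          Gf v n M c.S x + R' ≤ 0 ∧
            ∀ j, (lev j1 (r.t : ℝ) (r.Lv : ℝ) j < ⟪v j, x⟫ ∧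
              ⟪v j, x⟫ ≤ lev j1 (T : ℝ) (LT : ℝ) j ∧
              ∀ m, m ≠ j → ⟪v m, x⟫ ≤ lev j1 (r.t : ℝ) (r.Lv : ℝ) m) →
              Gf v n M c.S x + R' ≤ - cf j := by
        intro h
        have h0 : 0 ≤ (r.Ar : ℝ) - r.Bb * a l := by
          have := hcf0 l
          rwa [hcfl l hlj] at this
        refine ⟨by linarith, ?_⟩
        intro j hS
        by_cases hjl : j = l
        · rw [hjl, hcfl l hlj]; exact h
        · exfalso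
          have h2 := hS.2.2 l (Ne.symm hjl)
          rw [hLl _ _ l hlj] at h2
          linarith
      by_cases hyw : ⟪v j1, x⟫ ≤ ⟪v l, x⟫
      · -- the top vertex is not the largest vertex
        apply hfin
        refine hB x hx l hlj ?_ hw hwT
        intro m
        by_cases hm : m = j1
        · rw [hm]; exact hyw
        · exact hlm m hm
      · push Not at hyw
        have htopx : ∀ m, ⟪v m, x⟫ ≤ ⟪v j1, x⟫ := by
          intro m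
          by_cases hm : m = j1
          · rw [hm]
          · have := hlm m hm
            linarith
        by_cases hyL : ⟪v j1, x⟫ ≤ r.Lv
        · apply hfin
          exact hC x hx l hlj htopx hw (hw.trans hyw) hyL
        · push Not at hyL
          obtain ⟨h1, _⟩ := hAc hyL htopx
          refine ⟨by linarith, ?_⟩
          intro j hS
          exfalso
          by_cases hjl : j = l
          · have h2 := hS.2.2 j1 (by rw [hjl]; exact Ne.symm hlj)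
            rw [hL1] at h2
            linarith
          · have h2 := hS.2.2 l (Ne.symm hjl)
            rw [hLl _ _ l hlj] at h2
            linarith
  · -- the per vertex inequalities
    intro j
    by_cases hj : j = j1
    · subst hj
      rw [hη1, hcf1, hL1, hL1]
      exact vertex_top g f hq1 hp0 ht0 htL hlam heta htop
    · rw [hηl j hj, hcfl j hj, hLl _ _ j hj, hLl _ _ j hj]
      exact vertex_other g f hcap1 hq1 ht0 htT hlam hk1 hBb hArc hbins j hj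

end Vale.Agent.P226h14
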