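import Vale.Agent.P226h14.Delete3

open MeasureTheory ProbabilityTheory Real Set Filter Topology
open scoped RealInnerProductSpace ENNReal

namespace Vale.Agent.P226h14

/-- one level of a table with two classes of vertices -/
structure Row4 where
  t : ℚ
  Lv : ℚ
  lam : ℚ
  k0 : ℚ
  k0s : ℚ
  k1 : ℚ
  eta1 : ℚ
  Wb : ℚ
  Bb : ℚ
  Ar : ℚ
  cv : ℚ
  Rc : ℚ

/-- the global data of a table for one range of the largest coefficient -/
structure Head4 where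
  N : ℕ
  NS : ℕ
  kap : ℚ
  xt : ℚ
  sg : ℚ
  p : ℚ
  q : ℚ
  cap : ℚ
  τ1 : ℚ
  τ0 : ℚ
  κ : ℚ
  S : ℚ
  Ttop : ℚ
  bins : List ℚ
  ys : List ℚ

/-- the bound for the inverse square norm in a class of vertices -/
def xbf (kap y : ℚ) : ℚ := if kap = 0 then (1 + y) / (1 - y) else (1 + y) ^ 2 / (kap - y ^ 2)

/-- check of one range of coefficients -/
def binOK4 (t T lam k0 k1 Ar Bb kap x y : ℚ) : Bool :=
  decide (k0 - k1 * x ≤ 0) || (decide (y < 1) && decide (0 ≤ x) && decide (y ^ 2 < kap ∨ kap = 0) &&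
    decide ((k0 - k1 * x) ^ 2 ≤ 2 * (T - t) * lam * (Ar - Bb * y) * (1 + x) *
      Eb t T (xbf kap y) (ru6 ((k0 - k1 * x) / (lam * (1 + x))))))

/-- check of all ranges of coefficients -/
def binsOK4 (t T lam k0 k1 Ar Bb cap kap : ℚ) : List ℚ → Bool
  | [] => false
  | [x] => decide (cap ≤ x)
  | x :: y :: l => binOK4 t T lam k0 k1 Ar Bb kap x y && binsOK4 t T lam k0 k1 Ar Bb cap kap (y :: l)

lemma binsOK4_find {t T lam k0 k1 Ar Bb cap kap : ℚ} :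
    ∀ {l : List ℚ} {x : ℚ} {z : ℝ}, binsOK4 t T lam k0 k1 Ar Bb cap kap (x :: l) = true →
      (x : ℝ) < z → z ≤ cap → ∃ x' y' : ℚ, (x' : ℝ) < z ∧ z ≤ y' ∧
        binOK4 t T lam k0 k1 Ar Bb kap x' y' = true := by
  intro l
  induction l with
  | nil =>
    intro x z h h1 h2
    simp only [binsOK4, decide_eq_true_eq] at h
    have : (cap : ℝ) ≤ x := by exact_mod_cast h
    linarith
  | cons y l ih =>
    intro x z h h1 h2
    simp only [binsOK4, Bool.and_eq_true] at h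
    by_cases hzy : z ≤ y
    · exact ⟨x, y, h1, hzy, h.1⟩
    · exact ih h.2 (not_le.1 hzy) h2

/-- the two line bound without the slope in the coefficient -/
def Wval4 (c : Head4) (t yl y ρ : ℚ) : ℚ :=
  (1 + c.S - 2 * c.τ1 + 2 * c.q) * (eUp (y ^ 2 / 2) - eLow (ρ ^ 2 / 2)) -
    2 * (1 + c.q + c.sg) * yl * qdiff y ρ + (1 + c.S - 2 * c.τ0) * eUp (ρ ^ 2 / 2) - 2 * t * qlo ρ

/-- the cut of the two line bound -/
def rhof4 (c : Head4) (t y : ℚ) : ℚ :=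
  ru2 (max y (min 5 (((1 + c.q + c.sg) * y - t) / (c.q - c.τ1 + c.τ0))))

/-- check of one cell of the two line bound -/
def cellOK4 (c : Head4) (t Lv Wb Bb x y : ℚ) : Bool :=
  decide (y ≤ t) || decide (Lv ≤ x) ||
    (decide ((1 + c.S - 2 * c.τ1 + 2 * c.q) * y ≤ 2 * (1 + c.q + c.sg) * max x t) &&
     decide (Wval4 c t (max x t) y (rhof4 c t y) ≤ Wb) &&
     decide (2 * ((1 - c.κ) * eUp (rhof4 c t y ^ 2 / 2) - t * qlo (rhof4 c t y)) ≤ Bb))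

/-- check of all cells -/
def cellsOK4 (c : Head4) (t Lv Wb Bb : ℚ) : List ℚ → Bool
  | [] => false
  | [x] => decide (Lv ≤ x)
  | x :: y :: l => cellOK4 c t Lv Wb Bb x y && cellsOK4 c t Lv Wb Bb (y :: l)

lemma cellsOK4_find {c : Head4} {t Lv Wb Bb : ℚ} :
    ∀ {l : List ℚ} {x : ℚ} {z : ℝ}, cellsOK4 c t Lv Wb Bb (x :: l) = true →
      (x : ℝ) < z → z ≤ Lv → ∃ x' y' : ℚ, (x' : ℝ) < z ∧ z ≤ y' ∧
        cellOK4 c t Lv Wb Bb x' y' = true := by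
  intro l
  induction l with
  | nil =>
    intro x z h h1 h2
    simp only [cellsOK4, decide_eq_true_eq] at h
    have : (Lv : ℝ) ≤ x := by exact_mod_cast h
    linarith
  | cons y l ih =>
    intro x z h h1 h2
    simp only [cellsOK4, Bool.and_eq_true] at h
    by_cases hzy : z ≤ y
    · exact ⟨x, y, h1, hzy, h.1⟩
    · exact ih h.2 (not_le.1 hzy) h2

/-- the constant of the other vertices -/
def Arg4 (c : Head4) (T R' : ℚ) (r : Row4) : ℚ :=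
  -(max (Abg r.t T (1 + c.S - 2 * c.τ0)) r.Wb + R')

/-- the constant of the largest vertex -/
def cvg4 (c : Head4) (LT R' : ℚ) (r : Row4) : ℚ :=
  -(Abg r.Lv LT (1 + c.S - 2 * c.τ1) + c.q * Bbg r.Lv + R') + 2 * c.sg * r.Lv * qlo LT

/-- the decrement of one level -/
def Dv4 (c : Head4) (r : Row4) : ℚ :=
  r.eta1 + ((c.N : ℚ) - 1 - (c.NS : ℚ)) * r.k0 + (c.NS : ℚ) * r.k0s - r.k1 * (1 - c.p) -
    r.lam * (r.t * ((c.N : ℚ) + 1) + (1 + c.q) * (r.Lv - r.t))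

/-- check of the largest vertex in one level -/
def topOK4 (c : Head4) (LT : ℚ) (r : Row4) : Bool :=
  (decide (r.Lv = LT) && decide (r.eta1 = 0)) ||
  (decide (r.Lv < LT) && decide (0 ≤ Bbg r.Lv) && decide (0 ≤ r.cv) &&
    (decide (r.eta1 = 0) || (decide (0 < c.xt) &&
      decide (r.eta1 ^ 2 ≤ 2 * (LT - r.Lv) * r.lam * r.cv * (1 + c.p) *
        Eb r.Lv LT c.xt (ru6 (r.eta1 / (r.lam * (1 + c.p))))))))

/-- check of one level -/
def rowOK4 (c : Head4) (T LT R' : ℚ) (r : Row4) : Bool :=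
  decide (0 < r.t) && decide (r.t ≤ r.Lv) && decide (r.t < T) && decide (r.Lv ≤ LT) &&
  decide (0 < r.lam) && decide (0 ≤ r.k1) && decide (0 ≤ r.eta1) && decide (0 ≤ r.Bb) &&
  decide (2 * (eUp (r.t ^ 2 / 2) - r.t * qlo r.t - c.κ * eLow (T ^ 2 / 2)) ≤ r.Bb) &&
  decide (r.Ar ≤ Arg4 c T R' r) && decide (r.cv ≤ cvg4 c LT R' r) &&
  decide (0 ≤ r.Ar - c.cap * r.Bb) &&
  topOK4 c LT r &&
  binsOK4 r.t T r.lam r.k0 r.k1 r.Ar r.Bb c.cap c.kap (0 :: c.bins) &&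
  (decide (c.NS = 0) || binsOK4 r.t T r.lam r.k0s r.k1 r.Ar r.Bb c.cap 0 (0 :: c.bins)) &&
  cellsOK4 c r.t r.Lv r.Wb r.Bb (0 :: c.ys) &&
  decide (R' - Dv4 c r ≤ r.Rc)

/-- the largest constant of the base bound -/
def lowg4 (c : Head4) : ℚ :=
  1 + c.S + 2 * max ((1 - c.τ1 - ((c.N : ℚ) - 1) * c.τ0 - c.κ * (1 - c.q)) / (c.N : ℚ))
    (((1 - c.κ) * (1 - c.p) - ((c.N : ℚ) - 1) * c.τ0) / ((c.N : ℚ) - 1))

/-- the state of the chain -/
structure St4 where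
  T : ℚ
  LT : ℚ
  R : ℚ

/-- check of a segment of levels -/
def segOK4 (c : Head4) : St4 → List Row4 → St4 → Bool
  | s, [], e => decide (s.T = e.T) && decide (s.LT = e.LT) && decide (s.R = e.R)
  | s, r :: rs, e => rowOK4 c s.T s.LT s.R r && segOK4 c ⟨r.t, r.Lv, r.Rc⟩ rs e

/-- the global checks of a table -/
def headOK4 (c : Head4) : Bool :=
  decide (0 ≤ c.p) && decide (c.q ≤ 1) && decide (0 ≤ c.cap) && decide (c.cap < 1) &&
  decide (0 ≤ c.κ) && decide (c.κ ≤ 1) && decide (0 < c.Ttop) && decide (1 < c.N) &&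
  decide (0 ≤ c.sg) && decide (c.NS + 1 ≤ c.N) &&
  decide (0 ≤ 1 + c.S - 2 * c.τ1) && decide (1 + c.S - 2 * c.τ1 < 2) &&
  decide (0 ≤ 1 + c.S - 2 * c.τ0) && decide (1 + c.S - 2 * c.τ0 < 2) &&
  decide (1 + c.S - 2 * c.τ1 + 2 * c.q ≤ (2 - (1 + c.S - 2 * c.τ1)) * c.Ttop ^ 2) &&
  decide (1 + c.S - 2 * c.τ0 + 2 * (1 - c.κ) * c.cap ≤ (2 - (1 + c.S - 2 * c.τ0)) * c.Ttop ^ 2) &&
  decide (0 ≤ lowg4 c)

variable {E : Type*} [NormedAddCommGroup E] [InnerProductSpace ℝ E] [FiniteDimensional ℝ E]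
  [MeasurableSpace E] [BorelSpace E]

variable {ι : Type*} [Fintype ι]

/-- the geometric data with a scale shift -/
structure Geo4 (v : ι → E) (a τ b : ι → ℝ) (n : E) (M : E → ℝ) : Prop where
  hn : ‖n‖ = 1
  horth : ∀ j, ⟪v j, n⟫ = 0
  ha : ∀ j, 0 < a j
  hsum : ∑ j, a j = 1
  hneg : ∀ j l, j ≠ l → ⟪v j, v l⟫ ≤ 0
  hbal : ∑ j, (1 + a j) • v j = 0
  hvar : ∀ j, 1 - a j ≤ (1 + a j) * ‖v j‖ ^ 2
  hMint : Integrable M (stdGaussian E)
  hb : ∀ j, 0 ≤ b j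
  hM : ∀ x j, (1 + (a j + b j)) * ⟪v j, x⟫ - ((a j + b j) - (τ j + b j)) * ⟪n, x⟫ ≤ M x

/-- the fit of a table to the geometric input -/
structure Fit4 [DecidableEq ι] (c : Head4) (v : ι → E) (a τ b : ι → ℝ) (j1 : ι) (Sm : Finset ι) :
    Prop where
  hp : (c.p : ℝ) ≤ a j1
  hq : a j1 < c.q
  hτ1 : τ j1 = c.τ1
  hτr : ∀ l, l ≠ j1 → τ l = c.τ0 + c.κ * a l
  hcap : ∀ l, l ≠ j1 → a l ≤ c.cap
  hN : Fintype.card ι = c.N
  hb0 : ∀ l, l ≠ j1 → b l = 0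
  hsg : (c.sg : ℝ) ≤ b j1
  hxt : 0 < c.xt → (‖v j1‖ ^ 2)⁻¹ ≤ c.xt
  hj1 : j1 ∉ Sm
  hSm : Sm.card = c.NS
  hbig : ∀ l, l ≠ j1 → l ∉ Sm → (c.kap : ℝ) - a l ^ 2 ≤ (1 + a l) ^ 2 * ‖v l‖ ^ 2
  hkap : (0 : ℝ) < c.kap ∨ c.kap = 0

/-- the bound function with a larger slope -/
lemma gb_add (β al b u : ℝ) : gb β (al + b) u = gb β al u - 2 * b * u * Qt u := by
  simp only [gb]
  ring

lemma band_A4 [Nonempty ι] [DecidableEq ι] {v : ι → E} {a τ b : ι → ℝ} {n : E} {M : E → ℝ}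
    {j1 : ι} {Sm : Finset ι} (g : Geo4 v a τ b n M) {c : Head4} (f : Fit4 c v a τ b j1 Sm)
    {LT R' : ℚ} {r : Row4}
    (hc0 : 0 ≤ 1 + c.S - 2 * c.τ1) (hc1 : 1 + c.S - 2 * c.τ1 < 2) (hL0 : 0 < r.Lv)
    (hsg0 : 0 ≤ c.sg)
    (hcv : r.cv ≤ cvg4 c LT R' r) (hBbL : r.Lv < LT → 0 ≤ Bbg r.Lv)
    (x : E) (hx : Integrable (fun s => cellG v n M c.S (slice n (x, s))) (gaussianReal 0 1))
    (htopx : ∀ m, ⟪v m, x⟫ ≤ ⟪v j1, x⟫) (h1 : (r.Lv : ℝ) < ⟪v j1, x⟫) (h2 : ⟪v j1, x⟫ ≤ LT) :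
    Gf v n M c.S x + R' ≤ - (r.cv : ℝ) ∧ r.Lv < LT := by
  have hLT : r.Lv < LT := by
    have : (r.Lv : ℝ) < LT := h1.trans_le h2
    exact_mod_cast this
  refine ⟨?_, hLT⟩
  have hG : Gf v n M c.S x ≤ gb (1 + (c.S : ℝ) + 2 * (a j1 + b j1) - 2 * (τ j1 + b j1))
      (1 + (a j1 + b j1)) ⟪v j1, x⟫ :=
    inner_bound2 v (fun j => a j + b j) (fun j => τ j + b j) n M c.S g.hn g.horth g.hM
      x j1 htopx hx
  have hL0' : (0 : ℝ) < r.Lv := by exact_mod_cast hL0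
  have hu0 : 0 < ⟪v j1, x⟫ := hL0'.trans h1
  have e0 : gb (1 + (c.S : ℝ) + 2 * (a j1 + b j1) - 2 * (τ j1 + b j1)) (1 + (a j1 + b j1)) ⟪v j1, x⟫ =
      gb (1 + (c.S : ℝ) + 2 * a j1 - 2 * τ j1) (1 + a j1) ⟪v j1, x⟫ -
        2 * b j1 * ⟪v j1, x⟫ * Qt ⟪v j1, x⟫ := by
    rw [← gb_add]
    congr 1
    · ring
    · ring
  rw [e0, gb_decomp, f.hτ1] at hG
  have hcvv : (r.cv : ℝ) ≤ -(((Abg r.Lv LT (1 + c.S - 2 * c.τ1) : ℚ) : ℝ) +
      c.q * ((Bbg r.Lv : ℚ) : ℝ) + R') + 2 * c.sg * r.Lv * ((qlo LT : ℚ) : ℝ) := by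
    have := (Rat.cast_le (K := ℝ)).2 hcv
    simp only [cvg4] at this
    push_cast at this
    exact this
  have hP := Bbf_spec (t := r.Lv) (qt := qlo r.Lv) hL0.le h1.le qlo_le
  have hAc := Abf_spec (t := r.Lv) (T := LT) (qt := qlo r.Lv) (qT := qlo LT)
    (cc := 1 + c.S - 2 * c.τ1) hL0.le h1.le h2 qlo_le qlo_le hc0 hc1
  have e1 : ((1 + c.S - 2 * c.τ1 : ℚ) : ℝ) = 1 + (c.S : ℝ) - 2 * c.τ1 := by push_cast; ring
  rw [e1] at hAc
  have hBbL' : (0 : ℝ) ≤ ((Bbg r.Lv : ℚ) : ℝ) := by exact_mod_cast hBbL hLT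
  have h3 : 2 * a j1 * Psi ⟪v j1, x⟫ ≤ c.q * ((Bbg r.Lv : ℚ) : ℝ) := by
    have h4 : a j1 * (2 * Psi ⟪v j1, x⟫) ≤ a j1 * ((Bbg r.Lv : ℚ) : ℝ) :=
      mul_le_mul_of_nonneg_left hP (g.ha j1).le
    have h5 := mul_le_mul_of_nonneg_right f.hq.le hBbL'
    linarith
  have hAb : ((Abg r.Lv LT (1 + c.S - 2 * c.τ1) : ℚ) : ℝ) =
      ((Abf r.Lv LT (qlo r.Lv) (qlo LT) (1 + c.S - 2 * c.τ1) : ℚ) : ℝ) := rfl
  rw [hAb] at hcvv
  -- the gain of the scale shift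
  have hsg0' : (0 : ℝ) ≤ c.sg := by exact_mod_cast hsg0
  have hq1 : ((qlo LT : ℚ) : ℝ) ≤ Qt ⟪v j1, x⟫ := by
    have h5 : ((qlo LT : ℚ) : ℝ) ≤ Qt LT := qlo_le
    exact h5.trans (Qt_anti h2)
  have hq0 : (0 : ℝ) ≤ Qt ⟪v j1, x⟫ := Qt_nonneg _
  have hgain : 2 * (c.sg : ℝ) * r.Lv * ((qlo LT : ℚ) : ℝ) ≤
      2 * b j1 * ⟪v j1, x⟫ * Qt ⟪v j1, x⟫ := by
    have h6 : (c.sg : ℝ) * r.Lv ≤ b j1 * ⟪v j1, x⟫ :=
      mul_le_mul f.hsg h1.le hL0'.le (hsg0'.trans f.hsg)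
    have h7 : (c.sg : ℝ) * r.Lv * ((qlo LT : ℚ) : ℝ) ≤ b j1 * ⟪v j1, x⟫ * Qt ⟪v j1, x⟫ := by
      by_cases hq : (0 : ℝ) ≤ ((qlo LT : ℚ) : ℝ)
      · exact mul_le_mul h6 hq1 hq (mul_nonneg (hsg0'.trans f.hsg) hu0.le)
      · push Not at hq
        have h8 : (c.sg : ℝ) * r.Lv * ((qlo LT : ℚ) : ℝ) ≤ 0 :=
          mul_nonpos_of_nonneg_of_nonpos (mul_nonneg hsg0' hL0'.le) hq.le
        have h9 : 0 ≤ b j1 * ⟪v j1, x⟫ * Qt ⟪v j1, x⟫ :=
          mul_nonneg (mul_nonneg (hsg0'.trans f.hsg) hu0.le) hq0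
        linarith
    linarith
  linarith

lemma band_B4 [Nonempty ι] [DecidableEq ι] {v : ι → E} {a τ b : ι → ℝ} {n : E} {M : E → ℝ}
    {j1 : ι} {Sm : Finset ι} (g : Geo4 v a τ b n M) {c : Head4} (f : Fit4 c v a τ b j1 Sm)
    {T R' : ℚ} {r : Row4}
    (hd0 : 0 ≤ 1 + c.S - 2 * c.τ0) (hd1 : 1 + c.S - 2 * c.τ0 < 2) (ht0 : 0 < r.t)
    (hκ0 : 0 ≤ c.κ) (hAr : r.Ar ≤ Arg4 c T R' r)
    (hBbS : 2 * (eUp (r.t ^ 2 / 2) - r.t * qlo r.t - c.κ * eLow (T ^ 2 / 2)) ≤ r.Bb)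
    (x : E) (hx : Integrable (fun s => cellG v n M c.S (slice n (x, s))) (gaussianReal 0 1))
    (l : ι) (hl : l ≠ j1) (htopx : ∀ m, ⟪v m, x⟫ ≤ ⟪v l, x⟫) (h1 : (r.t : ℝ) < ⟪v l, x⟫)
    (h2 : ⟪v l, x⟫ ≤ T) :
    Gf v n M c.S x + R' ≤ - ((r.Ar : ℝ) - r.Bb * a l) := by
  have ht0' : (0 : ℝ) < r.t := by exact_mod_cast ht0
  have hκ0' : (0 : ℝ) ≤ c.κ := by exact_mod_cast hκ0
  have hqt : ((qlo r.t : ℚ) : ℝ) ≤ Qt r.t := qlo_le
  have hG : Gf v n M c.S x ≤ gb (1 + (c.S : ℝ) + 2 * (a l + b l) - 2 * (τ l + b l))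
      (1 + (a l + b l)) ⟪v l, x⟫ :=
    inner_bound2 v (fun j => a j + b j) (fun j => τ j + b j) n M c.S g.hn g.horth g.hM
      x l htopx hx
  rw [f.hb0 l hl, add_zero, add_zero, f.hτr l hl, gb_decomp3] at hG
  have hAc := Abf_spec (t := r.t) (T := T) (qt := qlo r.t) (qT := qlo T)
    (cc := 1 + c.S - 2 * c.τ0) ht0.le h1.le h2 hqt qlo_le hd0 hd1
  have e1 : ((1 + c.S - 2 * c.τ0 : ℚ) : ℝ) = 1 + (c.S : ℝ) - 2 * c.τ0 := by push_cast; ring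
  rw [e1] at hAc
  have hu0 : 0 ≤ ⟪v l, x⟫ := ht0'.le.trans h1.le
  have hP := Psi_anti h1.le
  have hPt : Psi r.t ≤ ((eUp (r.t ^ 2 / 2) : ℚ) : ℝ) - r.t * ((qlo r.t : ℚ) : ℝ) := by
    have h3 := exp_le_eUp (t := r.t) (u := r.t) ht0.le le_rfl
    have h4 := mul_le_mul_of_nonneg_left hqt ht0'.le
    simp only [Psi]
    linarith
  have he := eLow_le_exp (T := T) hu0 h2
  have hS : 2 * (Psi ⟪v l, x⟫ - c.κ * Real.exp (-⟪v l, x⟫ ^ 2 / 2)) ≤ r.Bb := by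
    have h5 : (2 * ((eUp (r.t ^ 2 / 2) : ℚ) - r.t * (qlo r.t : ℚ) -
        c.κ * (eLow ((T : ℚ) ^ 2 / 2) : ℚ)) : ℝ) ≤ r.Bb := by
      exact_mod_cast hBbS
    have h6 := mul_le_mul_of_nonneg_left he hκ0'
    linarith
  have h7 := mul_le_mul_of_nonneg_left hS (g.ha l).le
  have hArv : (r.Ar : ℝ) ≤ -(max ((Abg r.t T (1 + c.S - 2 * c.τ0) : ℚ) : ℝ) (r.Wb : ℝ) + R') := by
    have := (Rat.cast_le (K := ℝ)).2 hAr
    simp only [Arg4] at this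
    push_cast at this
    exact this
  have hmax : ((Abg r.t T (1 + c.S - 2 * c.τ0) : ℚ) : ℝ) ≤
      max ((Abg r.t T (1 + c.S - 2 * c.τ0) : ℚ) : ℝ) (r.Wb : ℝ) := le_max_left _ _
  have hAb : ((Abg r.t T (1 + c.S - 2 * c.τ0) : ℚ) : ℝ) =
      ((Abf r.t T (qlo r.t) (qlo T) (1 + c.S - 2 * c.τ0) : ℚ) : ℝ) := rfl
  rw [hAb] at hmax hArv
  nlinarith

/-- the numerical form of the two line bound -/
lemma two_num4 {c : Head4} {t yl y' ρ Wb Bb : ℚ} {al bb GG : ℝ} (ht0 : 0 < t) (hyl0 : (0 : ℝ) ≤ yl)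
    (hy0 : 0 ≤ y') (hyρ : y' ≤ ρ) (hq0 : (0 : ℝ) < c.q) (hsg : (c.sg : ℝ) ≤ bb) (hsg0 : (0 : ℝ) ≤ c.sg)
    (hc0 : (0 : ℝ) ≤ 1 + c.S - 2 * c.τ1) (hd0 : (0 : ℝ) ≤ 1 + c.S - 2 * c.τ0)
    (hκ1 : (c.κ : ℝ) ≤ 1) (hal : 0 < al)
    (hG : GG ≤ (1 + (c.S : ℝ) - 2 * c.τ1 + 2 * c.q) * (Real.exp (-(y' : ℝ) ^ 2 / 2) -
        Real.exp (-(ρ : ℝ) ^ 2 / 2)) - 2 * (1 + (c.q + bb)) * yl * (Qt y' - Qt ρ) +
        (1 + (c.S : ℝ) + 2 * (al - ((c.τ0 : ℝ) + c.κ * al))) * Real.exp (-(ρ : ℝ) ^ 2 / 2) -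
        2 * (1 + al) * t * Qt ρ)
    (hW : Wval4 c t yl y' ρ ≤ Wb)
    (hSl : 2 * ((1 - c.κ) * eUp (ρ ^ 2 / 2) - t * qlo ρ) ≤ Bb) :
    GG ≤ Wb + Bb * al := by
  have ht0' : (0 : ℝ) < t := by exact_mod_cast ht0
  have hρ0 : 0 ≤ ρ := hy0.trans hyρ
  have hρ0' : (0 : ℝ) ≤ ρ := by exact_mod_cast hρ0
  have hb0 : (0 : ℝ) ≤ 1 + c.S - 2 * c.τ1 + 2 * c.q := by linarith
  have he1 := exp_le_eUp (t := y') (u := y') hy0 le_rfl
  have he2 := exp_le_eUp (t := ρ) (u := ρ) hρ0 le_rfl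
  have he3 := eLow_le_exp (T := ρ) (u := ρ) hρ0' le_rfl
  have hq2 : ((qdiff y' ρ : ℚ) : ℝ) ≤ Qt y' - Qt ρ := qdiff_le hρ0 hyρ
  have hq3 : ((qlo ρ : ℚ) : ℝ) ≤ Qt ρ := qlo_le
  have hWv : (((Wval4 c t yl y' ρ : ℚ) : ℝ)) ≤ Wb := by exact_mod_cast hW
  have hSv : (2 * ((1 - (c.κ : ℝ)) * ((eUp (ρ ^ 2 / 2) : ℚ) : ℝ) - t * ((qlo ρ : ℚ) : ℝ))) ≤ Bb := by
    have h0 := (Rat.cast_le (K := ℝ)).2 hSl
    push_cast at h0 ⊢
    exact h0
  simp only [Wval4] at hWv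
  push_cast at hWv
  have h10 : (1 + (c.S : ℝ) - 2 * c.τ1 + 2 * c.q) * (Real.exp (-(y' : ℝ) ^ 2 / 2) -
      Real.exp (-(ρ : ℝ) ^ 2 / 2)) ≤ (1 + (c.S : ℝ) - 2 * c.τ1 + 2 * c.q) *
      (((eUp ((y' : ℚ) ^ 2 / 2) : ℚ) : ℝ) - ((eLow ((ρ : ℚ) ^ 2 / 2) : ℚ) : ℝ)) :=
    mul_le_mul_of_nonneg_left (by linarith) hb0
  have hd_pos : (0 : ℝ) ≤ Qt y' - Qt ρ := by
    have : Qt ρ ≤ Qt y' := Qt_anti (by exact_mod_cast hyρ)
    linarith
  have h11 : 2 * (1 + (c.q : ℝ) + c.sg) * yl * ((qdiff y' ρ : ℚ) : ℝ) ≤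
      2 * (1 + ((c.q : ℝ) + bb)) * yl * (Qt y' - Qt ρ) := by
    have h1 : 2 * (1 + (c.q : ℝ) + c.sg) * yl * ((qdiff y' ρ : ℚ) : ℝ) ≤
        2 * (1 + (c.q : ℝ) + c.sg) * yl * (Qt y' - Qt ρ) :=
      mul_le_mul_of_nonneg_left hq2 (by positivity)
    have h2 : 2 * (1 + (c.q : ℝ) + c.sg) * yl * (Qt y' - Qt ρ) ≤
        2 * (1 + ((c.q : ℝ) + bb)) * yl * (Qt y' - Qt ρ) := by
      apply mul_le_mul_of_nonneg_right _ hd_pos
      apply mul_le_mul_of_nonneg_right _ hyl0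
      linarith
    exact h1.trans h2
  have h12 : (1 + (c.S : ℝ) - 2 * c.τ0) * Real.exp (-(ρ : ℝ) ^ 2 / 2) ≤
      (1 + (c.S : ℝ) - 2 * c.τ0) * ((eUp ((ρ : ℚ) ^ 2 / 2) : ℚ) : ℝ) :=
    mul_le_mul_of_nonneg_left he2 hd0
  have h13 : 2 * (t : ℝ) * ((qlo ρ : ℚ) : ℝ) ≤ 2 * (t : ℝ) * Qt ρ :=
    mul_le_mul_of_nonneg_left hq3 (by positivity)
  have h14 : 2 * ((1 - (c.κ : ℝ)) * Real.exp (-(ρ : ℝ) ^ 2 / 2) - t * Qt ρ) ≤ Bb := by
    have h15 : (1 - (c.κ : ℝ)) * Real.exp (-(ρ : ℝ) ^ 2 / 2) ≤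
        (1 - (c.κ : ℝ)) * ((eUp ((ρ : ℚ) ^ 2 / 2) : ℚ) : ℝ) :=
      mul_le_mul_of_nonneg_left he2 (by linarith)
    have h16 : (t : ℝ) * ((qlo ρ : ℚ) : ℝ) ≤ (t : ℝ) * Qt ρ :=
      mul_le_mul_of_nonneg_left hq3 ht0'.le
    linarith
  have h17 := mul_le_mul_of_nonneg_left h14 hal.le
  have e5 : (1 + (c.S : ℝ) + 2 * (al - ((c.τ0 : ℝ) + c.κ * al))) * Real.exp (-(ρ : ℝ) ^ 2 / 2) -
      2 * (1 + al) * t * Qt ρ = (1 + (c.S : ℝ) - 2 * c.τ0) * Real.exp (-(ρ : ℝ) ^ 2 / 2) -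
      2 * t * Qt ρ + al * (2 * ((1 - (c.κ : ℝ)) * Real.exp (-(ρ : ℝ) ^ 2 / 2) - t * Qt ρ)) := by
    ring
  have hWv' : (1 + (c.S : ℝ) - 2 * c.τ1 + 2 * c.q) *
      (((eUp ((y' : ℚ) ^ 2 / 2) : ℚ) : ℝ) - ((eLow ((ρ : ℚ) ^ 2 / 2) : ℚ) : ℝ)) -
      2 * (1 + (c.q : ℝ) + c.sg) * yl * ((qdiff y' ρ : ℚ) : ℝ) +
      (1 + (c.S : ℝ) - 2 * c.τ0) * ((eUp ((ρ : ℚ) ^ 2 / 2) : ℚ) : ℝ) -
      2 * (t : ℝ) * ((qlo ρ : ℚ) : ℝ) ≤ Wb := by
    refine le_trans (le_of_eq ?_) hWv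
    push_cast
    ring
  linarith

lemma band_C4 [Nonempty ι] [DecidableEq ι] {v : ι → E} {a τ b : ι → ℝ} {n : E} {M : E → ℝ}
    {j1 : ι} {Sm : Finset ι} (g : Geo4 v a τ b n M) {c : Head4} (f : Fit4 c v a τ b j1 Sm)
    {T R' : ℚ} {r : Row4}
    (hc0 : (0 : ℝ) ≤ 1 + c.S - 2 * c.τ1) (hd0 : (0 : ℝ) ≤ 1 + c.S - 2 * c.τ0)
    (hκ1 : (c.κ : ℝ) ≤ 1) (ht0 : 0 < r.t) (hsg0 : (0 : ℝ) ≤ c.sg) (hAr : r.Ar ≤ Arg4 c T R' r)
    (hcells : cellsOK4 c r.t r.Lv r.Wb r.Bb (0 :: c.ys) = true)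
    (x : E) (hx : Integrable (fun s => cellG v n M c.S (slice n (x, s))) (gaussianReal 0 1))
    (l : ι) (hl : l ≠ j1) (htopx : ∀ m, ⟪v m, x⟫ ≤ ⟪v j1, x⟫) (h1 : (r.t : ℝ) < ⟪v l, x⟫)
    (h1' : (r.t : ℝ) < ⟪v j1, x⟫) (h2 : ⟪v j1, x⟫ ≤ r.Lv) :
    Gf v n M c.S x + R' ≤ - ((r.Ar : ℝ) - r.Bb * a l) := by
  have ht0' : (0 : ℝ) < r.t := by exact_mod_cast ht0
  have hz0 : ((0 : ℚ) : ℝ) < ⟪v j1, x⟫ := by
    have : (0 : ℝ) < ⟪v j1, x⟫ := ht0'.trans h1'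
    simpa using this
  have hq0 : (0 : ℝ) < c.q := (g.ha j1).trans f.hq
  obtain ⟨x', y', hx', hy', hcell⟩ := cellsOK4_find hcells hz0 h2
  simp only [cellOK4, Bool.or_eq_true, Bool.and_eq_true, decide_eq_true_eq] at hcell
  have hnot1 : ¬ y' ≤ r.t := by
    intro h
    have : (y' : ℝ) ≤ r.t := by exact_mod_cast h
    linarith
  have hnot2 : ¬ r.Lv ≤ x' := by
    intro h
    have : (r.Lv : ℝ) ≤ x' := by exact_mod_cast h
    linarith
  rcases hcell with (h | h) | ⟨⟨hd, hW⟩, hSl⟩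
  · exact absurd h hnot1
  · exact absurd h hnot2
  set ρ : ℚ := rhof4 c r.t y' with hρdef
  set yl : ℚ := max x' r.t with hyl
  have hyl' : (yl : ℝ) ≤ ⟪v j1, x⟫ := by
    have : ((max x' r.t : ℚ) : ℝ) = max (x' : ℝ) (r.t : ℝ) := by push_cast; rfl
    rw [hyl, this]
    exact max_le hx'.le h1'.le
  have hyl0 : (0 : ℝ) ≤ yl := by
    have : (r.t : ℝ) ≤ yl := by
      have h5 : r.t ≤ yl := le_max_right _ _
      exact_mod_cast h5
    linarith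
  have hy0 : 0 ≤ y' := by
    have : (0 : ℝ) ≤ y' := (ht0'.trans h1').le.trans hy'
    exact_mod_cast this
  have hyρ : y' ≤ ρ := (le_max_left _ _).trans (le_ru2 _)
  have hyρ' : (y' : ℝ) ≤ ρ := by exact_mod_cast hyρ
  have hb1 := f.hsg
  have hb1' : 0 ≤ b j1 := g.hb j1
  have hq1a : (0 : ℝ) ≤ 1 + ((c.q : ℝ) + b j1) := by linarith
  have hb0 : (0 : ℝ) ≤ 1 + c.S - 2 * c.τ1 + 2 * c.q := by linarith
  have hal0 : (0 : ℝ) ≤ 1 + (a l + b l) := by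
    rw [f.hb0 l hl]
    linarith [g.ha l]
  have hd' : (1 + (c.S : ℝ) - 2 * (τ j1 + b j1) + 2 * ((c.q : ℝ) + b j1)) * y' ≤
      2 * (1 + ((c.q : ℝ) + b j1)) * yl := by
    rw [f.hτ1]
    have h5 : (1 + (c.S : ℝ) - 2 * c.τ1 + 2 * c.q) * y' ≤ 2 * (1 + (c.q : ℝ) + c.sg) * yl := by
      have h6 := (Rat.cast_le (K := ℝ)).2 hd
      push_cast at h6
      have e : ((max (x' : ℚ) (r.t : ℚ) : ℚ) : ℝ) = ((yl : ℚ) : ℝ) := rfl
      simpa [e] using h6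
    have h7 : 2 * (1 + (c.q : ℝ) + c.sg) * yl ≤ 2 * (1 + ((c.q : ℝ) + b j1)) * yl := by
      apply mul_le_mul_of_nonneg_right _ hyl0
      linarith
    nlinarith
  have hG := inner_two v (fun j => a j + b j) (fun j => τ j + b j) n M c.S g.hn g.horth g.hM
    x j1 l htopx hx (q := (c.q : ℝ) + b j1) (t := r.t)
    (yl := yl) (y2 := y') (ρ := ρ) (by linarith [f.hq]) hq1a hyl' hy' hyρ' h1.le hal0
    (by rw [f.hτ1]; linarith) hd'
  simp only [f.hb0 l hl, add_zero] at hG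
  rw [f.hτ1, f.hτr l hl] at hG
  have e9 : 1 + (c.S : ℝ) - 2 * ((c.τ1 : ℝ) + b j1) + 2 * ((c.q : ℝ) + b j1) =
      1 + (c.S : ℝ) - 2 * c.τ1 + 2 * c.q := by ring
  rw [e9] at hG
  have hnum := two_num4 (al := a l) (bb := b j1) ht0 hyl0 hy0 hyρ hq0 hb1 hsg0 hc0 hd0 hκ1 (g.ha l)
    hG hW hSl
  have hArv : (r.Ar : ℝ) ≤ -(max ((Abg r.t T (1 + c.S - 2 * c.τ0) : ℚ) : ℝ) (r.Wb : ℝ) + R') := by
    have := (Rat.cast_le (K := ℝ)).2 hAr
    simp only [Arg4] at this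
    push_cast at this
    exact this
  have hmax : (r.Wb : ℝ) ≤ max ((Abg r.t T (1 + c.S - 2 * c.τ0) : ℚ) : ℝ) (r.Wb : ℝ) :=
    le_max_right _ _
  linarith

/-- the per vertex inequality of the largest vertex -/
lemma vertex_top4 [Nonempty ι] [DecidableEq ι] {v : ι → E} {a τ b : ι → ℝ} {n : E} {M : E → ℝ}
    {j : ι} {Sm : Finset ι} (g : Geo4 v a τ b n M) {c : Head4} (f : Fit4 c v a τ b j Sm) {LT : ℚ}
    {r : Row4} (hq1 : c.q ≤ 1) (hp0 : 0 ≤ c.p) (ht0 : 0 < r.t) (htL : r.t ≤ r.Lv) (hlam : 0 < r.lam)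
    (heta : 0 ≤ r.eta1) (htop : topOK4 c LT r = true) {t' : ℝ} :
    ∫ y in {x | ∀ m, ⟪v m, x⟫ ≤ lev j t' (r.Lv : ℝ) m},
      ((r.eta1 : ℝ) - r.lam * (1 + a j) * ((r.Lv : ℝ) - ⟪v j, y⟫)) ∂(stdGaussian E) ≤
    (if r.Lv < LT then (r.cv : ℝ) else 0) * (stdGaussian E).real
      {x | (r.Lv : ℝ) < ⟪v j, x⟫ ∧ ⟪v j, x⟫ ≤ LT ∧ ∀ m, m ≠ j → ⟪v m, x⟫ ≤ lev j t' (r.Lv : ℝ) m} := by
  simp only [topOK4, Bool.or_eq_true, Bool.and_eq_true, decide_eq_true_eq] at htop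
  have hlam' : (0 : ℝ) < r.lam := by exact_mod_cast hlam
  have heta' : (0 : ℝ) ≤ r.eta1 := by exact_mod_cast heta
  have hp0' : (0 : ℝ) ≤ c.p := by exact_mod_cast hp0
  have hq1' : (c.q : ℝ) ≤ 1 := by exact_mod_cast hq1
  have hq0 : (0 : ℝ) < c.q := (g.ha j).trans f.hq
  have hlt1 : a j < 1 := f.hq.trans_le hq1'
  have hL0 : 0 < r.Lv := ht0.trans_le htL
  have hLv0 : (0 : ℝ) < r.Lv := by exact_mod_cast hL0
  have hneg : ∀ l, l ≠ j → ⟪v l, v j⟫ ≤ 0 := fun l hl => g.hneg l j hl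
  obtain ⟨hvj, -⟩ := norm_facts (g.ha j) hlt1 (g.hvar j)
  have hal0 : 0 < 1 + a j := by linarith [g.ha j]
  have hL1 : lev j t' (r.Lv : ℝ) j = r.Lv := by simp [lev]
  rcases htop with ⟨h1, h2⟩ | ⟨⟨⟨h1, _⟩, hcv⟩, h3⟩
  · -- no band in this level
    rw [if_neg (by rw [h1]; exact lt_irrefl _), zero_mul, h2]
    apply setIntegral_nonpos (measurableSet_KL v _)
    intro x hx
    have h5 := hx j
    rw [hL1] at h5
    have h6 : 0 ≤ (r.lam : ℝ) * (1 + a j) * ((r.Lv : ℝ) - ⟪v j, x⟫) :=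
      mul_nonneg (by positivity) (by linarith)
    push_cast
    linarith
  · rw [if_pos h1]
    have hLT' : (r.Lv : ℝ) < LT := by exact_mod_cast h1
    have hcv1 : (0 : ℝ) ≤ r.cv := by exact_mod_cast hcv
    rcases h3 with h0 | ⟨hq, hle⟩
    · rw [h0]
      push_cast
      apply lemmaLv v j (lev j t' (r.Lv : ℝ)) hneg hvj hL1 (l := 0) (θ := 0) (Y := 0)
        (xbar := (‖v j‖ ^ 2)⁻¹) (mlow := 0) (e := 0) hLv0 hLT' hal0 hlam' hcv1 le_rfl le_rfl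
      intro h
      exact absurd h (lt_irrefl _)
    · have hxb : 0 ≤ c.xt := hq.le
      have hp1 : 0 < 1 + c.p := by linarith
      have hm0 : 0 ≤ ru6 (r.eta1 / (r.lam * (1 + c.p))) :=
        le_trans (by positivity) (le_ru6 _)
      apply vertexLv v j (lev j t' (r.Lv : ℝ)) hneg hvj hL1 hL0 h1 hxb hm0 hal0 hlam' hcv1
      · exact f.hxt hq
      · intro hη
        have hp' : (1 : ℝ) + c.p ≤ 1 + a j := by linarith [f.hp]
        have hp1' : (0 : ℝ) < 1 + c.p := by linarith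
        constructor
        · have hr : ((r.eta1 / (r.lam * (1 + c.p)) : ℚ) : ℝ) ≤
              ((ru6 (r.eta1 / (r.lam * (1 + c.p))) : ℚ) : ℝ) := by
            exact_mod_cast le_ru6 _
          refine le_trans ?_ hr
          push_cast
          exact div_le_div_of_nonneg_left heta' (by positivity) (by
            exact mul_le_mul_of_nonneg_left hp' hlam'.le)
        · have h1' : ((r.eta1 : ℝ)) ^ 2 ≤ 2 * ((LT : ℝ) - r.Lv) * r.lam * r.cv * (1 + c.p) *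
              ((Eb r.Lv LT c.xt (ru6 (r.eta1 / (r.lam * (1 + c.p)))) : ℚ) : ℝ) := by
            have h0 := (Rat.cast_le (K := ℝ)).2 hle
            push_cast at h0
            exact h0
          refine h1'.trans ?_
          have hE : (0 : ℝ) ≤
              ((Eb r.Lv LT c.xt (ru6 (r.eta1 / (r.lam * (1 + c.p)))) : ℚ) : ℝ) := by
            exact_mod_cast Eb_nonneg _ _ _ _
          apply mul_le_mul_of_nonneg_right _ hE
          apply mul_le_mul_of_nonneg_left hp'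
          have : 0 ≤ (LT : ℝ) - r.Lv := by linarith
          positivity

/-- bound of the inverse square norm for a vertex of a class -/
lemma xbf_bound {z y kap V2 : ℝ} {y' kap' : ℚ} (hy : y = y') (hk : kap = kap') (hz0 : 0 < z) (hzy : z ≤ y)
    (hy1 : y < 1) (hV : 1 - z ≤ (1 + z) * V2)
    (hkap : kap = 0 ∨ (y ^ 2 < kap ∧ kap - z ^ 2 ≤ (1 + z) ^ 2 * V2)) :
    V2⁻¹ ≤ ((xbf kap' y' : ℚ) : ℝ) := by
  subst hy
  subst hk
  have hV0 : 0 < V2 := by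
    by_contra hc
    push Not at hc
    have : (1 + z) * V2 ≤ 0 := mul_nonpos_of_nonneg_of_nonpos (by linarith) hc
    linarith
  rcases hkap with h0 | ⟨h1, h2⟩
  · have h0' : kap' = 0 := by exact_mod_cast h0
    simp only [xbf, if_pos h0']
    push_cast
    rw [inv_eq_one_div]
    have h3 : 1 / V2 ≤ (1 + z) / (1 - z) := by
      rw [div_le_div_iff₀ hV0 (by linarith)]
      linarith
    exact h3.trans (xb_mono hzy hy1)
  · have hk0 : kap' ≠ 0 := by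
      intro h
      rw [h] at h1
      have : (0 : ℝ) ≤ (y' : ℝ) ^ 2 := sq_nonneg _
      push_cast at h1
      linarith
    simp only [xbf, if_neg hk0]
    push_cast
    rw [inv_eq_one_div]
    have hz2 : z ^ 2 ≤ (y' : ℝ) ^ 2 := pow_le_pow_left₀ hz0.le hzy 2
    have h3 : 0 < (kap' : ℝ) - z ^ 2 := by linarith
    have h4 : 0 < (kap' : ℝ) - (y' : ℝ) ^ 2 := by linarith
    have h5 : 1 / V2 ≤ (1 + z) ^ 2 / ((kap' : ℝ) - z ^ 2) := by
      rw [div_le_div_iff₀ hV0 h3]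
      linarith
    refine h5.trans ?_
    rw [div_le_div_iff₀ h3 h4]
    have h6 : (1 + z) ^ 2 ≤ (1 + (y' : ℝ)) ^ 2 := pow_le_pow_left₀ (by linarith) (by linarith) 2
    have h7 : (kap' : ℝ) - (y' : ℝ) ^ 2 ≤ (kap' : ℝ) - z ^ 2 := by linarith
    exact mul_le_mul h6 h7 h4.le (by positivity)

/-- the per vertex inequality of the other vertices in a class -/
lemma vertex_other4 [Nonempty ι] [DecidableEq ι] {v : ι → E} {a τ b : ι → ℝ} {n : E} {M : E → ℝ}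
    {j1 : ι} {Sm : Finset ι} (g : Geo4 v a τ b n M) {c : Head4} (f : Fit4 c v a τ b j1 Sm) {T : ℚ}
    {r : Row4} {k0 kap : ℚ}
    (hcap1 : c.cap < 1) (ht0 : 0 < r.t) (htT : r.t < T) (hlam : 0 < r.lam)
    (hk1 : 0 ≤ r.k1) (hBb : 0 ≤ r.Bb) (hArc : 0 ≤ r.Ar - c.cap * r.Bb)
    (hbins : binsOK4 r.t T r.lam k0 r.k1 r.Ar r.Bb c.cap kap (0 :: c.bins) = true)
    (j : ι) (hj : j ≠ j1)
    (hcls : kap = 0 ∨ ((kap : ℝ) - a j ^ 2 ≤ (1 + a j) ^ 2 * ‖v j‖ ^ 2)) {Lv' : ℝ} :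
    ∫ y in {x | ∀ m, ⟪v m, x⟫ ≤ lev j1 (r.t : ℝ) Lv' m}, (((k0 : ℝ) - r.k1 * a j) -
        r.lam * (1 + a j) * ((r.t : ℝ) - ⟪v j, y⟫)) ∂(stdGaussian E) ≤
      ((r.Ar : ℝ) - r.Bb * a j) * (stdGaussian E).real {x | (r.t : ℝ) < ⟪v j, x⟫ ∧ ⟪v j, x⟫ ≤ T ∧
        ∀ m, m ≠ j → ⟪v m, x⟫ ≤ lev j1 (r.t : ℝ) Lv' m} := by
  have ht0' : (0 : ℝ) < r.t := by exact_mod_cast ht0
  have htT' : (r.t : ℝ) < T := by exact_mod_cast htT
  have hlam' : (0 : ℝ) < r.lam := by exact_mod_cast hlam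
  have hk1' : (0 : ℝ) ≤ r.k1 := by exact_mod_cast hk1
  have hBb' : (0 : ℝ) ≤ r.Bb := by exact_mod_cast hBb
  have hcap1' : (c.cap : ℝ) < 1 := by exact_mod_cast hcap1
  have hArc' : (c.cap : ℝ) * r.Bb ≤ r.Ar := by
    have : c.cap * r.Bb ≤ r.Ar := by linarith
    exact_mod_cast this
  have hal2 := f.hcap j hj
  have hlt1 : a j < 1 := hal2.trans_lt hcap1'
  have hneg : ∀ l, l ≠ j → ⟪v l, v j⟫ ≤ 0 := fun l hl => g.hneg l j hl
  obtain ⟨hvj, hxj⟩ := norm_facts (g.ha j) hlt1 (g.hvar j)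
  have hal0 : 0 < 1 + a j := by linarith [g.ha j]
  have hLj : lev j1 (r.t : ℝ) Lv' j = r.t := by simp [lev, hj]
  have hc2 : 0 ≤ (r.Ar : ℝ) - r.Bb * a j := by
    have := mul_le_mul_of_nonneg_right hal2 hBb'
    nlinarith
  have htriv : (k0 : ℝ) - r.k1 * a j ≤ 0 →
      ∫ y in {x | ∀ m, ⟪v m, x⟫ ≤ lev j1 (r.t : ℝ) Lv' m}, (((k0 : ℝ) - r.k1 * a j) -
        r.lam * (1 + a j) * (r.t - ⟪v j, y⟫)) ∂(stdGaussian E) ≤
      ((r.Ar : ℝ) - r.Bb * a j) * (stdGaussian E).real {x | (r.t : ℝ) < ⟪v j, x⟫ ∧ ⟪v j, x⟫ ≤ T ∧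
        ∀ m, m ≠ j → ⟪v m, x⟫ ≤ lev j1 (r.t : ℝ) Lv' m} := by
    intro h
    apply lemmaLv v j (lev j1 (r.t : ℝ) Lv') hneg hvj hLj (l := 0) (θ := 0) (Y := 0)
      (xbar := (‖v j‖ ^ 2)⁻¹) (mlow := 0) (e := 0) ht0' htT' hal0 hlam' hc2 le_rfl le_rfl
    intro h'
    exact absurd h' (not_lt.2 h)
  have hz0 : ((0 : ℚ) : ℝ) < a j := by simpa using g.ha j
  obtain ⟨x', y', hx', hy', hbin⟩ := binsOK4_find hbins hz0 hal2
  have hmon : (k0 : ℝ) - r.k1 * a j ≤ (k0 : ℝ) - r.k1 * x' := by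
    have := mul_le_mul_of_nonneg_left hx'.le hk1'
    linarith
  by_cases hb0 : k0 - r.k1 * x' ≤ 0
  · apply htriv
    have : (k0 : ℝ) - r.k1 * x' ≤ 0 := by exact_mod_cast hb0
    linarith
  · simp only [binOK4, Bool.or_eq_true, Bool.and_eq_true, decide_eq_true_eq] at hbin
    rcases hbin with hb1 | ⟨⟨⟨hy1, hx0⟩, hyk⟩, hle⟩
    · exact absurd hb1 hb0
    · push Not at hb0
      have hb0' : (0 : ℝ) < (k0 : ℝ) - r.k1 * x' := by exact_mod_cast hb0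
      have hy1' : (y' : ℝ) < 1 := by exact_mod_cast hy1
      have hx0' : (0 : ℝ) ≤ x' := by exact_mod_cast hx0
      have hxb0 : ((xbf kap y' : ℚ) : ℝ) ≥ (‖v j‖ ^ 2)⁻¹ := by
        apply xbf_bound (kap := (kap : ℝ)) (y := (y' : ℝ)) rfl rfl (g.ha j) hy' hy1' (g.hvar j)
        rcases hcls with h | h
        · left
          rw [h]
          simp
        · rcases hyk with h3 | h3
          · right
            refine ⟨by exact_mod_cast h3, h⟩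
          · left
            rw [h3]
            simp
      have hV0 : 0 ≤ (‖v j‖ ^ 2)⁻¹ := by positivity
      have hxb : 0 ≤ xbf kap y' := by
        have : (0 : ℝ) ≤ ((xbf kap y' : ℚ) : ℝ) := hV0.trans hxb0
        exact_mod_cast this
      have hm0 : 0 ≤ ru6 ((k0 - r.k1 * x') / (r.lam * (1 + x'))) := by
        have h1 : 0 ≤ k0 - r.k1 * x' := hb0.le
        have h2 : 0 < 1 + x' := by linarith
        exact le_trans (by positivity) (le_ru6 _)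
      apply vertexLv v j (lev j1 (r.t : ℝ) Lv') hneg hvj hLj ht0 htT hxb hm0 hal0 hlam' hc2
      · exact hxb0
      · intro hη
        have hp' : (1 : ℝ) + x' ≤ 1 + a j := by linarith
        have hp1' : (0 : ℝ) < 1 + x' := by linarith
        constructor
        · have hr : (((k0 - r.k1 * x') / (r.lam * (1 + x')) : ℚ) : ℝ) ≤
              ((ru6 ((k0 - r.k1 * x') / (r.lam * (1 + x'))) : ℚ) : ℝ) := by
            exact_mod_cast le_ru6 _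
          refine le_trans ?_ hr
          push_cast
          exact div_le_div₀ hb0'.le hmon (by positivity)
            (mul_le_mul_of_nonneg_left hp' hlam'.le)
        · have h1 : ((k0 : ℝ) - r.k1 * x') ^ 2 ≤ 2 * ((T : ℝ) - r.t) * r.lam *
              ((r.Ar : ℝ) - r.Bb * y') * (1 + x') *
              ((Eb r.t T (xbf kap y') (ru6 ((k0 - r.k1 * x') / (r.lam * (1 + x')))) : ℚ) : ℝ) := by
            have h0 := (Rat.cast_le (K := ℝ)).2 hle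
            push_cast at h0
            exact h0
          have h2 : ((k0 : ℝ) - r.k1 * a j) ^ 2 ≤ ((k0 : ℝ) - r.k1 * x') ^ 2 :=
            pow_le_pow_left₀ hη.le hmon 2
          refine h2.trans (h1.trans ?_)
          have hE : (0 : ℝ) ≤
              ((Eb r.t T (xbf kap y') (ru6 ((k0 - r.k1 * x') / (r.lam * (1 + x')))) : ℚ) : ℝ) := by
            exact_mod_cast Eb_nonneg _ _ _ _
          apply mul_le_mul_of_nonneg_right _ hE
          have hD : 0 ≤ 2 * ((T : ℝ) - r.t) * r.lam := by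
            have : 0 ≤ (T : ℝ) - r.t := by linarith
            positivity
          have h3 : ((r.Ar : ℝ) - r.Bb * y') * (1 + x') ≤ ((r.Ar : ℝ) - r.Bb * a j) * (1 + a j) := by
            have h4 : (r.Ar : ℝ) - r.Bb * y' ≤ (r.Ar : ℝ) - r.Bb * a j := by
              have := mul_le_mul_of_nonneg_left hy' hBb'
              linarith
            calc ((r.Ar : ℝ) - r.Bb * y') * (1 + x') ≤ ((r.Ar : ℝ) - r.Bb * a j) * (1 + x') :=
                  mul_le_mul_of_nonneg_right h4 hp1'.le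
              _ ≤ ((r.Ar : ℝ) - r.Bb * a j) * (1 + a j) := mul_le_mul_of_nonneg_left hp' hc2
          calc 2 * ((T : ℝ) - r.t) * r.lam * ((r.Ar : ℝ) - r.Bb * y') * (1 + x')
              = 2 * ((T : ℝ) - r.t) * r.lam * (((r.Ar : ℝ) - r.Bb * y') * (1 + x')) := by ring
            _ ≤ 2 * ((T : ℝ) - r.t) * r.lam * (((r.Ar : ℝ) - r.Bb * a j) * (1 + a j)) :=
                mul_le_mul_of_nonneg_left h3 hD
            _ = 2 * ((T : ℝ) - r.t) * r.lam * ((r.Ar : ℝ) - r.Bb * a j) * (1 + a j) := by ring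


/-- the decrement of one level -/
lemma decrement4 [Nonempty ι] [DecidableEq ι] {v : ι → E} {a τ b : ι → ℝ} {n : E} {M : E → ℝ}
    {j1 : ι} {Sm : Finset ι} (g : Geo4 v a τ b n M) {c : Head4} (f : Fit4 c v a τ b j1 Sm) {R' : ℚ}
    {r : Row4} (htL : r.t ≤ r.Lv) (hlam : 0 < r.lam) (hk1 : 0 ≤ r.k1)
    (hRc : R' - Dv4 c r ≤ r.Rc) :
    (R' : ℝ) - (∑ j, (if j = j1 then (r.eta1 : ℝ) else
        ((if j ∈ Sm then (r.k0s : ℝ) else (r.k0 : ℝ)) - r.k1 * a j)) -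
      r.lam * ∑ j, (1 + a j) * lev j1 (r.t : ℝ) (r.Lv : ℝ) j) ≤ r.Rc := by
  have htL' : (r.t : ℝ) ≤ r.Lv := by exact_mod_cast htL
  have hlam' : (0 : ℝ) < r.lam := by exact_mod_cast hlam
  have hk1' : (0 : ℝ) ≤ r.k1 := by exact_mod_cast hk1
  have hsumη : ∑ j, (if j = j1 then (r.eta1 : ℝ) else
        ((if j ∈ Sm then (r.k0s : ℝ) else (r.k0 : ℝ)) - r.k1 * a j)) =
      (Fintype.card ι : ℝ) * r.k0 + ((c.NS : ℝ)) * ((r.k0s : ℝ) - r.k0) - r.k1 +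
        ((r.eta1 : ℝ) - (r.k0 - r.k1 * a j1)) := by
    have h1 : ∀ j, (if j = j1 then (r.eta1 : ℝ) else
        ((if j ∈ Sm then (r.k0s : ℝ) else (r.k0 : ℝ)) - r.k1 * a j)) =
        (r.k0 : ℝ) + (if j ∈ Sm then (r.k0s : ℝ) - r.k0 else 0) - r.k1 * a j +
        (if j = j1 then (r.eta1 : ℝ) - (r.k0 - r.k1 * a j1) else 0) := by
      intro j
      by_cases hj : j = j1
      · have : j1 ∉ Sm := f.hj1
        rw [hj, if_pos rfl, if_pos rfl, if_neg this]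
        ring
      · rw [if_neg hj, if_neg hj]
        by_cases hS : j ∈ Sm
        · rw [if_pos hS, if_pos hS]
          ring
        · rw [if_neg hS, if_neg hS]
          ring
    simp_rw [h1]
    rw [Finset.sum_add_distrib, Finset.sum_sub_distrib, Finset.sum_add_distrib, ← Finset.mul_sum,
      g.hsum, Finset.sum_ite_eq' Finset.univ j1, Finset.sum_ite_mem]
    simp [f.hSm]
    ring
  have hsumL : ∑ j, (1 + a j) * lev j1 (r.t : ℝ) (r.Lv : ℝ) j =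
      (r.t : ℝ) * ((Fintype.card ι : ℝ) + 1) + (1 + a j1) * ((r.Lv : ℝ) - r.t) := by
    have h1 : ∀ j, (1 + a j) * lev j1 (r.t : ℝ) (r.Lv : ℝ) j = (r.t : ℝ) * (1 + a j) +
        (if j = j1 then (1 + a j1) * ((r.Lv : ℝ) - r.t) else 0) := by
      intro j
      by_cases hj : j = j1
      · simp only [lev, hj, if_true]
        ring
      · simp only [lev, if_neg hj]
        ring
    simp_rw [h1]
    rw [Finset.sum_add_distrib, ← Finset.mul_sum, Finset.sum_add_distrib, g.hsum,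
      Finset.sum_ite_eq' Finset.univ j1]
    simp
  rw [hsumη, hsumL, f.hN]
  have hRc' : (R' : ℝ) - (r.eta1 + ((c.N : ℝ) - 1 - (c.NS : ℝ)) * r.k0 + (c.NS : ℝ) * r.k0s -
      r.k1 * (1 - c.p) -
      r.lam * (r.t * ((c.N : ℝ) + 1) + (1 + c.q) * ((r.Lv : ℝ) - r.t))) ≤ r.Rc := by
    have h0 := (Rat.cast_le (K := ℝ)).2 hRc
    simp only [Dv4] at h0
    push_cast at h0
    exact h0
  have h1 : 0 ≤ (r.k1 : ℝ) * (a j1 - c.p) := mul_nonneg hk1' (by linarith [f.hp])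
  have h2 : 0 ≤ (r.lam : ℝ) * (((c.q : ℝ) - a j1) * ((r.Lv : ℝ) - r.t)) :=
    mul_nonneg hlam'.le (mul_nonneg (by linarith [f.hq]) (by linarith))
  nlinarith

/-- one level of the chain -/
theorem row_step4 [Nonempty ι] [DecidableEq ι] {v : ι → E} {a τ b : ι → ℝ} {n : E} {M : E → ℝ}
    {j1 : ι} {Sm : Finset ι} (g : Geo4 v a τ b n M) {c : Head4} (f : Fit4 c v a τ b j1 Sm)
    {T LT R' : ℚ} {r : Row4} (hl0 : ∃ l, l ≠ j1)
    (hc0 : 0 ≤ 1 + c.S - 2 * c.τ1) (hc1 : 1 + c.S - 2 * c.τ1 < 2)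
    (hd0 : 0 ≤ 1 + c.S - 2 * c.τ0) (hd1 : 1 + c.S - 2 * c.τ0 < 2)
    (hq1 : c.q ≤ 1) (hcap1 : c.cap < 1) (hp0 : 0 ≤ c.p) (hκ0 : 0 ≤ c.κ) (hκ1 : c.κ ≤ 1)
    (hsg0 : 0 ≤ c.sg)
    (hok : rowOK4 c T LT R' r = true)
    (hclaim : Claim3 v (Gf v n M c.S) (lev j1 (T : ℝ) (LT : ℝ)) R') :
    Claim3 v (Gf v n M c.S) (lev j1 (r.t : ℝ) (r.Lv : ℝ)) r.Rc := by
  simp only [rowOK4, Bool.and_eq_true, decide_eq_true_eq] at hok
  obtain ⟨⟨⟨⟨⟨⟨⟨⟨⟨⟨⟨⟨⟨⟨⟨⟨ht0, htL⟩, htT⟩, hLL⟩, hlam⟩, hk1⟩, heta⟩, hBb⟩, hBbS⟩, hAr⟩, hcv⟩, hArc⟩,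
    htop⟩, hbins⟩, hbinsS⟩, hcells⟩, hRc⟩ := hok
  have ht0' : (0 : ℝ) < r.t := by exact_mod_cast ht0
  have htT' : (r.t : ℝ) < T := by exact_mod_cast htT
  have hLL' : (r.Lv : ℝ) ≤ LT := by exact_mod_cast hLL
  have hBb' : (0 : ℝ) ≤ r.Bb := by exact_mod_cast hBb
  have hArc' : (c.cap : ℝ) * r.Bb ≤ r.Ar := by
    have : c.cap * r.Bb ≤ r.Ar := by linarith
    exact_mod_cast this
  have hc0' : (0 : ℝ) ≤ 1 + c.S - 2 * c.τ1 := by exact_mod_cast hc0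
  have hd0' : (0 : ℝ) ≤ 1 + c.S - 2 * c.τ0 := by exact_mod_cast hd0
  have hκ1' : (c.κ : ℝ) ≤ 1 := by exact_mod_cast hκ1
  have hsg0' : (0 : ℝ) ≤ c.sg := by exact_mod_cast hsg0
  have hL1 : ∀ t Lv : ℝ, lev j1 t Lv j1 = Lv := fun t Lv => by simp [lev]
  have hLl : ∀ (t Lv : ℝ) (l : ι), l ≠ j1 → lev j1 t Lv l = t := fun t Lv l hl => by simp [lev, hl]
  have htop0 := htop
  simp only [topOK4, Bool.or_eq_true, Bool.and_eq_true, decide_eq_true_eq] at htop0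
  set cv' : ℝ := if r.Lv < LT then (r.cv : ℝ) else 0 with hcvdef
  set cf : ι → ℝ := fun j => if j = j1 then cv' else (r.Ar : ℝ) - r.Bb * a j with hcf
  set ηf : ι → ℝ := fun j => if j = j1 then (r.eta1 : ℝ) else
        ((if j ∈ Sm then (r.k0s : ℝ) else (r.k0 : ℝ)) - r.k1 * a j) with hηf
  have hη1 : ηf j1 = r.eta1 := by
    simp only [hηf, if_true]
  have hηl : ∀ l, l ≠ j1 → ηf l = (if l ∈ Sm then (r.k0s : ℝ) else (r.k0 : ℝ)) - r.k1 * a l := by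
    intro l hl
    simp only [hηf, if_neg hl]
  have hcf1 : cf j1 = cv' := by simp only [hcf, if_true]
  have hcfl : ∀ l, l ≠ j1 → cf l = (r.Ar : ℝ) - r.Bb * a l := by
    intro l hl
    simp only [hcf, if_neg hl]
  have hcv0 : 0 ≤ cv' := by
    simp only [hcvdef]
    split_ifs with h
    · rcases htop0 with ⟨h1, _⟩ | ⟨⟨⟨_, h2⟩, h3⟩, _⟩
      · rw [h1] at h
        exact absurd h (lt_irrefl _)
      · exact_mod_cast h3
    · exact le_rfl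
  have hcf0 : ∀ j, 0 ≤ cf j := by
    intro j
    by_cases hj : j = j1
    · rw [hj, hcf1]; exact hcv0
    · rw [hcfl j hj]
      have := mul_le_mul_of_nonneg_right (f.hcap j hj) hBb'
      nlinarith
  have hBbL : r.Lv < LT → 0 ≤ Bbg r.Lv := by
    intro h
    rcases htop0 with ⟨h1, _⟩ | ⟨⟨⟨_, h2⟩, _⟩, _⟩
    · rw [h1] at h
      exact absurd h (lt_irrefl _)
    · exact h2
  have hL0 : 0 < r.Lv := ht0.trans_le htL
  obtain ⟨hae, -⟩ := integrable_slice n g.hn (integrable_cellG v n c.S g.hMint)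
  have hGi := integrable_Gf v n c.S g.hn g.hMint
  have hA := band_A4 (LT := LT) (R' := R') (r := r) g f hc0 hc1 hL0 hsg0 hcv hBbL
  have hB := band_B4 (T := T) (R' := R') (r := r) g f hd0 hd1 ht0 hκ0 hAr hBbS
  have hC := band_C4 (T := T) (R' := R') (r := r) g f hc0' hd0' hκ1' ht0 hsg0' hAr hcells
  refine chain_step3 v a (G := Gf v n M c.S) hGi g.hbal (R' := R') (lam := r.lam)
    cf ηf ?_ ?_ hcf0 ?_ (decrement4 g f htL hlam hk1 hRc) hclaim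
  · -- the levels are ordered
    intro j
    by_cases hj : j = j1
    · rw [hj, hL1, hL1]; exact hLL'
    · rw [hLl _ _ j hj, hLl _ _ j hj]; exact htT'.le
  · -- the bound on the band
    filter_upwards [hae] with x hx hxL' hxL
    obtain ⟨l0, hl0⟩ := hl0
    obtain ⟨l, hlmem, hlmax⟩ := Finset.exists_max_image (Finset.univ.erase j1)
      (fun m => ⟪v m, x⟫) ⟨l0, Finset.mem_erase.2 ⟨hl0, Finset.mem_univ _⟩⟩
    have hlj : l ≠ j1 := (Finset.mem_erase.1 hlmem).1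
    have hlm : ∀ m, m ≠ j1 → ⟪v m, x⟫ ≤ ⟪v l, x⟫ := fun m hm =>
      hlmax m (Finset.mem_erase.2 ⟨hm, Finset.mem_univ _⟩)
    have hyLT : ⟪v j1, x⟫ ≤ LT := by
      have := hxL' j1
      rwa [hL1] at this
    have hwT : ⟪v l, x⟫ ≤ T := by
      have := hxL' l
      rwa [hLl _ _ l hlj] at this
    have hAc : (r.Lv : ℝ) < ⟪v j1, x⟫ → (∀ m, ⟪v m, x⟫ ≤ ⟪v j1, x⟫) →
        Gf v n M c.S x + R' ≤ - cv' ∧ 0 ≤ cv' := by
      intro h1 h2
      obtain ⟨h3, h4⟩ := hA x hx h2 h1 hyLT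
      refine ⟨?_, hcv0⟩
      simp only [hcvdef]
      rw [if_pos h4]
      exact h3
    by_cases hw : ⟪v l, x⟫ ≤ r.t
    · -- only the largest vertex is above its level
      have hy : (r.Lv : ℝ) < ⟪v j1, x⟫ := by
        by_contra h
        push Not at h
        apply hxL
        intro m
        by_cases hm : m = j1
        · rw [hm, hL1]; exact h
        · rw [hLl _ _ m hm]; exact (hlm m hm).trans hw
      have htopx : ∀ m, ⟪v m, x⟫ ≤ ⟪v j1, x⟫ := by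
        intro m
        by_cases hm : m = j1
        · rw [hm]
        · have := hlm m hm
          have h5 : (r.t : ℝ) ≤ r.Lv := by exact_mod_cast htL
          linarith
      obtain ⟨h1, _⟩ := hAc hy htopx
      refine ⟨by linarith, ?_⟩
      intro j hS
      by_cases hj : j = j1
      · rw [hj, hcf1]; exact h1
      · exfalso
        have h2 := hS.1
        rw [hLl _ _ j hj] at h2
        have := hlm j hj
        linarith
    · push Not at hw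
      -- the common conclusion
      have hfin : Gf v n M c.S x + R' ≤ - ((r.Ar : ℝ) - r.Bb * a l) →
          Gf v n M c.S x + R' ≤ 0 ∧
            ∀ j, (lev j1 (r.t : ℝ) (r.Lv : ℝ) j < ⟪v j, x⟫ ∧
              ⟪v j, x⟫ ≤ lev j1 (T : ℝ) (LT : ℝ) j ∧
              ∀ m, m ≠ j → ⟪v m, x⟫ ≤ lev j1 (r.t : ℝ) (r.Lv : ℝ) m) →
              Gf v n M c.S x + R' ≤ - cf j := by
        intro h
        have h0 : 0 ≤ (r.Ar : ℝ) - r.Bb * a l := by
          have := hcf0 l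
          rwa [hcfl l hlj] at this
        refine ⟨by linarith, ?_⟩
        intro j hS
        by_cases hjl : j = l
        · rw [hjl, hcfl l hlj]; exact h
        · exfalso
          have h2 := hS.2.2 l (Ne.symm hjl)
          rw [hLl _ _ l hlj] at h2
          linarith
      by_cases hyw : ⟪v j1, x⟫ ≤ ⟪v l, x⟫
      · -- the top vertex is not the largest vertex
        apply hfin
        refine hB x hx l hlj ?_ hw hwT
        intro m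
        by_cases hm : m = j1
        · rw [hm]; exact hyw
        · exact hlm m hm
      · push Not at hyw
        have htopx : ∀ m, ⟪v m, x⟫ ≤ ⟪v j1, x⟫ := by
          intro m
          by_cases hm : m = j1
          · rw [hm]
          · have := hlm m hm
            linarith
        by_cases hyL : ⟪v j1, x⟫ ≤ r.Lv
        · apply hfin
          exact hC x hx l hlj htopx hw (hw.trans hyw) hyL
        · push Not at hyL
          obtain ⟨h1, _⟩ := hAc hyL htopx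
          refine ⟨by linarith, ?_⟩
          intro j hS
          exfalso
          by_cases hjl : j = l
          · have h2 := hS.2.2 j1 (by rw [hjl]; exact Ne.symm hlj)
            rw [hL1] at h2
            linarith
          · have h2 := hS.2.2 l (Ne.symm hjl)
            rw [hLl _ _ l hlj] at h2
            linarith
  · -- the per vertex inequalities
    intro j
    by_cases hj : j = j1
    · subst hj
      rw [hη1, hcf1, hL1, hL1]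
      exact vertex_top4 g f hq1 hp0 ht0 htL hlam heta htop
    · rw [hηl j hj, hcfl j hj, hLl _ _ j hj, hLl _ _ j hj]
      by_cases hS : j ∈ Sm
      · rw [if_pos hS]
        have hNS : c.NS ≠ 0 := by
          rw [← f.hSm]
          exact Finset.card_ne_zero_of_mem hS
        simp only [Bool.or_eq_true, decide_eq_true_eq] at hbinsS
        rcases hbinsS with h | h
        · exact absurd h hNS
        · exact vertex_other4 g f hcap1 ht0 htT hlam hk1 hBb hArc h j hj (Or.inl rfl)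
      · rw [if_neg hS]
        exact vertex_other4 g f hcap1 ht0 htT hlam hk1 hBb hArc hbins j hj (Or.inr (f.hbig j hj hS))

/-- the base bound of a table -/
lemma base_low4 [Nonempty ι] [DecidableEq ι] {v : ι → E} {a τ b : ι → ℝ} {n : E} {M : E → ℝ}
    {j1 : ι} {Sm : Finset ι} (g : Geo4 v a τ b n M) {c : Head4} (f : Fit4 c v a τ b j1 Sm)
    (hκ0 : 0 ≤ c.κ) (hκ1 : c.κ ≤ 1) (hN1 : 1 < c.N) (hlow0 : 0 ≤ lowg4 c) :
    ∀ᵐ x ∂(stdGaussian E), Gf v n M c.S x ≤ ((lowg4 c : ℚ) : ℝ) := by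
  obtain ⟨hae, -⟩ := integrable_slice n g.hn (integrable_cellG v n c.S g.hMint)
  have hκ0' : (0 : ℝ) ≤ c.κ := by exact_mod_cast hκ0
  have hκ1' : (c.κ : ℝ) ≤ 1 := by exact_mod_cast hκ1
  have hN0' : (1 : ℝ) < c.N := by exact_mod_cast hN1
  have hN0 : (0 : ℝ) < c.N := by linarith
  set ε1 : ℝ := (1 - (c.τ1 : ℝ) - ((c.N : ℝ) - 1) * c.τ0 - c.κ * (1 - c.q)) / (c.N : ℝ) with hε1
  set ε0 : ℝ := ((1 - (c.κ : ℝ)) * (1 - c.p) - ((c.N : ℝ) - 1) * c.τ0) / ((c.N : ℝ) - 1) with hε0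
  set ε : ℝ := max ε1 ε0 with hε
  have hlowv : ((lowg4 c : ℚ) : ℝ) = 1 + (c.S : ℝ) + 2 * ε := by
    simp only [lowg4, hε, hε0, hε1]
    push_cast
    rfl
  have hsumτ : ∑ j, τ j = (c.τ1 : ℝ) + ((c.N : ℝ) - 1) * c.τ0 + c.κ * (1 - a j1) := by
    have h1 : ∀ j, τ j = ((c.τ0 : ℝ) + c.κ * a j) +
        (if j = j1 then (c.τ1 : ℝ) - (c.τ0 + c.κ * a j1) else 0) := by
      intro j
      by_cases hj : j = j1
      · rw [if_pos hj, hj, f.hτ1]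
        ring
      · rw [if_neg hj, f.hτr j hj]
        ring
    simp_rw [h1]
    rw [Finset.sum_add_distrib, Finset.sum_add_distrib, ← Finset.mul_sum, g.hsum,
      Finset.sum_ite_eq' Finset.univ j1]
    simp only [Finset.sum_const, Finset.card_univ, nsmul_eq_mul, f.hN, Finset.mem_univ, if_true]
    ring
  have hal1 : 0 < 1 + a j1 := by linarith [g.ha j1]
  have hden : 0 < 1 + a j1 + b j1 := by linarith [g.hb j1]
  set lam : ℝ := (1 + a j1) / (1 + a j1 + b j1) with hlamd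
  have hlam0 : 0 < lam := div_pos hal1 hden
  have hlam1 : lam ≤ 1 := by
    rw [hlamd, div_le_one hden]
    linarith [g.hb j1]
  have hlamm : lam * (1 + a j1 + b j1) = 1 + a j1 := by
    rw [hlamd]
    field_simp
  have hM' : ∀ y, 0 ≤ ⟪n, y⟫ → -ε * ⟪n, y⟫ ≤ M y := by
    intro y hy
    set ww : ι → ℝ := fun j => if j = j1 then lam else 1 with hww
    have hww0 : ∀ j, 0 ≤ ww j := by
      intro j
      simp only [hww]
      split_ifs
      · exact hlam0.le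
      · exact zero_le_one
    have hline : ∀ j, ww j * ((1 + (a j + b j)) * ⟪v j, y⟫ - ((a j + b j) - (τ j + b j)) * ⟪n, y⟫) =
        (1 + a j) * ⟪v j, y⟫ - ww j * (a j - τ j) * ⟪n, y⟫ := by
      intro j
      by_cases hj : j = j1
      · subst hj
        simp only [hww, if_true]
        have e : lam * ((1 + (a j + b j)) * ⟪v j, y⟫ - ((a j + b j) - (τ j + b j)) * ⟪n, y⟫) =
            (lam * (1 + a j + b j)) * ⟪v j, y⟫ - lam * (a j - τ j) * ⟪n, y⟫ := by ring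
        rw [e, hlamm]
      · simp only [hww, if_neg hj, f.hb0 j hj]
        ring
    have h1 : ∑ j, ((1 + a j) * ⟪v j, y⟫ - ww j * (a j - τ j) * ⟪n, y⟫) ≤ ∑ j, ww j * M y := by
      apply Finset.sum_le_sum
      intro j _
      rw [← hline]
      exact mul_le_mul_of_nonneg_left (g.hM y j) (hww0 j)
    have h2 : ∑ j, (1 + a j) * ⟪v j, y⟫ = 0 := by
      have := congrArg (fun z => ⟪z, y⟫) g.hbal
      simp only [sum_inner, inner_smul_left, inner_zero_left] at this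
      simpa using this
    have hsw : ∀ F : ι → ℝ, ∑ j, ww j * F j = ∑ j, F j + (lam - 1) * F j1 := by
      intro F
      have h3 : ∀ j, ww j * F j = F j + (if j = j1 then (lam - 1) * F j1 else 0) := by
        intro j
        by_cases hj : j = j1
        · simp only [hww, hj, if_true]
          ring
        · simp only [hww, if_neg hj]
          ring
      simp_rw [h3]
      rw [Finset.sum_add_distrib, Finset.sum_ite_eq' Finset.univ j1]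
      simp
    have hsw1 : ∑ j, ww j = (c.N : ℝ) + (lam - 1) := by
      have := hsw (fun _ => 1)
      simp only [mul_one, Finset.sum_const, Finset.card_univ, nsmul_eq_mul, f.hN] at this
      rw [this]
    have hX : ∑ j, (a j - τ j) = 1 - (c.τ1 : ℝ) - ((c.N : ℝ) - 1) * c.τ0 - c.κ * (1 - a j1) := by
      rw [Finset.sum_sub_distrib, g.hsum, hsumτ]
      ring
    rw [Finset.sum_sub_distrib, h2, zero_sub, ← Finset.sum_mul, hsw (fun j => a j - τ j), hX, f.hτ1,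
      ← Finset.sum_mul, hsw1] at h1
    -- the two averages
    have hA1 : 1 - (c.τ1 : ℝ) - ((c.N : ℝ) - 1) * c.τ0 - c.κ * (1 - a j1) ≤ (c.N : ℝ) * ε := by
      have h3 : (c.N : ℝ) * ε1 = 1 - (c.τ1 : ℝ) - ((c.N : ℝ) - 1) * c.τ0 - c.κ * (1 - c.q) := by
        rw [hε1]
        field_simp
      have h4 : (c.N : ℝ) * ε1 ≤ (c.N : ℝ) * ε := mul_le_mul_of_nonneg_left (le_max_left _ _) hN0.le
      have h5 : (c.κ : ℝ) * (a j1) ≤ c.κ * c.q := mul_le_mul_of_nonneg_left f.hq.le hκ0'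
      nlinarith
    have hA0 : (1 - (c.κ : ℝ)) * (1 - a j1) - ((c.N : ℝ) - 1) * c.τ0 ≤ ((c.N : ℝ) - 1) * ε := by
      have hNm : (0 : ℝ) < (c.N : ℝ) - 1 := by linarith
      have h3 : ((c.N : ℝ) - 1) * ε0 = (1 - (c.κ : ℝ)) * (1 - c.p) - ((c.N : ℝ) - 1) * c.τ0 := by
        rw [hε0]
        field_simp
      have h4 : ((c.N : ℝ) - 1) * ε0 ≤ ((c.N : ℝ) - 1) * ε :=
        mul_le_mul_of_nonneg_left (le_max_right _ _) hNm.le
      have h5 : (1 - (c.κ : ℝ)) * (1 - a j1) ≤ (1 - (c.κ : ℝ)) * (1 - c.p) :=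
        mul_le_mul_of_nonneg_left (by linarith [f.hp]) (by linarith)
      linarith
    -- the weighted average
    have hW : 1 - (c.τ1 : ℝ) - ((c.N : ℝ) - 1) * c.τ0 - c.κ * (1 - a j1) + (lam - 1) * (a j1 - c.τ1) ≤
        ((c.N : ℝ) + (lam - 1)) * ε := by
      have h3 := mul_le_mul_of_nonneg_left hA1 hlam0.le
      have h4 := mul_le_mul_of_nonneg_left hA0 (sub_nonneg.2 hlam1)
      nlinarith
    have hpos : 0 < (c.N : ℝ) + (lam - 1) := by linarith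
    have h5 : ((c.N : ℝ) + (lam - 1)) * (-ε * ⟪n, y⟫) ≤ ((c.N : ℝ) + (lam - 1)) * M y := by
      have h6 := mul_le_mul_of_nonneg_right hW hy
      nlinarith
    exact le_of_mul_le_mul_left h5 hpos
  filter_upwards [hae] with x hx
  obtain ⟨j, -, hj⟩ := Finset.exists_max_image Finset.univ (fun l => ⟪v l, x⟫)
    Finset.univ_nonempty
  have hj' : ∀ l, ⟪v l, x⟫ ≤ ⟪v j, x⟫ := fun l => hj l (Finset.mem_univ l)
  have hu0 := top_nonneg (fun l => (g.ha l).le) g.hbal hj'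
  have h0 : 0 ≤ 1 + (c.S : ℝ) + 2 * ε := by
    rw [← hlowv]
    exact_mod_cast hlow0
  have := inner_base v n M c.S g.hn g.horth x j hj' hx hM' hu0 h0
  rw [hlowv]
  exact this

/-- reachability of the states of the chain -/
inductive Rch4 (c : Head4) : St4 → St4 → Prop
  | refl (s : St4) : Rch4 c s s
  | step {s e f : St4} (rows : List Row4) : segOK4 c s rows e = true → Rch4 c e f → Rch4 c s f

/-- a table is good when the chain reaches the base -/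
def Good4 (c : Head4) : Prop :=
  headOK4 c = true ∧ ∃ e : St4, Rch4 c ⟨c.Ttop, c.Ttop, 0⟩ e ∧ lowg4 c + e.R ≤ 0

/-- soundness of a segment -/
theorem seg_sound [Nonempty ι] [DecidableEq ι] {v : ι → E} {a τ b : ι → ℝ} {n : E} {M : E → ℝ}
    {j1 : ι} {Sm : Finset ι} (g : Geo4 v a τ b n M) {c : Head4} (f : Fit4 c v a τ b j1 Sm)
    (hl0 : ∃ l, l ≠ j1)
    (hc0 : 0 ≤ 1 + c.S - 2 * c.τ1) (hc1 : 1 + c.S - 2 * c.τ1 < 2)
    (hd0 : 0 ≤ 1 + c.S - 2 * c.τ0) (hd1 : 1 + c.S - 2 * c.τ0 < 2)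
    (hq1 : c.q ≤ 1) (hcap1 : c.cap < 1) (hp0 : 0 ≤ c.p) (hκ0 : 0 ≤ c.κ) (hκ1 : c.κ ≤ 1)
    (hsg0 : 0 ≤ c.sg) :
    ∀ (rows : List Row4) (s e : St4), segOK4 c s rows e = true →
      Claim3 v (Gf v n M c.S) (lev j1 (s.T : ℝ) (s.LT : ℝ)) s.R →
      Claim3 v (Gf v n M c.S) (lev j1 (e.T : ℝ) (e.LT : ℝ)) e.R := by
  intro rows
  induction rows with
  | nil =>
    intro s e h hclaim
    simp only [segOK4, Bool.and_eq_true, decide_eq_true_eq] at h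
    obtain ⟨⟨h1, h2⟩, h3⟩ := h
    rw [← h1, ← h2, ← h3]
    exact hclaim
  | cons r rs ih =>
    intro s e h hclaim
    simp only [segOK4, Bool.and_eq_true] at h
    exact ih _ _ h.2 (row_step4 g f hl0 hc0 hc1 hd0 hd1 hq1 hcap1 hp0 hκ0 hκ1 hsg0 h.1 hclaim)

/-- The main inequality from a table. -/
theorem table4_sound [Nonempty ι] [DecidableEq ι] {v : ι → E} {a τ b : ι → ℝ} {n : E} {M : E → ℝ}
    {j1 : ι} {Sm : Finset ι} (g : Geo4 v a τ b n M) {c : Head4} (f : Fit4 c v a τ b j1 Sm)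
    (hl0 : ∃ l, l ≠ j1) (hok : Good4 c) :
    ∫ x, cellG v n M c.S x ∂(stdGaussian E) ≤ 0 := by
  obtain ⟨hhead, e, hrch, hfin⟩ := hok
  simp only [headOK4, Bool.and_eq_true, decide_eq_true_eq] at hhead
  obtain ⟨⟨⟨⟨⟨⟨⟨⟨⟨⟨⟨⟨⟨⟨⟨⟨hp0, hq1⟩, hcap0⟩, hcap1⟩, hκ0⟩, hκ1⟩, hT0⟩, hN1⟩, hsg0⟩, hNS⟩, hc0⟩, hc1⟩,
    hd0⟩, hd1⟩, ht1⟩, ht2⟩, hlow0⟩ := hhead
  have hT0' : (0 : ℝ) < c.Ttop := by exact_mod_cast hT0
  have hc1' : (1 + (c.S : ℝ) - 2 * c.τ1) < 2 := by exact_mod_cast hc1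
  have hd1' : (1 + (c.S : ℝ) - 2 * c.τ0) < 2 := by exact_mod_cast hd1
  have hc0' : (0 : ℝ) ≤ 1 + (c.S : ℝ) - 2 * c.τ1 := by exact_mod_cast hc0
  have hd0' : (0 : ℝ) ≤ 1 + (c.S : ℝ) - 2 * c.τ0 := by exact_mod_cast hd0
  have hκ0' : (0 : ℝ) ≤ c.κ := by exact_mod_cast hκ0
  have hκ1' : (c.κ : ℝ) ≤ 1 := by exact_mod_cast hκ1
  have hGi := integrable_Gf v n c.S g.hn g.hMint
  obtain ⟨hae, -⟩ := integrable_slice n g.hn (integrable_cellG v n c.S g.hMint)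
  have htop : Claim3 v (Gf v n M c.S) (lev j1 ((c.Ttop : ℚ) : ℝ) ((c.Ttop : ℚ) : ℝ)) ((0 : ℚ) : ℝ) := by
    have h0 : lev j1 ((c.Ttop : ℚ) : ℝ) ((c.Ttop : ℚ) : ℝ) = fun _ => ((c.Ttop : ℚ) : ℝ) := by
      funext m
      simp [lev]
    rw [h0]
    have := chain_top v (T := c.Ttop) hGi (by
      filter_upwards [hae] with x hx j hj hjT
      have hG : Gf v n M c.S x ≤ gb (1 + (c.S : ℝ) + 2 * (a j + b j) - 2 * (τ j + b j))
          (1 + (a j + b j)) ⟪v j, x⟫ :=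
        inner_bound2 v (fun j => a j + b j) (fun j => τ j + b j) n M c.S g.hn g.horth g.hM
          x j hj hx
      have haj := g.ha j
      have hbj := g.hb j
      have ht1' : 1 + (c.S : ℝ) - 2 * c.τ1 + 2 * c.q ≤ (2 - (1 + (c.S : ℝ) - 2 * c.τ1)) *
          (c.Ttop : ℝ) ^ 2 := by
        exact_mod_cast ht1
      have ht2' : 1 + (c.S : ℝ) - 2 * c.τ0 + 2 * (1 - c.κ) * c.cap ≤
          (2 - (1 + (c.S : ℝ) - 2 * c.τ0)) * (c.Ttop : ℝ) ^ 2 := by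
        exact_mod_cast ht2
      have hT2 : (0 : ℝ) ≤ (c.Ttop : ℝ) ^ 2 := by positivity
      by_cases hjj : j = j1
      · subst hjj
        rw [f.hτ1] at hG
        refine hG.trans (gb_nonpos hT0' hjT.le (by linarith) ?_ ?_)
        · linarith
        · have e : 2 * (1 + (a j + b j)) - (1 + (c.S : ℝ) + 2 * (a j + b j) - 2 * (c.τ1 + b j)) =
              2 - (1 + (c.S : ℝ) - 2 * c.τ1) + 2 * b j := by ring
          rw [e]
          have := f.hq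
          nlinarith [mul_nonneg hbj hT2]
      · rw [f.hb0 j hjj, add_zero, add_zero, f.hτr j hjj] at hG
        refine hG.trans (gb_nonpos hT0' hjT.le (by linarith) ?_ ?_)
        · have := mul_nonneg hκ0' haj.le
          linarith
        · have e : 2 * (1 + a j) - (1 + (c.S : ℝ) + 2 * a j - 2 * ((c.τ0 : ℝ) + c.κ * a j)) =
              2 - (1 + (c.S : ℝ) - 2 * c.τ0) + 2 * (c.κ * a j) := by ring
          rw [e]
          have h5 := f.hcap j hjj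
          have h6 : (1 - (c.κ : ℝ)) * a j ≤ (1 - (c.κ : ℝ)) * c.cap :=
            mul_le_mul_of_nonneg_left h5 (by linarith)
          have h7 : 0 ≤ (c.κ : ℝ) * a j := mul_nonneg hκ0' haj.le
          nlinarith [mul_nonneg h7 hT2])
    have h9 : ChainClaim v (Gf v n M c.S) (c.Ttop : ℝ) ((0 : ℚ) : ℝ) := by
      simpa using this
    exact h9
  have hseg := seg_sound g f hl0 hc0 hc1 hd0 hd1 hq1 hcap1 hp0 hκ0 hκ1 hsg0
  have hreach : ∀ {s e : St4}, Rch4 c s e →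
      Claim3 v (Gf v n M c.S) (lev j1 (s.T : ℝ) (s.LT : ℝ)) s.R →
      Claim3 v (Gf v n M c.S) (lev j1 (e.T : ℝ) (e.LT : ℝ)) e.R := by
    intro s e h
    induction h with
    | refl s => exact id
    | step rows h1 _ ih => exact fun hc => ih (hseg rows _ _ h1 hc)
  have hend := hreach hrch htop
  have hfinal : ∫ x, Gf v n M c.S x ∂(stdGaussian E) ≤ 0 :=
    chain_base3 v hGi (base_low4 g f hκ0 hκ1 hN1 hlow0) hend (by exact_mod_cast hfin)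
  rw [integral_Gf v n c.S g.hn g.hMint] at hfinal
  have h0 := inv_pos.2 ph_zero_pos
  by_contra hc
  push Not at hc
  have := mul_pos h0 hc
  linarith


end Vale.Agent.P226h14
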