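import Vale.Agent.P226h14.Wrap5
import Vale.Agent.P226h15.Cap5J
import Vale.Agent.P226h14.T4a
import Vale.Agent.P226h14.T4b
import Vale.Agent.P226h14.T4c
import Vale.Agent.P226h14.T4d
import Vale.Agent.P226h14.T4e
import Vale.Agent.P226h14.T4f
import Vale.Agent.P226h14.T4g
import Vale.Agent.P226h14.T4h
import Vale.Agent.P226h14.T4i
import Vale.Agent.P226h14.T4j
import Vale.Agent.P226h14.T4l
import Vale.Agent.P226h14.T4k
import Vale.Agent.P226h14.T4w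
import Vale.Agent.P226h14.T4n
import Vale.Agent.P226h14.T4m
import Vale.Agent.P226h14.T4x
import Vale.Agent.P226h14.T4p
import Vale.Agent.P226h14.T4o
import Vale.Agent.P226h14.T3a
import Vale.Agent.P226h14.T4z
import Vale.Agent.P226h14.T4y
import Vale.Agent.P226h14.T4r
import Vale.Agent.P226h14.T4q
import Vale.Agent.P226h14.T3e
import Vale.Agent.P226h14.T3d
import Vale.Agent.P226h14.T3c
import Vale.Agent.P226h14.T3b
import Vale.Agent.P226h14.T4t
import Vale.Agent.P226h14.T4s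
import Vale.Agent.P226h14.T3k
import Vale.Agent.P226h14.T3j
import Vale.Agent.P226h14.T3i
import Vale.Agent.P226h14.T3h
import Vale.Agent.P226h14.T3g
import Vale.Agent.P226h14.T3f
import Vale.Agent.P226h14.T4v
import Vale.Agent.P226h14.T4u

open scoped RealInnerProductSpace

namespace Vale.Agent.P226h14

variable {E : Type*} [NormedAddCommGroup E] [InnerProductSpace ℝ E] [FiniteDimensional ℝ E]
  [MeasurableSpace E] [BorelSpace E]

/-- the tables when the top vertex is big -/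
def D5_B : List TabE := [
  ⟨T4a, 0, 0, 0⟩,
  ⟨T4b, 0, 0, 0⟩,
  ⟨T4c, 0, 0, 0⟩,
  ⟨T4d, 0, 0, 0⟩,
  ⟨T4e, 0, 0, 0⟩,
  ⟨T4f, 0, 0, 0⟩,
  ⟨T4g, 0, 0, 0⟩,
  ⟨T4h, 0, 0, 0⟩]

/-- the tables when the top vertex is small -/
def D5_S : List (ℚ × ℚ × List TabE) := [
  (1/4, 3/10, [⟨T4i, 0, 191/25, 7/13⟩]),
  (3/10, 2/5, [⟨T4j, 0, 1191/169, 3/7⟩]),
  (2/5, 1/2, [⟨T4l, 1/10, 1, 1/3⟩, ⟨T4k, 0, 296/49, 1⟩]),
  (1/2, 3/5, [⟨T4w, 3/20, 9/25, 1/4⟩, ⟨T4n, 1/10, 1, 9/25⟩, ⟨T4m, 0, 47/9, 1⟩]),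
  (3/5, 7/10, [⟨T4x, 3/20, 9/25, 3/17⟩, ⟨T4p, 1/10, 1, 9/25⟩, ⟨T4o, 0, 291/64, 1⟩]),
  (7/10, 4/5, [⟨T3a, 1/5, 4/25, 1/9⟩, ⟨T4z, 1/5, 1/4, 4/25⟩, ⟨T4y, 1/5, 9/25, 1/4⟩, ⟨T4r, 1/10, 1, 9/25⟩, ⟨T4q, 0, 1151/289, 1⟩]),
  (4/5, 9/10, [⟨T3e, 3/20, 9/100, 1/19⟩, ⟨T3d, 1/5, 4/25, 9/100⟩, ⟨T3c, 1/5, 1/4, 4/25⟩, ⟨T3b, 1/5, 9/25, 1/4⟩, ⟨T4t, 1/10, 1, 9/25⟩, ⟨T4s, 0, 284/81, 1⟩]),
  (9/10, 1, [⟨T3k, 3/20, 1/100, 0⟩, ⟨T3j, 1/5, 1/25, 1/100⟩, ⟨T3i, 3/20, 9/100, 1/25⟩, ⟨T3h, 1/5, 4/25, 9/100⟩, ⟨T3g, 1/5, 1/4, 4/25⟩, ⟨T3f, 1/5, 9/25, 1/4⟩, ⟨T4v, 1/5, 1, 9/25⟩, ⟨T4u, 0, 1119/361, 1⟩])]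

theorem D5_Bg : ∀ e ∈ D5_B, Good4 e.c := by
  intro e he
  simp only [D5_B, List.mem_cons, List.not_mem_nil, or_false] at he
  rcases he with rfl | rfl | rfl | rfl | rfl | rfl | rfl | rfl
  exacts [T4a_good, T4b_good, T4c_good, T4d_good, T4e_good, T4f_good, T4g_good, T4h_good]

theorem D5_Sg : ∀ s ∈ D5_S, ∀ e ∈ s.2.2, Good4 e.c := by
  intro s hs e he
  simp only [D5_S, List.mem_cons, List.not_mem_nil, or_false] at hs
  rcases hs with rfl | rfl | rfl | rfl | rfl | rfl | rfl | rfl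
  · simp only [List.mem_cons, List.not_mem_nil, or_false] at he
    subst he
    exact T4i_good
  · simp only [List.mem_cons, List.not_mem_nil, or_false] at he
    subst he
    exact T4j_good
  · simp only [List.mem_cons, List.not_mem_nil, or_false] at he
    rcases he with rfl | rfl
    exacts [T4l_good, T4k_good]
  · simp only [List.mem_cons, List.not_mem_nil, or_false] at he
    rcases he with rfl | rfl | rfl
    exacts [T4w_good, T4n_good, T4m_good]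
  · simp only [List.mem_cons, List.not_mem_nil, or_false] at he
    rcases he with rfl | rfl | rfl
    exacts [T4x_good, T4p_good, T4o_good]
  · simp only [List.mem_cons, List.not_mem_nil, or_false] at he
    rcases he with rfl | rfl | rfl | rfl | rfl
    exacts [T3a_good, T4z_good, T4y_good, T4r_good, T4q_good]
  · simp only [List.mem_cons, List.not_mem_nil, or_false] at he
    rcases he with rfl | rfl | rfl | rfl | rfl | rfl
    exacts [T3e_good, T3d_good, T3c_good, T3b_good, T4t_good, T4s_good]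
  · simp only [List.mem_cons, List.not_mem_nil, or_false] at he
    rcases he with rfl | rfl | rfl | rfl | rfl | rfl | rfl | rfl
    exacts [T3k_good, T3j_good, T3i_good, T3h_good, T3g_good, T3f_good, T4v_good, T4u_good]

theorem D5_Bok : D5_B.all (bigOK 4 (12)) = true := by decide +kernel

theorem D5_Bcov : covers (fun e : TabE => e.c.p) (fun e : TabE => e.c.q) (1 / ((4 : ℕ) : ℚ)) 1 D5_B = true := by decide +kernel

theorem D5_Sok : D5_S.all (rangeOK 4 (12)) = true := by decide +kernel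

theorem D5_Scov : covers (fun s : ℚ × ℚ × List TabE => s.1) (fun s => s.2.1) (1 / ((4 : ℕ) : ℚ)) 1 D5_S = true := by decide +kernel

/-- the deletion step for 5 cells -/
theorem delstep5 : DelStep E 5 := by
  refine delstep_family (N := 4) rfl (by norm_num) (12) (by norm_num) ?_ D5_B D5_Bg D5_Bok D5_Bcov D5_S D5_Sg D5_Sok D5_Scov
  intro w hfix hF i0 hmin
  have h := Vale.Agent.P226h15.cap5_joint w hfix (by simp) (by simpa [muP] using hF) i0 hmin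
  refine h.trans (Finset.card_le_card ?_)
  intro j hj
  obtain ⟨-, hj1, hj2⟩ := Finset.mem_filter.1 hj
  refine Finset.mem_filter.2 ⟨Finset.mem_univ _, hj1, ?_⟩
  have hz : 0 ≤ ‖w i0‖ ^ 2 := by positivity
  push_cast
  linarith

end Vale.Agent.P226h14
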