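import Vale.Agent.P226h14.Wrap5
import Vale.Agent.P226h15.Cap6J
import Vale.Agent.P226h14.T5a
import Vale.Agent.P226h14.T5b
import Vale.Agent.P226h14.T5c
import Vale.Agent.P226h14.T5d
import Vale.Agent.P226h14.T5e
import Vale.Agent.P226h14.T5f
import Vale.Agent.P226h14.T5g
import Vale.Agent.P226h14.T5i
import Vale.Agent.P226h14.T5h
import Vale.Agent.P226h14.T5k
import Vale.Agent.P226h14.T5j
import Vale.Agent.P226h14.T5n
import Vale.Agent.P226h14.T5m
import Vale.Agent.P226h14.T5l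
import Vale.Agent.P226h14.T5q
import Vale.Agent.P226h14.T5p
import Vale.Agent.P226h14.T5o

open scoped RealInnerProductSpace

namespace Vale.Agent.P226h14

variable {E : Type*} [NormedAddCommGroup E] [InnerProductSpace ℝ E] [FiniteDimensional ℝ E]
  [MeasurableSpace E] [BorelSpace E]

/-- the tables when the top vertex is big -/
def D6_B : List TabE := [
  ⟨T5a, 0, 0, 0⟩,
  ⟨T5b, 0, 0, 0⟩,
  ⟨T5c, 0, 0, 0⟩,
  ⟨T5d, 0, 0, 0⟩,
  ⟨T5e, 0, 0, 0⟩]

/-- the tables when the top vertex is small -/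
def D6_S : List (ℚ × ℚ × List TabE) := [
  (1/5, 3/10, [⟨T5f, 0, 709/144, 7/13⟩]),
  (3/10, 2/5, [⟨T5g, 0, 704/169, 3/7⟩]),
  (2/5, 1/2, [⟨T5i, 1/10, 1, 1/3⟩, ⟨T5h, 0, 697/196, 1⟩]),
  (1/2, 3/5, [⟨T5k, 1/10, 1, 1/4⟩, ⟨T5j, 0, 688/225, 1⟩]),
  (3/5, 4/5, [⟨T5n, 3/20, 9/25, 1/9⟩, ⟨T5m, 3/20, 1, 9/25⟩, ⟨T5l, 0, 677/256, 1⟩]),
  (4/5, 1, [⟨T5q, 1/10, 9/25, 0⟩, ⟨T5p, 3/20, 1, 9/25⟩, ⟨T5o, 1/10, 649/324, 1⟩])]

theorem D6_Bg : ∀ e ∈ D6_B, Good4 e.c := by
  intro e he
  simp only [D6_B, List.mem_cons, List.not_mem_nil, or_false] at he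
  rcases he with rfl | rfl | rfl | rfl | rfl
  exacts [T5a_good, T5b_good, T5c_good, T5d_good, T5e_good]

theorem D6_Sg : ∀ s ∈ D6_S, ∀ e ∈ s.2.2, Good4 e.c := by
  intro s hs e he
  simp only [D6_S, List.mem_cons, List.not_mem_nil, or_false] at hs
  rcases hs with rfl | rfl | rfl | rfl | rfl | rfl
  · simp only [List.mem_cons, List.not_mem_nil, or_false] at he
    subst he
    exact T5f_good
  · simp only [List.mem_cons, List.not_mem_nil, or_false] at he
    subst he
    exact T5g_good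
  · simp only [List.mem_cons, List.not_mem_nil, or_false] at he
    rcases he with rfl | rfl
    exacts [T5i_good, T5h_good]
  · simp only [List.mem_cons, List.not_mem_nil, or_false] at he
    rcases he with rfl | rfl
    exacts [T5k_good, T5j_good]
  · simp only [List.mem_cons, List.not_mem_nil, or_false] at he
    rcases he with rfl | rfl | rfl
    exacts [T5n_good, T5m_good, T5l_good]
  · simp only [List.mem_cons, List.not_mem_nil, or_false] at he
    rcases he with rfl | rfl | rfl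
    exacts [T5q_good, T5p_good, T5o_good]

theorem D6_Bok : D6_B.all (bigOK 5 (713/100)) = true := by decide +kernel

theorem D6_Bcov : covers (fun e : TabE => e.c.p) (fun e : TabE => e.c.q) (1 / ((5 : ℕ) : ℚ)) 1 D6_B = true := by decide +kernel

theorem D6_Sok : D6_S.all (rangeOK 5 (713/100)) = true := by decide +kernel

theorem D6_Scov : covers (fun s : ℚ × ℚ × List TabE => s.1) (fun s => s.2.1) (1 / ((5 : ℕ) : ℚ)) 1 D6_S = true := by decide +kernel

/-- the deletion step for 6 cells -/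
theorem delstep6 : DelStep E 6 := by
  refine delstep_family (N := 5) rfl (by norm_num) (713/100) (by norm_num) ?_ D6_B D6_Bg D6_Bok D6_Bcov D6_S D6_Sg D6_Sok D6_Scov
  intro w hfix hF i0 hmin
  have h := Vale.Agent.P226h15.cap6_joint w hfix (by simp) (by simpa [muP] using hF) i0 hmin
  refine h.trans (Finset.card_le_card ?_)
  intro j hj
  obtain ⟨-, hj1, hj2⟩ := Finset.mem_filter.1 hj
  refine Finset.mem_filter.2 ⟨Finset.mem_univ _, hj1, ?_⟩
  have hz : 0 ≤ ‖w i0‖ ^ 2 := by positivity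
  push_cast
  nlinarith

end Vale.Agent.P226h14
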