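import Vale.Agent.P226h14.Step

open MeasureTheory ProbabilityTheory Real Set Filter Topology
open scoped RealInnerProductSpace ENNReal NNReal

namespace Vale.Agent.P226h14

variable {E : Type*} [NormedAddCommGroup E] [InnerProductSpace ℝ E] [FiniteDimensional ℝ E]
  [MeasurableSpace E] [BorelSpace E]

variable {ι : Type*} [Fintype ι]

/-- hyperplanes through the origin are Gaussian null sets -/
lemma hyperplane_null {u : E} (hu : u ≠ 0) : stdGaussian E {y | ⟪u, y⟫ = 0} = 0 := by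
  set s : ℝ := ‖u‖ with hs
  have hs0 : 0 < s := norm_pos_iff.2 hu
  set n : E := s⁻¹ • u with hn
  have hn1 : ‖n‖ = 1 := by
    rw [hn, norm_smul, norm_inv, norm_norm, ← hs]
    field_simp
  have hun : ⟪u, n⟫ = s := by
    rw [hn, inner_smul_right, real_inner_self_eq_norm_sq, ← hs]
    field_simp
  have hnx : ∀ x, ⟪n, x⟫ = s⁻¹ * ⟪u, x⟫ := by
    intro x
    rw [hn, inner_smul_left]
    simp
  have hm : MeasurableSet {y : E | ⟪u, y⟫ = 0} :=
    measurableSet_eq_fun (measurable_inner_left u) measurable_const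
  rw [measure_slice n hn1 hm]
  have hz : ∀ x : E, gaussianReal 0 1 {r | slice n (x, r) ∈ {y : E | ⟪u, y⟫ = 0}} = 0 := by
    intro x
    have hsub : {r | slice n (x, r) ∈ {y : E | ⟪u, y⟫ = 0}} ⊆ {(0 : ℝ)} := by
      intro r hr
      have h1 : ⟪u, slice n (x, r)⟫ = 0 := hr
      rw [inner_slice, hun, hnx] at h1
      have h2 : s * r = 0 := by
        have h3 : (r - s⁻¹ * ⟪u, x⟫) * s = r * s - ⟪u, x⟫ := by
          field_simp
        rw [h3] at h1
        linarith
      have h3 : r = 0 := by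
        rcases mul_eq_zero.1 h2 with h | h
        · exact absurd h hs0.ne'
        · exact h
      exact h3
    have := nullSingletonClass_gaussianReal (μ := 0) (v := 1) one_ne_zero
    exact measure_mono_null hsub (measure_singleton 0)
  rw [lintegral_congr hz]
  simp

/-- The key inequality in terms of the fixed point. -/
theorem delete_ineq [LinearOrder ι] {w : ι → E} {i0 : ι} [Nonempty {l // l ≠ i0}] [Nonempty ι]
    (hfix : ∀ i, mom (vcell w i) = w i)
    (hobt : ∀ i j, i ≠ j → ⟪w i, w j⟫ < 0)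
    (hmin : ∀ j, ‖w i0‖ ≤ ‖w j‖)
    {t T h a0 : ℝ} (ht : 0 < t) (ht3 : 3 ≤ t ^ 2) (htT : t < T) (hh : 0 < h)
    (ha : 0 < a0) (ha1 : a0 < 1) (hc : 1 + 2 * a0 ≤ t ^ 2)
    (hnum : 3 * ph 0 ≤ ph T * ((t ^ 2 - 1 - 2 * a0) / (1 + t ^ 2)) *
      ((T - t) / h * Real.exp (-T ^ 2 * (1 + a0) / (2 * (1 - a0)))) *
      ((Fintype.card {l // l ≠ i0} : ℝ) - t * (Fintype.card {l // l ≠ i0} + 1) / h - 1 / a0)) :
    ‖w i0‖ ^ 2 ≤
      2 * ∫ x in vcell w i0, wid (fun l : {l // l ≠ i0} => w l.1) x ∂(stdGaussian E) := by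
  classical
  set ι' := {l // l ≠ i0} with hι'
  set w' : ι' → E := fun l => w l.1 with hw'
  set z : ℝ := ‖w i0‖ with hz
  have hz0 : 0 < z := by
    rw [hz, norm_pos_iff]
    intro h0
    obtain ⟨l⟩ := (inferInstance : Nonempty ι')
    have := hobt l.1 i0 l.2
    rw [h0, inner_zero_right] at this
    exact lt_irrefl _ this
  have hzz : ⟪w i0, w i0⟫ = z ^ 2 := real_inner_self_eq_norm_sq _
  have hz2 : z ^ 2 ≠ 0 := by positivity
  -- the balance
  have hsumw : w i0 + ∑ l : ι', w l.1 = 0 := by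
    have h1 := sum_mom (isPart_vcell w)
    simp_rw [hfix] at h1
    rw [Fintype.sum_eq_add_sum_subtype_ne w i0] at h1
    exact h1
  set a : ι' → ℝ := fun l => -⟪w l.1, w i0⟫ / z ^ 2 with ha_def
  have hpair : ∀ l : ι', ⟪w l.1, w i0⟫ = -(a l * z ^ 2) := by
    intro l
    simp only [ha_def]
    field_simp
  have ha_pos : ∀ l, 0 < a l := by
    intro l
    apply div_pos _ (by positivity)
    have := hobt l.1 i0 l.2
    linarith
  have ha_nonneg : ∀ l, 0 ≤ a l := fun l => (ha_pos l).le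
  have hsum : ∑ l, a l = 1 := by
    simp only [ha_def]
    rw [← Finset.sum_div, Finset.sum_neg_distrib, div_eq_iff hz2, one_mul]
    have h1 : ∑ l : ι', ⟪w l.1, w i0⟫ = ⟪∑ l : ι', w l.1, w i0⟫ := by
      rw [sum_inner]
    have h2 : ∑ l : ι', w l.1 = - w i0 := by
      rw [eq_neg_iff_add_eq_zero, add_comm]
      exact hsumw
    rw [h1, h2, inner_neg_left, hzz]
    ring
  set v : ι' → E := fun l => ((1 + a l) * z)⁻¹ • (w l.1 + a l • w i0) with hv
  set n : E := z⁻¹ • w i0 with hn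
  have hc_pos : ∀ l, 0 < (1 + a l) * z := fun l => by
    have := ha_pos l
    positivity
  have hn1 : ‖n‖ = 1 := by
    rw [hn, norm_smul, norm_inv, norm_norm, ← hz]
    field_simp
  have hinner_base : ∀ (l : ι') (y : E),
      ⟪w l.1 + a l • w i0, y⟫ = ⟪w l.1, y⟫ + a l * ⟪w i0, y⟫ := by
    intro l y
    rw [inner_add_left, inner_smul_left]
    simp
  have hvx : ∀ l y, ⟪v l, y⟫ = ((1 + a l) * z)⁻¹ * (⟪w l.1, y⟫ + a l * ⟪w i0, y⟫) := by
    intro l y
    simp only [hv]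
    rw [inner_smul_left, hinner_base]
    simp
  have hnx : ∀ y, ⟪n, y⟫ = z⁻¹ * ⟪w i0, y⟫ := by
    intro y
    rw [hn, inner_smul_left]
    simp
  have horth : ∀ j, ⟪v j, n⟫ = 0 := by
    intro j
    have hjn : ⟪w j.1, n⟫ = z⁻¹ * ⟪w j.1, w i0⟫ := by
      rw [hn, inner_smul_right]
    have hin : ⟪w i0, n⟫ = z⁻¹ * z ^ 2 := by
      rw [hn, inner_smul_right, hzz]
    rw [hvx, hjn, hin, hpair]
    ring
  -- the Gram computation
  have hgram : ∀ j l : ι', ⟪w j.1 + a j • w i0, w l.1 + a l • w i0⟫ =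
      ⟪w j.1, w l.1⟫ - a j * a l * z ^ 2 := by
    intro j l
    rw [inner_add_left, inner_add_right, inner_add_right, inner_smul_left, inner_smul_right,
      inner_smul_right, inner_smul_left, hpair j, real_inner_comm (w l.1) (w i0), hpair l, hzz]
    simp
    ring
  have hneg : ∀ j l : ι', j ≠ l → ⟪v j, v l⟫ ≤ 0 := by
    intro j l hjl
    simp only [hv]
    rw [inner_smul_left, inner_smul_right, hgram]
    have hne : j.1 ≠ l.1 := fun h => hjl (Subtype.ext h)
    have h1 := hobt j.1 l.1 hne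
    have h2 : 0 ≤ a j * a l * z ^ 2 := by
      have := ha_pos j
      have := ha_pos l
      positivity
    have h3 : ⟪w j.1, w l.1⟫ - a j * a l * z ^ 2 ≤ 0 := by linarith
    have h4 : 0 ≤ ((1 + a j) * z)⁻¹ := (inv_pos.2 (hc_pos j)).le
    have h5 : 0 ≤ ((1 + a l) * z)⁻¹ := (inv_pos.2 (hc_pos l)).le
    have h6 := mul_nonpos_of_nonneg_of_nonpos h5 h3
    simpa using mul_nonpos_of_nonneg_of_nonpos h4 h6
  have hbal : ∑ j, (1 + a j) • v j = 0 := by
    have h1 : ∀ j, (1 + a j) • v j = z⁻¹ • (w j.1 + a j • w i0) := by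
      intro j
      simp only [hv]
      rw [smul_smul]
      congr 1
      have := ha_pos j
      field_simp
    simp_rw [h1]
    rw [← Finset.smul_sum, Finset.sum_add_distrib, ← Finset.sum_smul, hsum, one_smul]
    have h2 : ∑ l : ι', w l.1 = - w i0 := by
      rw [eq_neg_iff_add_eq_zero, add_comm]
      exact hsumw
    rw [h2]
    simp
  have hvar : ∀ j, 1 - a j ≤ (1 + a j) * ‖v j‖ ^ 2 := by
    intro j
    have h1 : ‖v j‖ ^ 2 = ((1 + a j) * z)⁻¹ ^ 2 * (‖w j.1‖ ^ 2 - a j ^ 2 * z ^ 2) := by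
      simp only [hv]
      rw [norm_smul, mul_pow, norm_inv, Real.norm_eq_abs, abs_of_pos (hc_pos j),
        ← real_inner_self_eq_norm_sq (w j.1 + a j • w i0), hgram, real_inner_self_eq_norm_sq]
      ring
    rw [h1]
    have h2 : z ^ 2 ≤ ‖w j.1‖ ^ 2 := by
      have := hmin j.1
      exact pow_le_pow_left₀ hz0.le this 2
    have h3 := ha_pos j
    have h4 : (1 + a j) * ((1 + a j) * z)⁻¹ ^ 2 * (z ^ 2 - a j ^ 2 * z ^ 2) = 1 - a j := by
      field_simp
      ring
    have h5 : (1 + a j) * ((1 + a j) * z)⁻¹ ^ 2 * (z ^ 2 - a j ^ 2 * z ^ 2) ≤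
        (1 + a j) * ((1 + a j) * z)⁻¹ ^ 2 * (‖w j.1‖ ^ 2 - a j ^ 2 * z ^ 2) := by
      apply mul_le_mul_of_nonneg_left _ (by positivity)
      linarith
    rw [h4] at h5
    linarith [h5]
  set M : E → ℝ := fun x => z⁻¹ * wid w' x with hMdef
  have hMint : Integrable M (stdGaussian E) := (integrable_wid w').const_mul _
  have hM : ∀ x j, (1 + a j) * ⟪v j, x⟫ - a j * ⟪n, x⟫ ≤ M x := by
    intro x j
    have h1 : (1 + a j) * ⟪v j, x⟫ - a j * ⟪n, x⟫ = z⁻¹ * ⟪w j.1, x⟫ := by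
      rw [hvx, hnx]
      have := ha_pos j
      field_simp
      ring
    rw [h1]
    apply mul_le_mul_of_nonneg_left (le_wid w' x j) (inv_pos.2 hz0).le
  have hkey := key_ineq v a n M hn1 horth ha_nonneg hsum hneg hbal hvar hMint hM ht ht3 htT hh
    ha ha1 hc hnum
  -- identify the cell
  set Ct : Set E := {y | ∀ l, ⟪v l, y⟫ ≤ ⟪n, y⟫} with hCt
  have hCtiff : ∀ y, y ∈ Ct ↔ ∀ l : ι', ⟪w l.1, y⟫ ≤ ⟪w i0, y⟫ := by
    intro y
    have h1 : ∀ l : ι', ⟪n, y⟫ - ⟪v l, y⟫ = ((1 + a l) * z)⁻¹ * (⟪w i0, y⟫ - ⟪w l.1, y⟫) := by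
      intro l
      rw [hvx, hnx]
      have := ha_pos l
      field_simp
      ring
    constructor
    · intro hy l
      have h2 : 0 ≤ ⟪n, y⟫ - ⟪v l, y⟫ := by linarith [hy l]
      rw [h1] at h2
      have h3 := inv_pos.2 (hc_pos l)
      have h4 := (mul_nonneg_iff_of_pos_left h3).1 h2
      linarith
    · intro hy l
      have h2 := h1 l
      have h3 := inv_pos.2 (hc_pos l)
      have h4 : 0 ≤ ⟪w i0, y⟫ - ⟪w l.1, y⟫ := by linarith [hy l]
      have h5 := mul_nonneg h3.le h4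
      linarith
  have hmCt : MeasurableSet Ct := by
    have : Ct = ⋂ l, {y | ⟪v l, y⟫ ≤ ⟪n, y⟫} := by
      ext x; simp [hCt]
    rw [this]
    exact MeasurableSet.iInter fun l =>
      measurableSet_le (measurable_inner_left _) (measurable_inner_left _)
  have hsub1 : vcell w i0 ⊆ Ct := by
    intro y hy
    rw [hCtiff]
    intro l
    exact hy.1 l.1
  have hsub2 : Ct \ vcell w i0 ⊆ ⋃ j : ι', {y | ⟪w j.1 - w i0, y⟫ = 0} := by
    intro y hy
    have h1 := (hCtiff y).1 hy.1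
    have h2 : ¬ y ∈ vcell w i0 := hy.2
    have hfirst : ∀ j, ⟪w j, y⟫ ≤ ⟪w i0, y⟫ := by
      intro j
      by_cases hj : j = i0
      · rw [hj]
      · exact h1 ⟨j, hj⟩
    have h3 : ¬ ∀ j, j < i0 → ⟪w j, y⟫ < ⟪w i0, y⟫ := fun hh' => h2 ⟨hfirst, hh'⟩
    push Not at h3
    obtain ⟨j, hj, hj2⟩ := h3
    apply mem_iUnion.2
    refine ⟨⟨j, hj.ne⟩, ?_⟩
    have h4 := hfirst j
    change ⟪w j - w i0, y⟫ = 0
    rw [inner_sub_left]
    linarith
  have hnull : stdGaussian E (Ct \ vcell w i0) = 0 := by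
    apply measure_mono_null hsub2
    apply measure_iUnion_null
    intro j
    apply hyperplane_null
    intro h0
    have h1 : w j.1 = w i0 := sub_eq_zero.1 h0
    have h2 := hobt j.1 i0 j.2
    rw [h1, hzz] at h2
    have : 0 < z ^ 2 := by positivity
    linarith
  have hae : vcell w i0 =ᵐ[stdGaussian E] Ct := by
    rw [ae_eq_set]
    refine ⟨?_, hnull⟩
    rw [diff_eq_empty.2 hsub1]
    simp
  have hval : ∫ x, cellF v n M x ∂(stdGaussian E) =
      z⁻¹ * (z ^ 2 - 2 * ∫ x in vcell w i0, wid w' x ∂(stdGaussian E)) := by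
    have e1 : ∫ x, cellF v n M x ∂(stdGaussian E) =
        ∫ x in vcell w i0, (⟪n, x⟫ - 2 * M x) ∂(stdGaussian E) := by
      simp only [cellF]
      rw [integral_indicator hmCt]
      exact (setIntegral_congr_set hae).symm
    rw [e1]
    have i1 : Integrable (fun x : E => ⟪n, x⟫) (stdGaussian E) := integrable_inner_std n
    have i2 : Integrable (fun x => 2 * M x) (stdGaussian E) := hMint.const_mul 2
    rw [integral_sub i1.integrableOn i2.integrableOn, integral_const_mul]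
    simp only [hMdef]
    rw [integral_const_mul]
    have e2 : ∫ x in vcell w i0, ⟪n, x⟫ ∂(stdGaussian E) = z⁻¹ * z ^ 2 := by
      rw [← inner_mom, hfix, hn, inner_smul_left, hzz]
      simp
    rw [e2]
    ring
  rw [hval] at hkey
  have h9 := inv_pos.2 hz0
  have h10 : z ^ 2 - 2 * ∫ x in vcell w i0, wid w' x ∂(stdGaussian E) ≤ 0 := by
    by_contra hc'
    push Not at hc'
    have := mul_pos h9 hc'
    linarith
  linarith

end Vale.Agent.P226h14
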