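import Vale.Agent.P226h14.Delete

open MeasureTheory ProbabilityTheory Real Set Filter Topology
open scoped RealInnerProductSpace ENNReal NNReal

namespace Vale.Agent.P226h14

variable {E : Type*} [NormedAddCommGroup E] [InnerProductSpace ℝ E] [FiniteDimensional ℝ E]
  [MeasurableSpace E] [BorelSpace E]

lemma ph_two : ph 2 = ph 0 * Real.exp (-2) := by
  have := ph_div_eq 2 1
  simp only [div_one] at this
  rw [this]
  norm_num

lemma exp_bound : Real.exp (80 / 19) ≤ 68 := by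
  have h1 : Real.exp (80 / 19) ^ 19 = Real.exp 1 ^ 80 := by
    rw [← Real.exp_nat_mul, ← Real.exp_nat_mul]
    congr 1
    norm_num
  have h2 : Real.exp 1 ^ 80 ≤ (2.7182818286 : ℝ) ^ 80 :=
    pow_le_pow_left₀ (Real.exp_pos 1).le Real.exp_one_lt_d9.le 80
  have h3 : (2.7182818286 : ℝ) ^ 80 ≤ 68 ^ 19 := by norm_num
  have h4 : Real.exp (80 / 19) ^ 19 ≤ 68 ^ 19 := by
    rw [h1]; exact h2.trans h3
  exact le_of_pow_le_pow_left₀ (by norm_num) (by norm_num) h4

/-- the numerical input -/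
lemma num_ok {N : ℝ} (hN : 12000 ≤ N) :
    3 * ph 0 ≤ ph 2 * (((7 / 4 : ℝ) ^ 2 - 1 - 2 * (1 / 20)) / (1 + (7 / 4 : ℝ) ^ 2)) *
      ((2 - 7 / 4) / (7 / 2) * Real.exp (-2 ^ 2 * (1 + 1 / 20) / (2 * (1 - 1 / 20)))) *
      (N - (7 / 4) * (N + 1) / (7 / 2) - 1 / (1 / 20)) := by
  have h0 := ph_pos 0
  rw [ph_two]
  have e1 : Real.exp (-2 : ℝ) * Real.exp (-2 ^ 2 * (1 + 1 / 20) / (2 * (1 - 1 / 20))) =
      (Real.exp (80 / 19))⁻¹ := by
    rw [← Real.exp_add, ← Real.exp_neg]
    congr 1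
    norm_num
  have hX := exp_bound
  have hX0 := Real.exp_pos (80 / 19 : ℝ)
  have e2 : ph 0 * Real.exp (-2) * (((7 / 4 : ℝ) ^ 2 - 1 - 2 * (1 / 20)) / (1 + (7 / 4 : ℝ) ^ 2)) *
      ((2 - 7 / 4) / (7 / 2) * Real.exp (-2 ^ 2 * (1 + 1 / 20) / (2 * (1 - 1 / 20)))) *
      (N - (7 / 4) * (N + 1) / (7 / 2) - 1 / (1 / 20)) =
      ph 0 * ((Real.exp (-2 : ℝ) * Real.exp (-2 ^ 2 * (1 + 1 / 20) / (2 * (1 - 1 / 20)))) *
        ((157 / 325) * (1 / 14) * ((N - 1) / 2 - 20))) := by
    ring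
  rw [e2, e1]
  rw [mul_comm (3 : ℝ) (ph 0)]
  apply mul_le_mul_of_nonneg_left _ h0.le
  rw [inv_mul_eq_div, le_div_iff₀ hX0]
  nlinarith

variable {ι : Type*} [Fintype ι]

lemma card_ne (α : Type*) [Fintype α] [DecidableEq α] (a : α) :
    Fintype.card {l // l ≠ a} = Fintype.card α - 1 := by
  rw [Fintype.card_subtype_compl, Fintype.card_subtype_eq]

/-- One cell can be removed from any partition with many cells. -/
theorem step_main [LinearOrder ι] (hcard : 12001 ≤ Fintype.card ι) {A : ι → Set E} (hA : IsPart A) :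
    ∃ i0 : ι, ∃ B : {l // l ≠ i0} → Set E, IsPart B ∧ Fval A ≤ Fval B := by
  have hne : Nonempty ι := by
    apply Fintype.card_pos_iff.1
    omega
  have hcard2 : ∀ i0 : ι, Fintype.card {l // l ≠ i0} = Fintype.card ι - 1 := card_ne ι
  have hne2 : ∀ i0 : ι, Nonempty {l // l ≠ i0} := by
    intro i0
    apply Fintype.card_pos_iff.1
    rw [hcard2]
    omega
  by_cases hpos : 0 < Fval A
  · obtain ⟨w, hfix, hle⟩ := exists_fixed hA hpos
    have hFw : Fval (vcell w) = ∑ i, ‖w i‖ ^ 2 := by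
      simp only [Fval]
      apply Finset.sum_congr rfl
      intro i _
      rw [hfix]
    by_cases hobt : ∀ i j, i ≠ j → ⟪w i, w j⟫ < 0
    · obtain ⟨i0, -, hi0⟩ := Finset.exists_min_image Finset.univ (fun l => ‖w l‖)
        Finset.univ_nonempty
      have := hne2 i0
      have hN : (12000 : ℝ) ≤ (Fintype.card {l // l ≠ i0} : ℝ) := by
        rw [hcard2]
        have : 12000 ≤ Fintype.card ι - 1 := by omega
        exact_mod_cast this
      have hkey := delete_ineq (w := w) (i0 := i0) hfix hobt (fun j => hi0 j (Finset.mem_univ j))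
        (t := 7 / 4) (T := 2) (h := 7 / 2) (a0 := 1 / 20) (by norm_num) (by norm_num) (by norm_num)
        (by norm_num) (by norm_num) (by norm_num) (by norm_num) (num_ok hN)
      obtain ⟨B, hB, hF⟩ := step_delete hfix hkey
      exact ⟨i0, B, hB, by linarith⟩
    · push Not at hobt
      obtain ⟨i, j, hij, hacute⟩ := hobt
      have hP := isPart_vcell w
      have hacute' : 0 ≤ ⟪mom (vcell w i), mom (vcell w j)⟫ := by
        rw [hfix, hfix]; exact hacute
      obtain ⟨B, hB, hF⟩ := step_merge hP hij hacute'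
      exact ⟨j, B, hB, by linarith⟩
  · obtain ⟨i0⟩ := hne
    have := hne2 i0
    refine ⟨i0, vcell fun _ => 0, isPart_vcell _, ?_⟩
    have h1 : 0 ≤ Fval (vcell (fun _ : {l // l ≠ i0} => (0 : E))) :=
      Finset.sum_nonneg fun i _ => by positivity
    linarith

lemma isPart_reindex {ι' : Type*} [Fintype ι'] (e : ι' ≃ ι) {B : ι → Set E} (hB : IsPart B) :
    IsPart (fun l => B (e l)) ∧ Fval (fun l => B (e l)) = Fval B := by
  refine ⟨⟨fun l => hB.1 _, ?_, ?_⟩, ?_⟩
  · intro l m hlm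
    exact hB.2.1 (fun h => hlm (e.injective h))
  · rw [← hB.2.2]
    exact e.surjective.iUnion_comp B
  · simp only [Fval]
    exact e.sum_comp (fun i => ‖mom (B i)‖ ^ 2)

/-- Any partition with at least `12000` cells is dominated by one with exactly `12000` cells. -/
theorem main_reduction {k : ℕ} (hk : 12000 ≤ k) {A : Fin k → Set E} (hA : IsPart A) :
    ∃ A' : Fin 12000 → Set E, IsPart A' ∧ Fval A ≤ Fval A' := by
  induction k, hk using Nat.le_induction with
  | base => exact ⟨A, hA, le_rfl⟩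
  | succ k hk ih =>
    obtain ⟨i0, B, hB, hF⟩ := step_main (ι := Fin (k + 1)) (by simp; omega) hA
    have hc : Fintype.card {l // l ≠ i0} = k := by
      rw [card_ne]
      simp
    set e : Fin k ≃ {l // l ≠ i0} := (Fintype.equivFinOfCardEq hc).symm
    obtain ⟨hB', hF'⟩ := isPart_reindex e hB
    obtain ⟨A', hA', hle⟩ := ih hB'
    exact ⟨A', hA', by linarith⟩

end Vale.Agent.P226h14
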