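import Vale.Agent.P226h14.CaseT
import Vale.Agent.P226h14.Main

open MeasureTheory ProbabilityTheory Real Set Filter Topology
open scoped RealInnerProductSpace ENNReal NNReal

namespace Vale.Agent.P226h14

variable {E : Type*} [NormedAddCommGroup E] [InnerProductSpace ℝ E] [FiniteDimensional ℝ E]
  [MeasurableSpace E] [BorelSpace E]

variable {ι : Type*} [Fintype ι]

/-- the deletion of one cell, with shifted functionals -/
lemma step_delete2 [LinearOrder ι] {w : ι → E} {i0 : ι} [Nonempty {l // l ≠ i0}] [Nonempty ι]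
    (hfix : ∀ i, mom (vcell w i) = w i) (τ : {l // l ≠ i0} → ℝ) {S : ℝ}
    (hS : ∑ l, τ l ^ 2 ≤ S)
    (hkey : (1 + S) * ‖w i0‖ ^ 2 ≤
      2 * ∫ x in vcell w i0, wid (fun l : {l // l ≠ i0} => w l.1 + τ l • w i0) x ∂(stdGaussian E)) :
    ∃ B' : {l // l ≠ i0} → Set E, IsPart B' ∧ Fval (vcell w) ≤ Fval B' := by
  classical
  set w' : {l // l ≠ i0} → E := fun l => w l.1 + τ l • w i0 with hw'
  set B := vcell w with hB
  have hBP : IsPart B := isPart_vcell w
  set C : {l // l ≠ i0} → Set E := fun l => B i0 ∩ vcell w' l with hC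
  have hCm : ∀ l, MeasurableSet (C l) := fun l => (hBP.1 i0).inter (measurableSet_vcell w' l)
  have hCd : Pairwise (Function.onFun Disjoint C) := by
    intro l m hlm
    exact (disjoint_vcell w' hlm).mono inter_subset_right inter_subset_right
  have hCu : ⋃ l, C l = B i0 := by
    apply Set.Subset.antisymm
    · exact iUnion_subset fun l => inter_subset_left
    · intro x hx
      obtain ⟨l, hl⟩ := exists_mem_vcell w' x
      exact mem_iUnion.2 ⟨l, hx, hl⟩
  obtain ⟨hP, hF⟩ := reassign hBP i0 hCm hCd hCu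
  refine ⟨_, hP, ?_⟩
  rw [hF]
  have hB0 : mom (B i0) = w i0 := hfix i0
  have hsum : ∑ l : {l // l ≠ i0}, ⟪w' l, mom (C l)⟫ =
      ∫ x in B i0, wid w' x ∂(stdGaussian E) := by
    have h1 := hasSum_integral_iUnion hCm hCd (f := wid w') (μ := stdGaussian E)
      (integrable_wid w').integrableOn
    rw [hCu] at h1
    rw [← (hasSum_fintype _).unique h1]
    apply Finset.sum_congr rfl
    intro l _
    rw [inner_mom]
    apply setIntegral_congr_fun (hCm l)
    intro x hx
    exact (wid_eq_of_mem hx.2).symm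
  have h2 : 2 * ∑ l : {l // l ≠ i0}, ⟪w' l, mom (C l)⟫ - (∑ l, τ l ^ 2) * ‖w i0‖ ^ 2 ≤
      ∑ l : {l // l ≠ i0}, (2 * ⟪mom (B l.1), mom (C l)⟫ + ‖mom (C l)‖ ^ 2) := by
    rw [Finset.mul_sum, Finset.sum_mul, ← Finset.sum_sub_distrib]
    apply Finset.sum_le_sum
    intro l _
    have h3 : ⟪w' l, mom (C l)⟫ = ⟪w l.1, mom (C l)⟫ + τ l * ⟪w i0, mom (C l)⟫ := by
      simp only [hw']
      rw [inner_add_left, inner_smul_left]
      simp
    have h4 : mom (B l.1) = w l.1 := hfix l.1
    rw [h3, h4]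
    have h5 : 0 ≤ ‖mom (C l) - τ l • w i0‖ ^ 2 := by positivity
    rw [norm_sub_sq_real, inner_smul_right, norm_smul, mul_pow, Real.norm_eq_abs, sq_abs,
      real_inner_comm] at h5
    nlinarith
  rw [hsum] at h2
  rw [hB0]
  have hz : 0 ≤ ‖w i0‖ ^ 2 := by positivity
  have h6 := mul_le_mul_of_nonneg_right hS hz
  nlinarith

/-- The geometric data of the smallest vertex of an obtuse fixed point. -/
theorem geo_data [LinearOrder ι] {w : ι → E} {i0 : ι} [Nonempty {l // l ≠ i0}] [Nonempty ι]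
    (hfix : ∀ i, mom (vcell w i) = w i)
    (hobt : ∀ i j, i ≠ j → ⟪w i, w j⟫ < 0)
    (hmin : ∀ j, ‖w i0‖ ≤ ‖w j‖) :
    ∃ (v : {l // l ≠ i0} → E) (a : {l // l ≠ i0} → ℝ) (n : E),
      ∀ (τ : {l // l ≠ i0} → ℝ) (S : ℝ),
        Geo v a τ n (fun x => (‖w i0‖)⁻¹ *
          wid (fun l : {l // l ≠ i0} => w l.1 + τ l • w i0) x) ∧
        (∫ x, cellG v n (fun x => (‖w i0‖)⁻¹ *
          wid (fun l : {l // l ≠ i0} => w l.1 + τ l • w i0) x) S x ∂(stdGaussian E) ≤ 0 →
          (1 + S) * ‖w i0‖ ^ 2 ≤ 2 * ∫ x in vcell w i0,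
            wid (fun l : {l // l ≠ i0} => w l.1 + τ l • w i0) x ∂(stdGaussian E)) := by
  classical
  set ι' := {l // l ≠ i0} with hι'
  set z : ℝ := ‖w i0‖ with hz
  have hz0 : 0 < z := by
    rw [hz, norm_pos_iff]
    intro h0
    obtain ⟨l⟩ := (inferInstance : Nonempty ι')
    have := hobt l.1 i0 l.2
    rw [h0, inner_zero_right] at this
    exact lt_irrefl _ this
  have hzz : ⟪w i0, w i0⟫ = z ^ 2 := real_inner_self_eq_norm_sq _
  have hz2 : z ^ 2 ≠ 0 := by positivity
  -- the balance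
  have hsumw : w i0 + ∑ l : ι', w l.1 = 0 := by
    have h1 := sum_mom (isPart_vcell w)
    simp_rw [hfix] at h1
    rw [Fintype.sum_eq_add_sum_subtype_ne w i0] at h1
    exact h1
  set a : ι' → ℝ := fun l => -⟪w l.1, w i0⟫ / z ^ 2 with ha_def
  have hpair : ∀ l : ι', ⟪w l.1, w i0⟫ = -(a l * z ^ 2) := by
    intro l
    simp only [ha_def]
    field_simp
  have ha_pos : ∀ l, 0 < a l := by
    intro l
    apply div_pos _ (by positivity)
    have := hobt l.1 i0 l.2
    linarith
  have hsum : ∑ l, a l = 1 := by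
    simp only [ha_def]
    rw [← Finset.sum_div, Finset.sum_neg_distrib, div_eq_iff hz2, one_mul]
    have h1 : ∑ l : ι', ⟪w l.1, w i0⟫ = ⟪∑ l : ι', w l.1, w i0⟫ := by
      rw [sum_inner]
    have h2 : ∑ l : ι', w l.1 = - w i0 := by
      rw [eq_neg_iff_add_eq_zero, add_comm]
      exact hsumw
    rw [h1, h2, inner_neg_left, hzz]
    ring
  set v : ι' → E := fun l => ((1 + a l) * z)⁻¹ • (w l.1 + a l • w i0) with hv
  set n : E := z⁻¹ • w i0 with hn
  have hc_pos : ∀ l, 0 < (1 + a l) * z := fun l => by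
    have := ha_pos l
    positivity
  have hn1 : ‖n‖ = 1 := by
    rw [hn, norm_smul, norm_inv, norm_norm, ← hz]
    field_simp
  have hinner_base : ∀ (l : ι') (y : E),
      ⟪w l.1 + a l • w i0, y⟫ = ⟪w l.1, y⟫ + a l * ⟪w i0, y⟫ := by
    intro l y
    rw [inner_add_left, inner_smul_left]
    simp
  have hvx : ∀ l y, ⟪v l, y⟫ = ((1 + a l) * z)⁻¹ * (⟪w l.1, y⟫ + a l * ⟪w i0, y⟫) := by
    intro l y
    simp only [hv]
    rw [inner_smul_left, hinner_base]
    simp
  have hnx : ∀ y, ⟪n, y⟫ = z⁻¹ * ⟪w i0, y⟫ := by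
    intro y
    rw [hn, inner_smul_left]
    simp
  have horth : ∀ j, ⟪v j, n⟫ = 0 := by
    intro j
    have hjn : ⟪w j.1, n⟫ = z⁻¹ * ⟪w j.1, w i0⟫ := by
      rw [hn, inner_smul_right]
    have hin : ⟪w i0, n⟫ = z⁻¹ * z ^ 2 := by
      rw [hn, inner_smul_right, hzz]
    rw [hvx, hjn, hin, hpair]
    ring
  -- the Gram computation
  have hgram : ∀ j l : ι', ⟪w j.1 + a j • w i0, w l.1 + a l • w i0⟫ =
      ⟪w j.1, w l.1⟫ - a j * a l * z ^ 2 := by
    intro j l
    rw [inner_add_left, inner_add_right, inner_add_right, inner_smul_left, inner_smul_right,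
      inner_smul_right, inner_smul_left, hpair j, real_inner_comm (w l.1) (w i0), hpair l, hzz]
    simp
    ring
  have hneg : ∀ j l : ι', j ≠ l → ⟪v j, v l⟫ ≤ 0 := by
    intro j l hjl
    simp only [hv]
    rw [inner_smul_left, inner_smul_right, hgram]
    have hne : j.1 ≠ l.1 := fun h => hjl (Subtype.ext h)
    have h1 := hobt j.1 l.1 hne
    have h2 : 0 ≤ a j * a l * z ^ 2 := by
      have := ha_pos j
      have := ha_pos l
      positivity
    have h3 : ⟪w j.1, w l.1⟫ - a j * a l * z ^ 2 ≤ 0 := by linarith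
    have h4 : 0 ≤ ((1 + a j) * z)⁻¹ := (inv_pos.2 (hc_pos j)).le
    have h5 : 0 ≤ ((1 + a l) * z)⁻¹ := (inv_pos.2 (hc_pos l)).le
    have h6 := mul_nonpos_of_nonneg_of_nonpos h5 h3
    simpa using mul_nonpos_of_nonneg_of_nonpos h4 h6
  have hbal : ∑ j, (1 + a j) • v j = 0 := by
    have h1 : ∀ j, (1 + a j) • v j = z⁻¹ • (w j.1 + a j • w i0) := by
      intro j
      simp only [hv]
      rw [smul_smul]
      congr 1
      have := ha_pos j
      field_simp
    simp_rw [h1]
    rw [← Finset.smul_sum, Finset.sum_add_distrib, ← Finset.sum_smul, hsum, one_smul]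
    have h2 : ∑ l : ι', w l.1 = - w i0 := by
      rw [eq_neg_iff_add_eq_zero, add_comm]
      exact hsumw
    rw [h2]
    simp
  have hvar : ∀ j, 1 - a j ≤ (1 + a j) * ‖v j‖ ^ 2 := by
    intro j
    have h1 : ‖v j‖ ^ 2 = ((1 + a j) * z)⁻¹ ^ 2 * (‖w j.1‖ ^ 2 - a j ^ 2 * z ^ 2) := by
      simp only [hv]
      rw [norm_smul, mul_pow, norm_inv, Real.norm_eq_abs, abs_of_pos (hc_pos j),
        ← real_inner_self_eq_norm_sq (w j.1 + a j • w i0), hgram, real_inner_self_eq_norm_sq]
      ring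
    rw [h1]
    have h2 : z ^ 2 ≤ ‖w j.1‖ ^ 2 := by
      have := hmin j.1
      exact pow_le_pow_left₀ hz0.le this 2
    have h3 := ha_pos j
    have h4 : (1 + a j) * ((1 + a j) * z)⁻¹ ^ 2 * (z ^ 2 - a j ^ 2 * z ^ 2) = 1 - a j := by
      field_simp
      ring
    have h5 : (1 + a j) * ((1 + a j) * z)⁻¹ ^ 2 * (z ^ 2 - a j ^ 2 * z ^ 2) ≤
        (1 + a j) * ((1 + a j) * z)⁻¹ ^ 2 * (‖w j.1‖ ^ 2 - a j ^ 2 * z ^ 2) := by
      apply mul_le_mul_of_nonneg_left _ (by positivity)
      linarith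
    rw [h4] at h5
    linarith [h5]
  refine ⟨v, a, n, fun τ S => ?_⟩
  set w' : ι' → E := fun l => w l.1 + τ l • w i0 with hw'
  set M : E → ℝ := fun x => z⁻¹ * wid w' x with hMdef
  have hMint : Integrable M (stdGaussian E) := (integrable_wid w').const_mul _
  have hM : ∀ x j, (1 + a j) * ⟪v j, x⟫ - (a j - τ j) * ⟪n, x⟫ ≤ M x := by
    intro x j
    have h1 : (1 + a j) * ⟪v j, x⟫ - (a j - τ j) * ⟪n, x⟫ = z⁻¹ * ⟪w' j, x⟫ := by
      have h2 : ⟪w' j, x⟫ = ⟪w j.1, x⟫ + τ j * ⟪w i0, x⟫ := by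
        simp only [hw']
        rw [inner_add_left, inner_smul_left]
        simp
      rw [hvx, hnx, h2]
      have := ha_pos j
      field_simp
      ring
    rw [h1]
    apply mul_le_mul_of_nonneg_left (le_wid w' x j) (inv_pos.2 hz0).le
  refine ⟨⟨hn1, horth, ha_pos, hsum, hneg, hbal, hvar, hMint, hM⟩, ?_⟩
  intro hkey
  -- identify the cell
  set Ct : Set E := {y | ∀ l, ⟪v l, y⟫ ≤ ⟪n, y⟫} with hCt
  have hCtiff : ∀ y, y ∈ Ct ↔ ∀ l : ι', ⟪w l.1, y⟫ ≤ ⟪w i0, y⟫ := by
    intro y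
    have h1 : ∀ l : ι', ⟪n, y⟫ - ⟪v l, y⟫ = ((1 + a l) * z)⁻¹ * (⟪w i0, y⟫ - ⟪w l.1, y⟫) := by
      intro l
      rw [hvx, hnx]
      have := ha_pos l
      field_simp
      ring
    constructor
    · intro hy l
      have h2 : 0 ≤ ⟪n, y⟫ - ⟪v l, y⟫ := by linarith [hy l]
      rw [h1] at h2
      have h3 := inv_pos.2 (hc_pos l)
      have h4 := (mul_nonneg_iff_of_pos_left h3).1 h2
      linarith
    · intro hy l
      have h2 := h1 l
      have h3 := inv_pos.2 (hc_pos l)
      have h4 : 0 ≤ ⟪w i0, y⟫ - ⟪w l.1, y⟫ := by linarith [hy l]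
      have h5 := mul_nonneg h3.le h4
      linarith
  have hmCt : MeasurableSet Ct := measurableSet_cellG v n
  have hsub1 : vcell w i0 ⊆ Ct := by
    intro y hy
    rw [hCtiff]
    intro l
    exact hy.1 l.1
  have hsub2 : Ct \ vcell w i0 ⊆ ⋃ j : ι', {y | ⟪w j.1 - w i0, y⟫ = 0} := by
    intro y hy
    have h1 := (hCtiff y).1 hy.1
    have h2 : ¬ y ∈ vcell w i0 := hy.2
    have hfirst : ∀ j, ⟪w j, y⟫ ≤ ⟪w i0, y⟫ := by
      intro j
      by_cases hj : j = i0
      · rw [hj]
      · exact h1 ⟨j, hj⟩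
    have h3 : ¬ ∀ j, j < i0 → ⟪w j, y⟫ < ⟪w i0, y⟫ := fun hh' => h2 ⟨hfirst, hh'⟩
    push Not at h3
    obtain ⟨j, hj, hj2⟩ := h3
    apply mem_iUnion.2
    refine ⟨⟨j, hj.ne⟩, ?_⟩
    have h4 := hfirst j
    change ⟪w j - w i0, y⟫ = 0
    rw [inner_sub_left]
    linarith
  have hnull : stdGaussian E (Ct \ vcell w i0) = 0 := by
    apply measure_mono_null hsub2
    apply measure_iUnion_null
    intro j
    apply hyperplane_null
    intro h0
    have h1 : w j.1 = w i0 := sub_eq_zero.1 h0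
    have h2 := hobt j.1 i0 j.2
    rw [h1, hzz] at h2
    have : 0 < z ^ 2 := by positivity
    linarith
  have hae : vcell w i0 =ᵐ[stdGaussian E] Ct := by
    rw [ae_eq_set]
    refine ⟨?_, hnull⟩
    rw [Set.sdiff_eq_empty.2 hsub1]
    simp
  have hval : ∫ x, cellG v n M S x ∂(stdGaussian E) =
      z⁻¹ * ((1 + S) * z ^ 2 - 2 * ∫ x in vcell w i0, wid w' x ∂(stdGaussian E)) := by
    have e1 : ∫ x, cellG v n M S x ∂(stdGaussian E) =
        ∫ x in vcell w i0, ((1 + S) * ⟪n, x⟫ - 2 * M x) ∂(stdGaussian E) := by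
      simp only [cellG]
      rw [integral_indicator hmCt]
      exact (setIntegral_congr_set hae).symm
    rw [e1]
    have i1 : Integrable (fun x : E => (1 + S) * ⟪n, x⟫) (stdGaussian E) :=
      (integrable_inner_std n).const_mul _
    have i2 : Integrable (fun x => 2 * M x) (stdGaussian E) := hMint.const_mul 2
    rw [integral_sub i1.integrableOn i2.integrableOn, integral_const_mul, integral_const_mul]
    simp only [hMdef]
    rw [integral_const_mul]
    have e2 : ∫ x in vcell w i0, ⟪n, x⟫ ∂(stdGaussian E) = z⁻¹ * z ^ 2 := by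
      rw [← inner_mom, hfix, hn, inner_smul_left, hzz]
      simp
    rw [e2]
    ring
  rw [hval] at hkey
  have h9 := inv_pos.2 hz0
  by_contra hc'
  push Not at hc'
  have := mul_pos h9 (sub_pos.2 hc')
  linarith

/-- cover check for the largest coefficient -/
def coverOK : ℚ → List Case → Bool
  | _, [] => false
  | lo, c :: cs => decide (c.p ≤ lo) && (decide (1 ≤ c.q) || coverOK c.q cs)

lemma coverOK_find : ∀ (L : List Case) (lo : ℚ) {x : ℝ}, coverOK lo L = true → (lo : ℝ) ≤ x →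
    x < 1 → ∃ c ∈ L, (c.p : ℝ) ≤ x ∧ x < c.q := by
  intro L
  induction L with
  | nil =>
    intro lo x h
    simp [coverOK] at h
  | cons c cs ih =>
    intro lo x h h1 h2
    simp only [coverOK, Bool.and_eq_true, Bool.or_eq_true, decide_eq_true_eq] at h
    have hp : (c.p : ℝ) ≤ lo := by exact_mod_cast h.1
    by_cases hxq : x < c.q
    · exact ⟨c, List.mem_cons_self, hp.trans h1, hxq⟩
    · rcases h.2 with h3 | h3
      · have : (1 : ℝ) ≤ c.q := by exact_mod_cast h3
        linarith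
      · obtain ⟨c', hc', h4⟩ := ih _ h3 (not_lt.1 hxq) h2
        exact ⟨c', List.mem_cons_of_mem _ hc', h4⟩

/-- the family level checks of a table -/
def famOK (c : Case) : Bool :=
  decide (c.τ1 ^ 2 + ((c.N : ℚ) - 1) * c.τr ^ 2 ≤ c.S) &&
  (!c.mono || decide (c.τr = 0)) &&
  (decide (c.q ≤ c.cap) || decide (1 - c.p ≤ c.cap))

/-- One cell can be removed, given a family of tables for the obtuse case. -/
theorem family_step [LinearOrder ι] (L : List Case) (qtop lo : ℚ)
    (hall : ∀ c ∈ L, caseOK c qtop = true ∧ famOK c = true ∧ (qtop : ℝ) ≤ Qt c.Ttop)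
    (hcov : coverOK lo L = true) (hcard : 3 ≤ Fintype.card ι)
    (hlo : (lo : ℝ) * ((Fintype.card ι : ℝ) - 1) ≤ 1)
    (hfit : ∀ c ∈ L, Fintype.card ι - 1 = c.N ∨ (c.N ≤ Fintype.card ι - 1 ∧ c.mono = true))
    {A : ι → Set E} (hA : IsPart A) :
    ∃ i0 : ι, ∃ B : {l // l ≠ i0} → Set E, IsPart B ∧ Fval A ≤ Fval B := by
  classical
  have hne : Nonempty ι := by
    apply Fintype.card_pos_iff.1
    omega
  have hcard2 : ∀ i0 : ι, Fintype.card {l // l ≠ i0} = Fintype.card ι - 1 := card_ne ι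
  have hne2 : ∀ i0 : ι, Nonempty {l // l ≠ i0} := by
    intro i0
    apply Fintype.card_pos_iff.1
    rw [hcard2]
    omega
  by_cases hpos : 0 < Fval A
  · obtain ⟨w, hfix, hle⟩ := exists_fixed hA hpos
    have hFw : Fval (vcell w) = ∑ i, ‖w i‖ ^ 2 := by
      simp only [Fval]
      apply Finset.sum_congr rfl
      intro i _
      rw [hfix]
    by_cases hobt : ∀ i j, i ≠ j → ⟪w i, w j⟫ < 0
    · obtain ⟨i0, -, hi0⟩ := Finset.exists_min_image Finset.univ (fun l => ‖w l‖)
        Finset.univ_nonempty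
      have := hne2 i0
      obtain ⟨v, a, n, hgeo⟩ := geo_data (w := w) (i0 := i0) hfix hobt
        (fun j => hi0 j (Finset.mem_univ j))
      have g0 := (hgeo (fun _ => 0) 0).1
      -- the largest coefficient
      obtain ⟨j1, -, hj1⟩ := Finset.exists_max_image Finset.univ a Finset.univ_nonempty
      have hj1' : ∀ l, a l ≤ a j1 := fun l => hj1 l (Finset.mem_univ l)
      have hcard' : (Fintype.card {l // l ≠ i0} : ℝ) = (Fintype.card ι : ℝ) - 1 := by
        rw [hcard2]
        have : 1 ≤ Fintype.card ι := by omega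
        push_cast [Nat.cast_sub this]
        ring
      -- pairs of coefficients
      have hpair : ∀ l, l ≠ j1 → a l + a j1 ≤ 1 := by
        intro l hl
        rw [← g0.hsum, ← Finset.add_sum_erase _ _ (Finset.mem_univ j1),
          ← Finset.add_sum_erase (Finset.univ.erase j1) _ (Finset.mem_erase.2 ⟨hl, Finset.mem_univ l⟩)]
        have : 0 ≤ ∑ x ∈ (Finset.univ.erase j1).erase l, a x :=
          Finset.sum_nonneg fun x _ => (g0.ha x).le
        linarith
      have hcard3 : 2 ≤ Fintype.card {l // l ≠ i0} := by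
        rw [hcard2]
        omega
      obtain ⟨l0, hl0⟩ : ∃ l0, l0 ≠ j1 := by
        have : 1 < Fintype.card {l // l ≠ i0} := by omega
        obtain ⟨x, y, hxy⟩ := Fintype.exists_pair_of_one_lt_card this
        by_cases hx : x = j1
        · exact ⟨y, fun h => hxy (hx.trans h.symm)⟩
        · exact ⟨x, hx⟩
      have ha1 : a j1 < 1 := by
        have := hpair l0 hl0
        have := g0.ha l0
        linarith
      have hlow : (lo : ℝ) ≤ a j1 := by
        have h1 : ∑ l, a l ≤ (Fintype.card {l // l ≠ i0} : ℝ) * a j1 := by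
          have := Finset.sum_le_card_nsmul Finset.univ a (a j1) (fun l _ => hj1' l)
          simpa using this
        rw [g0.hsum, hcard'] at h1
        have hN : (0 : ℝ) < (Fintype.card ι : ℝ) - 1 := by
          have : (3 : ℝ) ≤ Fintype.card ι := by exact_mod_cast hcard
          linarith
        by_contra hc
        push Not at hc
        have h2 : a j1 * ((Fintype.card ι : ℝ) - 1) < lo * ((Fintype.card ι : ℝ) - 1) :=
          mul_lt_mul_of_pos_right hc hN
        nlinarith
      obtain ⟨c, hcL, hcp, hcq⟩ := coverOK_find L lo hcov hlow ha1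
      obtain ⟨hc1, hc2, hc3⟩ := hall c hcL
      simp only [famOK, Bool.and_eq_true, Bool.or_eq_true, decide_eq_true_eq,
        Bool.not_eq_true'] at hc2
      obtain ⟨⟨hS, hmono⟩, hcap⟩ := hc2
      set τ : {l // l ≠ i0} → ℝ := fun l => if l = j1 then (c.τ1 : ℝ) else c.τr with hτ
      have hfit' : Fintype.card {l // l ≠ i0} = c.N ∨
          (c.N ≤ Fintype.card {l // l ≠ i0} ∧ c.mono = true) := by
        rw [hcard2]
        exact hfit c hcL
      have hF : Fit c a τ j1 := by
        refine ⟨hcp, hcq, by simp [hτ], fun l hl => by simp [hτ, hl], ?_, hfit'⟩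
        intro l hl
        rcases hcap with h | h
        · have h1 : (c.q : ℝ) ≤ c.cap := by exact_mod_cast h
          linarith [hj1' l]
        · have h1 : (1 : ℝ) - c.p ≤ c.cap := by exact_mod_cast h
          linarith [hpair l hl]
      obtain ⟨g, hfinal⟩ := hgeo τ c.S
      have hint := case_sound g hF hc1 hc3
      have hkey := hfinal hint
      have hSum : ∑ l, τ l ^ 2 ≤ (c.S : ℝ) := by
        have h1 : ∑ l, τ l ^ 2 = (c.τ1 : ℝ) ^ 2 +
            ((Fintype.card {l // l ≠ i0} : ℝ) - 1) * (c.τr : ℝ) ^ 2 := by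
          have h2 : ∀ l, τ l ^ 2 = (c.τr : ℝ) ^ 2 +
              (if l = j1 then (c.τ1 : ℝ) ^ 2 - (c.τr : ℝ) ^ 2 else 0) := by
            intro l
            simp only [hτ]
            split_ifs <;> ring
          simp_rw [h2]
          rw [Finset.sum_add_distrib, Finset.sum_ite_eq' Finset.univ j1]
          simp
          ring
        rw [h1]
        have hS' : (c.τ1 : ℝ) ^ 2 + ((c.N : ℝ) - 1) * (c.τr : ℝ) ^ 2 ≤ c.S := by
          exact_mod_cast hS
        rcases hfit' with h | ⟨_, h⟩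
        · rw [h]
          exact hS'
        · rcases hmono with h3 | h3
          · rw [h] at h3
            exact absurd h3 (by simp)
          · have h4 : (c.τr : ℝ) = 0 := by exact_mod_cast h3
            rw [h4] at hS' ⊢
            simpa using hS'
      obtain ⟨B, hB, hFv⟩ := step_delete2 hfix τ hSum hkey
      exact ⟨i0, B, hB, by linarith⟩
    · push Not at hobt
      obtain ⟨i, j, hij, hacute⟩ := hobt
      have hP := isPart_vcell w
      have hacute' : 0 ≤ ⟪mom (vcell w i), mom (vcell w j)⟫ := by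
        rw [hfix, hfix]; exact hacute
      obtain ⟨B, hB, hF⟩ := step_merge hP hij hacute'
      exact ⟨j, B, hB, by linarith⟩
  · obtain ⟨i0⟩ := hne
    have := hne2 i0
    refine ⟨i0, vcell fun _ => 0, isPart_vcell _, ?_⟩
    have h1 : 0 ≤ Fval (vcell (fun _ : {l // l ≠ i0} => (0 : E))) :=
      Finset.sum_nonneg fun i _ => by positivity
    linarith

end Vale.Agent.P226h14
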