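import Vale.Agent.P226h14.Check3
import Vale.Agent.P226h14.Delete2

open MeasureTheory ProbabilityTheory Real Set Filter Topology
open scoped RealInnerProductSpace ENNReal NNReal

namespace Vale.Agent.P226h14

variable {E : Type*} [NormedAddCommGroup E] [InnerProductSpace ℝ E] [FiniteDimensional ℝ E]
  [MeasurableSpace E] [BorelSpace E]

variable {ι : Type*} [Fintype ι]

/-- the base bound of a table -/
lemma base_low [Nonempty ι] [DecidableEq ι] {v : ι → E} {a τ : ι → ℝ} {n : E} {M : E → ℝ}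
    {j1 : ι} (g : Geo v a τ n M) {c : Case3} (f : Fit3 c a τ j1) (hκ0 : 0 ≤ c.κ) (hN0 : 0 < c.N)
    (hlow0 : 0 ≤ lowg c) :
    ∀ᵐ x ∂(stdGaussian E), Gf v n M c.S x ≤ ((lowg c : ℚ) : ℝ) := by
  obtain ⟨hae, -⟩ := integrable_slice n g.hn (integrable_cellG v n c.S g.hMint)
  have hκ0' : (0 : ℝ) ≤ c.κ := by exact_mod_cast hκ0
  have hN0' : (0 : ℝ) < c.N := by exact_mod_cast hN0
  set ε : ℝ := (1 - (c.τ1 : ℝ) - ((c.N : ℝ) - 1) * c.τ0 - c.κ * (1 - c.q)) / (c.N : ℝ) with hε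
  have hlowv : ((lowg c : ℚ) : ℝ) = 1 + (c.S : ℝ) + 2 * ε := by
    simp only [lowg, hε]
    push_cast
    ring
  have hsumτ : ∑ j, τ j = (c.τ1 : ℝ) + ((c.N : ℝ) - 1) * c.τ0 + c.κ * (1 - a j1) := by
    have h1 : ∀ j, τ j = ((c.τ0 : ℝ) + c.κ * a j) +
        (if j = j1 then (c.τ1 : ℝ) - (c.τ0 + c.κ * a j1) else 0) := by
      intro j
      by_cases hj : j = j1
      · rw [if_pos hj, hj, f.hτ1]
        ring
      · rw [if_neg hj, f.hτr j hj]
        ring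
    simp_rw [h1]
    rw [Finset.sum_add_distrib, Finset.sum_add_distrib, ← Finset.mul_sum, g.hsum,
      Finset.sum_ite_eq' Finset.univ j1]
    simp only [Finset.sum_const, Finset.card_univ, nsmul_eq_mul, f.hN, Finset.mem_univ, if_true]
    ring
  have hM' : ∀ y, 0 ≤ ⟪n, y⟫ → -ε * ⟪n, y⟫ ≤ M y := by
    intro y hy
    have h1 : ∑ j, ((1 + a j) * ⟪v j, y⟫ - (a j - τ j) * ⟪n, y⟫) ≤ ∑ _j : ι, M y :=
      Finset.sum_le_sum fun j _ => g.hM y j
    have h2 : ∑ j, (1 + a j) * ⟪v j, y⟫ = 0 := by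
      have := congrArg (fun z => ⟪z, y⟫) g.hbal
      simp only [sum_inner, inner_smul_left, inner_zero_left] at this
      simpa using this
    rw [Finset.sum_sub_distrib, h2, ← Finset.sum_mul, Finset.sum_sub_distrib, g.hsum, hsumτ] at h1
    simp only [Finset.sum_const, Finset.card_univ, nsmul_eq_mul, f.hN] at h1
    have h3 : (c.N : ℝ) * ε = 1 - (c.τ1 : ℝ) - ((c.N : ℝ) - 1) * c.τ0 - c.κ * (1 - c.q) := by
      rw [hε]
      field_simp
    have h4 : 0 ≤ ((c.κ : ℝ) * ((c.q : ℝ) - a j1)) * ⟪n, y⟫ :=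
      mul_nonneg (mul_nonneg hκ0' (by linarith [f.hq])) hy
    have h5 : (c.N : ℝ) * (-ε * ⟪n, y⟫) ≤ (c.N : ℝ) * M y := by
      have e : (c.N : ℝ) * (-ε * ⟪n, y⟫) = -(((c.N : ℝ) * ε) * ⟪n, y⟫) := by ring
      rw [e, h3]
      nlinarith
    exact le_of_mul_le_mul_left h5 hN0'
  filter_upwards [hae] with x hx
  obtain ⟨j, -, hj⟩ := Finset.exists_max_image Finset.univ (fun l => ⟪v l, x⟫)
    Finset.univ_nonempty
  have hj' : ∀ l, ⟪v l, x⟫ ≤ ⟪v j, x⟫ := fun l => hj l (Finset.mem_univ l)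
  have hu0 := top_nonneg (fun l => (g.ha l).le) g.hbal hj'
  have h0 : 0 ≤ 1 + (c.S : ℝ) + 2 * ε := by
    rw [← hlowv]
    exact_mod_cast hlow0
  have := inner_base v n M c.S g.hn g.horth x j hj' hx hM' hu0 h0
  rw [hlowv]
  exact this

/-- the chain from any level down to the base -/
theorem chk3_sound [Nonempty ι] [DecidableEq ι] {v : ι → E} {a τ : ι → ℝ} {n : E} {M : E → ℝ}
    {j1 : ι} (g : Geo v a τ n M) {c : Case3} (f : Fit3 c a τ j1)
    (hl0 : ∃ l, l ≠ j1)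
    (hc0 : 0 ≤ 1 + c.S - 2 * c.τ1) (hc1 : 1 + c.S - 2 * c.τ1 < 2)
    (hd0 : 0 ≤ 1 + c.S - 2 * c.τ0) (hd1 : 1 + c.S - 2 * c.τ0 < 2)
    (hq1 : c.q ≤ 1) (hcap1 : c.cap < 1) (hp0 : 0 ≤ c.p) (hκ0 : 0 ≤ c.κ) (hκ1 : c.κ ≤ 1)
    (hN0 : 0 < c.N) (hlow0 : 0 ≤ lowg c) :
    ∀ (rows : List Row3) (T LT R' : ℚ), chk3 c T LT R' rows = true →
      Claim3 v (Gf v n M c.S) (lev j1 (T : ℝ) (LT : ℝ)) R' →
      ∫ x, Gf v n M c.S x ∂(stdGaussian E) ≤ 0 := by
  intro rows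
  induction rows with
  | nil =>
    intro T LT R' hchk hclaim
    simp only [chk3, decide_eq_true_eq] at hchk
    have hGi := integrable_Gf v n c.S g.hn g.hMint
    refine chain_base3 v hGi (base_low g f hκ0 hN0 hlow0) hclaim ?_
    exact_mod_cast hchk
  | cons r rs ih =>
    intro T LT R' hchk hclaim
    simp only [chk3, Bool.and_eq_true] at hchk
    exact ih _ _ _ hchk.2 (row_step3 g f hl0 hc0 hc1 hd0 hd1 hq1 hcap1 hp0 hκ0 hκ1 hchk.1 hclaim)

/-- The main inequality from a table. -/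
theorem case3_sound [Nonempty ι] [DecidableEq ι] {v : ι → E} {a τ : ι → ℝ} {n : E} {M : E → ℝ}
    {j1 : ι} (g : Geo v a τ n M) {c : Case3} (f : Fit3 c a τ j1) (hl0 : ∃ l, l ≠ j1)
    (hok : caseOK3 c = true) :
    ∫ x, cellG v n M c.S x ∂(stdGaussian E) ≤ 0 := by
  simp only [caseOK3, Bool.and_eq_true, decide_eq_true_eq] at hok
  obtain ⟨⟨⟨⟨⟨⟨⟨⟨⟨⟨⟨⟨⟨⟨⟨hp0, hq1⟩, hcap0⟩, hcap1⟩, hκ0⟩, hκ1⟩, hT0⟩, hN0⟩, hc0⟩, hc1⟩, hd0⟩, hd1⟩,
    ht1⟩, ht2⟩, hlow0⟩, hchk⟩ := hok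
  have hT0' : (0 : ℝ) < c.Ttop := by exact_mod_cast hT0
  have hc1' : (1 + (c.S : ℝ) - 2 * c.τ1) < 2 := by exact_mod_cast hc1
  have hd1' : (1 + (c.S : ℝ) - 2 * c.τ0) < 2 := by exact_mod_cast hd1
  have hc0' : (0 : ℝ) ≤ 1 + (c.S : ℝ) - 2 * c.τ1 := by exact_mod_cast hc0
  have hd0' : (0 : ℝ) ≤ 1 + (c.S : ℝ) - 2 * c.τ0 := by exact_mod_cast hd0
  have hκ0' : (0 : ℝ) ≤ c.κ := by exact_mod_cast hκ0
  have hκ1' : (c.κ : ℝ) ≤ 1 := by exact_mod_cast hκ1
  have hGi := integrable_Gf v n c.S g.hn g.hMint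
  obtain ⟨hae, -⟩ := integrable_slice n g.hn (integrable_cellG v n c.S g.hMint)
  have htop : Claim3 v (Gf v n M c.S) (lev j1 ((c.Ttop : ℚ) : ℝ) ((c.Ttop : ℚ) : ℝ)) ((0 : ℚ) : ℝ) := by
    have h0 : lev j1 ((c.Ttop : ℚ) : ℝ) ((c.Ttop : ℚ) : ℝ) = fun _ => ((c.Ttop : ℚ) : ℝ) := by
      funext m
      simp [lev]
    rw [h0]
    have := chain_top v (T := c.Ttop) hGi (by
      filter_upwards [hae] with x hx j hj hjT
      have hG := inner_bound2 v a τ n M c.S g.hn g.horth g.hM x j hj hx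
      have haj := g.ha j
      have ht1' : 1 + (c.S : ℝ) - 2 * c.τ1 + 2 * c.q ≤ (2 - (1 + (c.S : ℝ) - 2 * c.τ1)) *
          (c.Ttop : ℝ) ^ 2 := by
        exact_mod_cast ht1
      have ht2' : 1 + (c.S : ℝ) - 2 * c.τ0 + 2 * (1 - c.κ) * c.cap ≤
          (2 - (1 + (c.S : ℝ) - 2 * c.τ0)) * (c.Ttop : ℝ) ^ 2 := by
        exact_mod_cast ht2
      have hT2 : (0 : ℝ) ≤ (c.Ttop : ℝ) ^ 2 := by positivity
      by_cases hjj : j = j1
      · subst hjj
        rw [f.hτ1] at hG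
        refine hG.trans (gb_nonpos hT0' hjT.le (by linarith) (by linarith) ?_)
        have e : 2 * (1 + a j) - (1 + (c.S : ℝ) + 2 * a j - 2 * c.τ1) =
            2 - (1 + (c.S : ℝ) - 2 * c.τ1) := by ring
        rw [e]
        have := f.hq
        linarith
      · rw [f.hτr j hjj] at hG
        refine hG.trans (gb_nonpos hT0' hjT.le (by linarith) ?_ ?_)
        · have := mul_nonneg hκ0' haj.le
          linarith
        · have e : 2 * (1 + a j) - (1 + (c.S : ℝ) + 2 * a j - 2 * ((c.τ0 : ℝ) + c.κ * a j)) =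
              2 - (1 + (c.S : ℝ) - 2 * c.τ0) + 2 * (c.κ * a j) := by ring
          rw [e]
          have h5 := f.hcap j hjj
          have h6 : (1 - (c.κ : ℝ)) * a j ≤ (1 - (c.κ : ℝ)) * c.cap :=
            mul_le_mul_of_nonneg_left h5 (by linarith)
          have h7 : 0 ≤ (c.κ : ℝ) * a j := mul_nonneg hκ0' haj.le
          nlinarith [mul_nonneg h7 hT2])
    have h9 : ChainClaim v (Gf v n M c.S) (c.Ttop : ℝ) ((0 : ℚ) : ℝ) := by
      simpa using this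
    exact h9
  have hfinal := chk3_sound g f hl0 hc0 hc1 hd0 hd1 hq1 hcap1 hp0 hκ0 hκ1 hN0 hlow0 c.rows
    c.Ttop c.Ttop 0 hchk htop
  rw [integral_Gf v n c.S g.hn g.hMint] at hfinal
  have h0 := inv_pos.2 ph_zero_pos
  by_contra hc
  push Not at hc
  have := mul_pos h0 hc
  linarith

/-- cover check for the largest coefficient -/
def coverOK3 : ℚ → List Case3 → Bool
  | _, [] => false
  | lo, c :: cs => decide (c.p ≤ lo) && (decide (1 ≤ c.q) || coverOK3 c.q cs)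

lemma coverOK3_find : ∀ (L : List Case3) (lo : ℚ) {x : ℝ}, coverOK3 lo L = true → (lo : ℝ) ≤ x →
    x < 1 → ∃ c ∈ L, (c.p : ℝ) ≤ x ∧ x < c.q := by
  intro L
  induction L with
  | nil =>
    intro lo x h
    simp [coverOK3] at h
  | cons c cs ih =>
    intro lo x h h1 h2
    simp only [coverOK3, Bool.and_eq_true, Bool.or_eq_true, decide_eq_true_eq] at h
    have hp : (c.p : ℝ) ≤ lo := by exact_mod_cast h.1
    by_cases hxq : x < c.q
    · exact ⟨c, List.mem_cons_self, hp.trans h1, hxq⟩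
    · rcases h.2 with h3 | h3
      · have : (1 : ℝ) ≤ c.q := by exact_mod_cast h3
        linarith
      · obtain ⟨c', hc', h4⟩ := ih _ h3 (not_lt.1 hxq) h2
        exact ⟨c', List.mem_cons_of_mem _ hc', h4⟩

/-- the family level checks of a table -/
def famOK3 (c : Case3) : Bool :=
  decide (c.τ1 ^ 2 + ((c.N : ℚ) - 1) * c.τ0 ^ 2 + 2 * c.τ0 * c.κ * (1 - c.p) +
    c.κ ^ 2 * c.cap * (1 - c.p) ≤ c.S) &&
  decide (0 ≤ c.τ0) && decide (0 ≤ c.κ) && decide (0 ≤ c.cap) &&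
  (decide (c.q ≤ c.cap) || decide (1 - c.p ≤ c.cap))

/-- the penalty of the shifts -/
lemma sum_tau_sq [DecidableEq ι] {a τ : ι → ℝ} {j1 : ι} {c : Case3} (f : Fit3 c a τ j1)
    (ha : ∀ j, 0 < a j) (hsum : ∑ j, a j = 1)
    (hfam : c.τ1 ^ 2 + ((c.N : ℚ) - 1) * c.τ0 ^ 2 + 2 * c.τ0 * c.κ * (1 - c.p) +
      c.κ ^ 2 * c.cap * (1 - c.p) ≤ c.S)
    (hτ0 : 0 ≤ c.τ0) (hκ : 0 ≤ c.κ) (hcap : 0 ≤ c.cap) :
    ∑ l, τ l ^ 2 ≤ (c.S : ℝ) := by
  have hτ0' : (0 : ℝ) ≤ c.τ0 := by exact_mod_cast hτ0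
  have hκ' : (0 : ℝ) ≤ c.κ := by exact_mod_cast hκ
  have hcap' : (0 : ℝ) ≤ c.cap := by exact_mod_cast hcap
  have hfam' : (c.τ1 : ℝ) ^ 2 + ((c.N : ℝ) - 1) * (c.τ0 : ℝ) ^ 2 + 2 * c.τ0 * c.κ * (1 - c.p) +
      (c.κ : ℝ) ^ 2 * c.cap * (1 - c.p) ≤ c.S := by
    exact_mod_cast hfam
  set U := Finset.univ.erase j1 with hU
  have hmem : j1 ∈ (Finset.univ : Finset ι) := Finset.mem_univ _
  have h1 : ∑ l, τ l ^ 2 = (c.τ1 : ℝ) ^ 2 + ∑ l ∈ U, ((c.τ0 : ℝ) + c.κ * a l) ^ 2 := by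
    rw [← Finset.add_sum_erase _ _ hmem, f.hτ1]
    congr 1
    apply Finset.sum_congr rfl
    intro l hl
    rw [f.hτr l (Finset.mem_erase.1 hl).1]
  have h2 : ∑ l ∈ U, a l = 1 - a j1 := by
    rw [← hsum, ← Finset.add_sum_erase _ _ hmem]
    ring
  have h3 : ∑ l ∈ U, a l ^ 2 ≤ (c.cap : ℝ) * ∑ l ∈ U, a l := by
    rw [Finset.mul_sum]
    apply Finset.sum_le_sum
    intro l hl
    have h4 := f.hcap l (Finset.mem_erase.1 hl).1
    have h5 := ha l
    nlinarith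
  have hcardU : (U.card : ℝ) = (c.N : ℝ) - 1 := by
    rw [hU, Finset.card_erase_of_mem hmem, Finset.card_univ, f.hN]
    have : 1 ≤ c.N := by
      rw [← f.hN]
      exact Fintype.card_pos_iff.2 ⟨j1⟩
    push_cast [Nat.cast_sub this]
    ring
  have h6 : ∑ l ∈ U, ((c.τ0 : ℝ) + c.κ * a l) ^ 2 = ((c.N : ℝ) - 1) * (c.τ0 : ℝ) ^ 2 +
      2 * c.τ0 * c.κ * ∑ l ∈ U, a l + (c.κ : ℝ) ^ 2 * ∑ l ∈ U, a l ^ 2 := by
    have h7 : ∀ l, ((c.τ0 : ℝ) + c.κ * a l) ^ 2 = (c.τ0 : ℝ) ^ 2 + 2 * c.τ0 * c.κ * a l +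
        (c.κ : ℝ) ^ 2 * a l ^ 2 := by
      intro l
      ring
    simp_rw [h7]
    rw [Finset.sum_add_distrib, Finset.sum_add_distrib, ← Finset.mul_sum, ← Finset.mul_sum,
      Finset.sum_const, nsmul_eq_mul, hcardU]
  rw [h1, h6, h2]
  rw [h2] at h3
  have hp : 1 - a j1 ≤ 1 - (c.p : ℝ) := by linarith [f.hp]
  have ha1 : 0 ≤ 1 - a j1 := by
    have : 0 ≤ ∑ l ∈ U, a l := Finset.sum_nonneg fun l _ => (ha l).le
    linarith
  have h8 : 2 * (c.τ0 : ℝ) * c.κ * (1 - a j1) ≤ 2 * c.τ0 * c.κ * (1 - c.p) :=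
    mul_le_mul_of_nonneg_left hp (by positivity)
  have h9 : (c.κ : ℝ) ^ 2 * ∑ l ∈ U, a l ^ 2 ≤ (c.κ : ℝ) ^ 2 * c.cap * (1 - c.p) := by
    have h10 : ∑ l ∈ U, a l ^ 2 ≤ (c.cap : ℝ) * (1 - c.p) :=
      h3.trans (mul_le_mul_of_nonneg_left hp hcap')
    have := mul_le_mul_of_nonneg_left h10 (sq_nonneg (c.κ : ℝ))
    linarith
  linarith

/-- One cell can be removed, given a family of tables for the obtuse case. -/
theorem family_step3 [LinearOrder ι] (L : List Case3) (lo : ℚ)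
    (hall : ∀ c ∈ L, caseOK3 c = true ∧ famOK3 c = true)
    (hcov : coverOK3 lo L = true) (hcard : 3 ≤ Fintype.card ι)
    (hlo : (lo : ℝ) * ((Fintype.card ι : ℝ) - 1) ≤ 1)
    (hfit : ∀ c ∈ L, Fintype.card ι - 1 = c.N)
    {A : ι → Set E} (hA : IsPart A) :
    ∃ i0 : ι, ∃ B : {l // l ≠ i0} → Set E, IsPart B ∧ Fval A ≤ Fval B := by
  classical
  have hne : Nonempty ι := by
    apply Fintype.card_pos_iff.1
    omega
  have hcard2 : ∀ i0 : ι, Fintype.card {l // l ≠ i0} = Fintype.card ι - 1 := card_ne ι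
  have hne2 : ∀ i0 : ι, Nonempty {l // l ≠ i0} := by
    intro i0
    apply Fintype.card_pos_iff.1
    rw [hcard2]
    omega
  by_cases hpos : 0 < Fval A
  · obtain ⟨w, hfix, hle⟩ := exists_fixed hA hpos
    have hFw : Fval (vcell w) = ∑ i, ‖w i‖ ^ 2 := by
      simp only [Fval]
      apply Finset.sum_congr rfl
      intro i _
      rw [hfix]
    by_cases hobt : ∀ i j, i ≠ j → ⟪w i, w j⟫ < 0
    · obtain ⟨i0, -, hi0⟩ := Finset.exists_min_image Finset.univ (fun l => ‖w l‖)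
        Finset.univ_nonempty
      have := hne2 i0
      obtain ⟨v, a, n, hgeo⟩ := geo_data (w := w) (i0 := i0) hfix hobt
        (fun j => hi0 j (Finset.mem_univ j))
      have g0 := (hgeo (fun _ => 0) 0).1
      -- the largest coefficient
      obtain ⟨j1, -, hj1⟩ := Finset.exists_max_image Finset.univ a Finset.univ_nonempty
      have hj1' : ∀ l, a l ≤ a j1 := fun l => hj1 l (Finset.mem_univ l)
      have hcard' : (Fintype.card {l // l ≠ i0} : ℝ) = (Fintype.card ι : ℝ) - 1 := by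
        rw [hcard2]
        have : 1 ≤ Fintype.card ι := by omega
        push_cast [Nat.cast_sub this]
        ring
      -- pairs of coefficients
      have hpair : ∀ l, l ≠ j1 → a l + a j1 ≤ 1 := by
        intro l hl
        rw [← g0.hsum, ← Finset.add_sum_erase _ _ (Finset.mem_univ j1),
          ← Finset.add_sum_erase (Finset.univ.erase j1) _ (Finset.mem_erase.2 ⟨hl, Finset.mem_univ l⟩)]
        have : 0 ≤ ∑ x ∈ (Finset.univ.erase j1).erase l, a x :=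
          Finset.sum_nonneg fun x _ => (g0.ha x).le
        linarith
      have hcard3 : 2 ≤ Fintype.card {l // l ≠ i0} := by
        rw [hcard2]
        omega
      obtain ⟨l0, hl0⟩ : ∃ l0, l0 ≠ j1 := by
        have : 1 < Fintype.card {l // l ≠ i0} := by omega
        obtain ⟨x, y, hxy⟩ := Fintype.exists_pair_of_one_lt_card this
        by_cases hx : x = j1
        · exact ⟨y, fun h => hxy (hx.trans h.symm)⟩
        · exact ⟨x, hx⟩
      have ha1 : a j1 < 1 := by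
        have := hpair l0 hl0
        have := g0.ha l0
        linarith
      have hlow : (lo : ℝ) ≤ a j1 := by
        have h1 : ∑ l, a l ≤ (Fintype.card {l // l ≠ i0} : ℝ) * a j1 := by
          have := Finset.sum_le_card_nsmul Finset.univ a (a j1) (fun l _ => hj1' l)
          simpa using this
        rw [g0.hsum, hcard'] at h1
        have hN : (0 : ℝ) < (Fintype.card ι : ℝ) - 1 := by
          have : (3 : ℝ) ≤ Fintype.card ι := by exact_mod_cast hcard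
          linarith
        by_contra hc
        push Not at hc
        have h2 : a j1 * ((Fintype.card ι : ℝ) - 1) < lo * ((Fintype.card ι : ℝ) - 1) :=
          mul_lt_mul_of_pos_right hc hN
        nlinarith
      obtain ⟨c, hcL, hcp, hcq⟩ := coverOK3_find L lo hcov hlow ha1
      obtain ⟨hc1, hc2⟩ := hall c hcL
      simp only [famOK3, Bool.and_eq_true, Bool.or_eq_true, decide_eq_true_eq] at hc2
      obtain ⟨⟨⟨⟨hS, hτ0⟩, hκ⟩, hcap0⟩, hcap⟩ := hc2
      set τ : {l // l ≠ i0} → ℝ := fun l => if l = j1 then (c.τ1 : ℝ) else c.τ0 + c.κ * a l with hτ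
      have hfit' : Fintype.card {l // l ≠ i0} = c.N := by
        rw [hcard2]
        exact hfit c hcL
      have hF : Fit3 c a τ j1 := by
        refine ⟨hcp, hcq, by simp [hτ], fun l hl => by simp [hτ, hl], ?_, hfit'⟩
        intro l hl
        rcases hcap with h | h
        · have h1 : (c.q : ℝ) ≤ c.cap := by exact_mod_cast h
          linarith [hj1' l]
        · have h1 : (1 : ℝ) - c.p ≤ c.cap := by exact_mod_cast h
          linarith [hpair l hl]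
      obtain ⟨g, hfinal⟩ := hgeo τ c.S
      have hint := case3_sound g hF ⟨l0, hl0⟩ hc1
      have hkey := hfinal hint
      have hSum : ∑ l, τ l ^ 2 ≤ (c.S : ℝ) := sum_tau_sq hF g0.ha g0.hsum hS hτ0 hκ hcap0
      obtain ⟨B, hB, hFv⟩ := step_delete2 hfix τ hSum hkey
      exact ⟨i0, B, hB, by linarith⟩
    · push Not at hobt
      obtain ⟨i, j, hij, hacute⟩ := hobt
      have hP := isPart_vcell w
      have hacute' : 0 ≤ ⟪mom (vcell w i), mom (vcell w j)⟫ := by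
        rw [hfix, hfix]; exact hacute
      obtain ⟨B, hB, hF⟩ := step_merge hP hij hacute'
      exact ⟨j, B, hB, by linarith⟩
  · obtain ⟨i0⟩ := hne
    have := hne2 i0
    refine ⟨i0, vcell fun _ => 0, isPart_vcell _, ?_⟩
    have h1 : 0 ≤ Fval (vcell (fun _ : {l // l ≠ i0} => (0 : E))) :=
      Finset.sum_nonneg fun i _ => by positivity
    linarith

end Vale.Agent.P226h14
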