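import Vale.Agent.P226h14.Check4

open MeasureTheory ProbabilityTheory Real Set Filter Topology
open scoped RealInnerProductSpace ENNReal NNReal

namespace Vale.Agent.P226h14

variable {E : Type*} [NormedAddCommGroup E] [InnerProductSpace ℝ E] [FiniteDimensional ℝ E]
  [MeasurableSpace E] [BorelSpace E]

variable {ι : Type*} [Fintype ι]

/-- the deletion of one cell, with arbitrary shifts of the functionals -/
lemma step_delete3 [LinearOrder ι] {w : ι → E} {i0 : ι} [Nonempty {l // l ≠ i0}] [Nonempty ι]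
    (hfix : ∀ i, mom (vcell w i) = w i) (ξ : {l // l ≠ i0} → E) {S : ℝ}
    (hS : ∑ l, ‖ξ l‖ ^ 2 ≤ S * ‖w i0‖ ^ 2)
    (hkey : (1 + S) * ‖w i0‖ ^ 2 ≤
      2 * ∫ x in vcell w i0, wid (fun l : {l // l ≠ i0} => w l.1 + ξ l) x ∂(stdGaussian E)) :
    ∃ B' : {l // l ≠ i0} → Set E, IsPart B' ∧ Fval (vcell w) ≤ Fval B' := by
  classical
  set w' : {l // l ≠ i0} → E := fun l => w l.1 + ξ l with hw'
  set B := vcell w with hB
  have hBP : IsPart B := isPart_vcell w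
  set C : {l // l ≠ i0} → Set E := fun l => B i0 ∩ vcell w' l with hC
  have hCm : ∀ l, MeasurableSet (C l) := fun l => (hBP.1 i0).inter (measurableSet_vcell w' l)
  have hCd : Pairwise (Function.onFun Disjoint C) := by
    intro l m hlm
    exact (disjoint_vcell w' hlm).mono inter_subset_right inter_subset_right
  have hCu : ⋃ l, C l = B i0 := by
    apply Set.Subset.antisymm
    · exact iUnion_subset fun l => inter_subset_left
    · intro x hx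
      obtain ⟨l, hl⟩ := exists_mem_vcell w' x
      exact mem_iUnion.2 ⟨l, hx, hl⟩
  obtain ⟨hP, hF⟩ := reassign hBP i0 hCm hCd hCu
  refine ⟨_, hP, ?_⟩
  rw [hF]
  have hB0 : mom (B i0) = w i0 := hfix i0
  have hsum : ∑ l : {l // l ≠ i0}, ⟪w' l, mom (C l)⟫ =
      ∫ x in B i0, wid w' x ∂(stdGaussian E) := by
    have h1 := hasSum_integral_iUnion hCm hCd (f := wid w') (μ := stdGaussian E)
      (integrable_wid w').integrableOn
    rw [hCu] at h1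
    rw [← (hasSum_fintype _).unique h1]
    apply Finset.sum_congr rfl
    intro l _
    rw [inner_mom]
    apply setIntegral_congr_fun (hCm l)
    intro x hx
    exact (wid_eq_of_mem hx.2).symm
  have h2 : 2 * ∑ l : {l // l ≠ i0}, ⟪w' l, mom (C l)⟫ - ∑ l, ‖ξ l‖ ^ 2 ≤
      ∑ l : {l // l ≠ i0}, (2 * ⟪mom (B l.1), mom (C l)⟫ + ‖mom (C l)‖ ^ 2) := by
    rw [Finset.mul_sum, ← Finset.sum_sub_distrib]
    apply Finset.sum_le_sum
    intro l _
    have h3 : ⟪w' l, mom (C l)⟫ = ⟪w l.1, mom (C l)⟫ + ⟪ξ l, mom (C l)⟫ := by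
      simp only [hw']
      rw [inner_add_left]
    have h4 : mom (B l.1) = w l.1 := hfix l.1
    rw [h3, h4]
    have h5 : 0 ≤ ‖mom (C l) - ξ l‖ ^ 2 := by positivity
    rw [norm_sub_sq_real, real_inner_comm] at h5
    nlinarith
  rw [hsum] at h2
  rw [hB0]
  nlinarith

/-- The geometric data of the smallest vertex of an obtuse fixed point, with a scale shift. -/
theorem geo_data4 [LinearOrder ι] {w : ι → E} {i0 : ι} [Nonempty {l // l ≠ i0}] [Nonempty ι]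
    (hfix : ∀ i, mom (vcell w i) = w i)
    (hobt : ∀ i j, i ≠ j → ⟪w i, w j⟫ < 0)
    (hmin : ∀ j, ‖w i0‖ ≤ ‖w j‖) :
    ∃ (v : {l // l ≠ i0} → E) (a : {l // l ≠ i0} → ℝ) (n : E),
      (∀ j, ‖w j.1‖ ^ 2 = ((1 + a j) ^ 2 * ‖v j‖ ^ 2 + a j ^ 2) * ‖w i0‖ ^ 2) ∧
      (∀ j, ⟪w i0, v j⟫ = 0) ∧
      (0 < ‖w i0‖) ∧
      ∀ (τ b : {l // l ≠ i0} → ℝ) (S : ℝ), (∀ j, 0 ≤ b j) →
        Geo4 v a τ b n (fun x => (‖w i0‖)⁻¹ *
          wid (fun l : {l // l ≠ i0} => w l.1 + (τ l • w i0 + (b l * ‖w i0‖) • v l)) x) ∧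
        (∫ x, cellG v n (fun x => (‖w i0‖)⁻¹ *
          wid (fun l : {l // l ≠ i0} => w l.1 + (τ l • w i0 + (b l * ‖w i0‖) • v l)) x) S x
            ∂(stdGaussian E) ≤ 0 →
          (1 + S) * ‖w i0‖ ^ 2 ≤ 2 * ∫ x in vcell w i0,
            wid (fun l : {l // l ≠ i0} => w l.1 + (τ l • w i0 + (b l * ‖w i0‖) • v l)) x
              ∂(stdGaussian E)) := by
  classical
  set ι' := {l // l ≠ i0} with hι'
  set z : ℝ := ‖w i0‖ with hz
  have hz0 : 0 < z := by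
    rw [hz, norm_pos_iff]
    intro h0
    obtain ⟨l⟩ := (inferInstance : Nonempty ι')
    have := hobt l.1 i0 l.2
    rw [h0, inner_zero_right] at this
    exact lt_irrefl _ this
  have hzz : ⟪w i0, w i0⟫ = z ^ 2 := real_inner_self_eq_norm_sq _
  have hz2 : z ^ 2 ≠ 0 := by positivity
  -- the balance
  have hsumw : w i0 + ∑ l : ι', w l.1 = 0 := by
    have h1 := sum_mom (isPart_vcell w)
    simp_rw [hfix] at h1
    rw [Fintype.sum_eq_add_sum_subtype_ne w i0] at h1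
    exact h1
  set a : ι' → ℝ := fun l => -⟪w l.1, w i0⟫ / z ^ 2 with ha_def
  have hpair : ∀ l : ι', ⟪w l.1, w i0⟫ = -(a l * z ^ 2) := by
    intro l
    simp only [ha_def]
    field_simp
  have ha_pos : ∀ l, 0 < a l := by
    intro l
    apply div_pos _ (by positivity)
    have := hobt l.1 i0 l.2
    linarith
  have hsum : ∑ l, a l = 1 := by
    simp only [ha_def]
    rw [← Finset.sum_div, Finset.sum_neg_distrib, div_eq_iff hz2, one_mul]
    have h1 : ∑ l : ι', ⟪w l.1, w i0⟫ = ⟪∑ l : ι', w l.1, w i0⟫ := by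
      rw [sum_inner]
    have h2 : ∑ l : ι', w l.1 = - w i0 := by
      rw [eq_neg_iff_add_eq_zero, add_comm]
      exact hsumw
    rw [h1, h2, inner_neg_left, hzz]
    ring
  set v : ι' → E := fun l => ((1 + a l) * z)⁻¹ • (w l.1 + a l • w i0) with hv
  set n : E := z⁻¹ • w i0 with hn
  have hc_pos : ∀ l, 0 < (1 + a l) * z := fun l => by
    have := ha_pos l
    positivity
  have hn1 : ‖n‖ = 1 := by
    rw [hn, norm_smul, norm_inv, norm_norm, ← hz]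
    field_simp
  have hinner_base : ∀ (l : ι') (y : E),
      ⟪w l.1 + a l • w i0, y⟫ = ⟪w l.1, y⟫ + a l * ⟪w i0, y⟫ := by
    intro l y
    rw [inner_add_left, inner_smul_left]
    simp
  have hvx : ∀ l y, ⟪v l, y⟫ = ((1 + a l) * z)⁻¹ * (⟪w l.1, y⟫ + a l * ⟪w i0, y⟫) := by
    intro l y
    simp only [hv]
    rw [inner_smul_left, hinner_base]
    simp
  have hnx : ∀ y, ⟪n, y⟫ = z⁻¹ * ⟪w i0, y⟫ := by
    intro y
    rw [hn, inner_smul_left]
    simp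
  have horth : ∀ j, ⟪v j, n⟫ = 0 := by
    intro j
    have hjn : ⟪w j.1, n⟫ = z⁻¹ * ⟪w j.1, w i0⟫ := by
      rw [hn, inner_smul_right]
    have hin : ⟪w i0, n⟫ = z⁻¹ * z ^ 2 := by
      rw [hn, inner_smul_right, hzz]
    rw [hvx, hjn, hin, hpair]
    ring
  -- the Gram computation
  have hgram : ∀ j l : ι', ⟪w j.1 + a j • w i0, w l.1 + a l • w i0⟫ =
      ⟪w j.1, w l.1⟫ - a j * a l * z ^ 2 := by
    intro j l
    rw [inner_add_left, inner_add_right, inner_add_right, inner_smul_left, inner_smul_right,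
      inner_smul_right, inner_smul_left, hpair j, real_inner_comm (w l.1) (w i0), hpair l, hzz]
    simp
    ring
  have hneg : ∀ j l : ι', j ≠ l → ⟪v j, v l⟫ ≤ 0 := by
    intro j l hjl
    simp only [hv]
    rw [inner_smul_left, inner_smul_right, hgram]
    have hne : j.1 ≠ l.1 := fun h => hjl (Subtype.ext h)
    have h1 := hobt j.1 l.1 hne
    have h2 : 0 ≤ a j * a l * z ^ 2 := by
      have := ha_pos j
      have := ha_pos l
      positivity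
    have h3 : ⟪w j.1, w l.1⟫ - a j * a l * z ^ 2 ≤ 0 := by linarith
    have h4 : 0 ≤ ((1 + a j) * z)⁻¹ := (inv_pos.2 (hc_pos j)).le
    have h5 : 0 ≤ ((1 + a l) * z)⁻¹ := (inv_pos.2 (hc_pos l)).le
    have h6 := mul_nonpos_of_nonneg_of_nonpos h5 h3
    simpa using mul_nonpos_of_nonneg_of_nonpos h4 h6
  have hbal : ∑ j, (1 + a j) • v j = 0 := by
    have h1 : ∀ j, (1 + a j) • v j = z⁻¹ • (w j.1 + a j • w i0) := by
      intro j
      simp only [hv]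
      rw [smul_smul]
      congr 1
      have := ha_pos j
      field_simp
    simp_rw [h1]
    rw [← Finset.smul_sum, Finset.sum_add_distrib, ← Finset.sum_smul, hsum, one_smul]
    have h2 : ∑ l : ι', w l.1 = - w i0 := by
      rw [eq_neg_iff_add_eq_zero, add_comm]
      exact hsumw
    rw [h2]
    simp
  have hvar : ∀ j, 1 - a j ≤ (1 + a j) * ‖v j‖ ^ 2 := by
    intro j
    have h1 : ‖v j‖ ^ 2 = ((1 + a j) * z)⁻¹ ^ 2 * (‖w j.1‖ ^ 2 - a j ^ 2 * z ^ 2) := by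
      simp only [hv]
      rw [norm_smul, mul_pow, norm_inv, Real.norm_eq_abs, abs_of_pos (hc_pos j),
        ← real_inner_self_eq_norm_sq (w j.1 + a j • w i0), hgram, real_inner_self_eq_norm_sq]
      ring
    rw [h1]
    have h2 : z ^ 2 ≤ ‖w j.1‖ ^ 2 := by
      have := hmin j.1
      exact pow_le_pow_left₀ hz0.le this 2
    have h3 := ha_pos j
    have h4 : (1 + a j) * ((1 + a j) * z)⁻¹ ^ 2 * (z ^ 2 - a j ^ 2 * z ^ 2) = 1 - a j := by
      field_simp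
      ring
    have h5 : (1 + a j) * ((1 + a j) * z)⁻¹ ^ 2 * (z ^ 2 - a j ^ 2 * z ^ 2) ≤
        (1 + a j) * ((1 + a j) * z)⁻¹ ^ 2 * (‖w j.1‖ ^ 2 - a j ^ 2 * z ^ 2) := by
      apply mul_le_mul_of_nonneg_left _ (by positivity)
      linarith
    rw [h4] at h5
    linarith [h5]
  have hnormw : ∀ j, ‖w j.1‖ ^ 2 = ((1 + a j) ^ 2 * ‖v j‖ ^ 2 + a j ^ 2) * z ^ 2 := by
    intro j
    have h1 : ‖v j‖ ^ 2 = ((1 + a j) * z)⁻¹ ^ 2 * (‖w j.1‖ ^ 2 - a j ^ 2 * z ^ 2) := by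
      simp only [hv]
      rw [norm_smul, mul_pow, norm_inv, Real.norm_eq_abs, abs_of_pos (hc_pos j),
        ← real_inner_self_eq_norm_sq (w j.1 + a j • w i0), hgram, real_inner_self_eq_norm_sq]
      ring
    rw [h1]
    have := hc_pos j
    have hne : (1 + a j) * z ≠ 0 := this.ne'
    have h3 := ha_pos j
    field_simp
    ring
  have hw0v : ∀ j, ⟪w i0, v j⟫ = 0 := by
    intro j
    have h1 := horth j
    rw [hn, inner_smul_right] at h1
    have h2 : z⁻¹ ≠ 0 := (inv_pos.2 hz0).ne'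
    have h3 := (mul_eq_zero.1 h1).resolve_left h2
    rw [real_inner_comm]
    exact h3
  refine ⟨v, a, n, hnormw, hw0v, hz0, fun τ b S hb0 => ?_⟩
  set w' : ι' → E := fun l => w l.1 + (τ l • w i0 + (b l * z) • v l) with hw'
  set M : E → ℝ := fun x => z⁻¹ * wid w' x with hMdef
  have hMint : Integrable M (stdGaussian E) := (integrable_wid w').const_mul _
  have hM : ∀ x j, (1 + (a j + b j)) * ⟪v j, x⟫ - ((a j + b j) - (τ j + b j)) * ⟪n, x⟫ ≤ M x := by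
    intro x j
    have h1 : (1 + (a j + b j)) * ⟪v j, x⟫ - ((a j + b j) - (τ j + b j)) * ⟪n, x⟫ =
        z⁻¹ * ⟪w' j, x⟫ := by
      have h2 : ⟪w' j, x⟫ = ⟪w j.1, x⟫ + τ j * ⟪w i0, x⟫ + (b j * z) * ⟪v j, x⟫ := by
        simp only [hw']
        rw [inner_add_left, inner_add_left, inner_smul_left, inner_smul_left]
        simp
        ring
      have h3 : ⟪w i0, x⟫ = z * ⟪n, x⟫ := by
        rw [hnx]
        field_simp
      have h4 : ⟪w j.1, x⟫ = (1 + a j) * z * ⟪v j, x⟫ - a j * (z * ⟪n, x⟫) := by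
        have h5 : (1 + a j) * z * ⟪v j, x⟫ = ⟪w j.1, x⟫ + a j * ⟪w i0, x⟫ := by
          rw [hvx j x]
          have h6 := (hc_pos j).ne'
          rw [mul_inv_cancel_left₀ h6]
        rw [h3] at h5
        linarith
      rw [h2, h3, h4]
      field_simp
      ring
    rw [h1]
    apply mul_le_mul_of_nonneg_left (le_wid w' x j) (inv_pos.2 hz0).le
  refine ⟨⟨hn1, horth, ha_pos, hsum, hneg, hbal, hvar, hMint, hb0, hM⟩, ?_⟩
  intro hkey
  -- identify the cell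
  set Ct : Set E := {y | ∀ l, ⟪v l, y⟫ ≤ ⟪n, y⟫} with hCt
  have hCtiff : ∀ y, y ∈ Ct ↔ ∀ l : ι', ⟪w l.1, y⟫ ≤ ⟪w i0, y⟫ := by
    intro y
    have h1 : ∀ l : ι', ⟪n, y⟫ - ⟪v l, y⟫ = ((1 + a l) * z)⁻¹ * (⟪w i0, y⟫ - ⟪w l.1, y⟫) := by
      intro l
      rw [hvx, hnx]
      have := ha_pos l
      field_simp
      ring
    constructor
    · intro hy l
      have h2 : 0 ≤ ⟪n, y⟫ - ⟪v l, y⟫ := by linarith [hy l]
      rw [h1] at h2
      have h3 := inv_pos.2 (hc_pos l)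
      have h4 := (mul_nonneg_iff_of_pos_left h3).1 h2
      linarith
    · intro hy l
      have h2 := h1 l
      have h3 := inv_pos.2 (hc_pos l)
      have h4 : 0 ≤ ⟪w i0, y⟫ - ⟪w l.1, y⟫ := by linarith [hy l]
      have h5 := mul_nonneg h3.le h4
      linarith
  have hmCt : MeasurableSet Ct := measurableSet_cellG v n
  have hsub1 : vcell w i0 ⊆ Ct := by
    intro y hy
    rw [hCtiff]
    intro l
    exact hy.1 l.1
  have hsub2 : Ct \ vcell w i0 ⊆ ⋃ j : ι', {y | ⟪w j.1 - w i0, y⟫ = 0} := by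
    intro y hy
    have h1 := (hCtiff y).1 hy.1
    have h2 : ¬ y ∈ vcell w i0 := hy.2
    have hfirst : ∀ j, ⟪w j, y⟫ ≤ ⟪w i0, y⟫ := by
      intro j
      by_cases hj : j = i0
      · rw [hj]
      · exact h1 ⟨j, hj⟩
    have h3 : ¬ ∀ j, j < i0 → ⟪w j, y⟫ < ⟪w i0, y⟫ := fun hh' => h2 ⟨hfirst, hh'⟩
    push Not at h3
    obtain ⟨j, hj, hj2⟩ := h3
    apply mem_iUnion.2
    refine ⟨⟨j, hj.ne⟩, ?_⟩
    have h4 := hfirst j
    change ⟪w j - w i0, y⟫ = 0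
    rw [inner_sub_left]
    linarith
  have hnull : stdGaussian E (Ct \ vcell w i0) = 0 := by
    apply measure_mono_null hsub2
    apply measure_iUnion_null
    intro j
    apply hyperplane_null
    intro h0
    have h1 : w j.1 = w i0 := sub_eq_zero.1 h0
    have h2 := hobt j.1 i0 j.2
    rw [h1, hzz] at h2
    have : 0 < z ^ 2 := by positivity
    linarith
  have hae : vcell w i0 =ᵐ[stdGaussian E] Ct := by
    rw [ae_eq_set]
    refine ⟨?_, hnull⟩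
    rw [Set.sdiff_eq_empty.2 hsub1]
    simp
  have hval : ∫ x, cellG v n M S x ∂(stdGaussian E) =
      z⁻¹ * ((1 + S) * z ^ 2 - 2 * ∫ x in vcell w i0, wid w' x ∂(stdGaussian E)) := by
    have e1 : ∫ x, cellG v n M S x ∂(stdGaussian E) =
        ∫ x in vcell w i0, ((1 + S) * ⟪n, x⟫ - 2 * M x) ∂(stdGaussian E) := by
      simp only [cellG]
      rw [integral_indicator hmCt]
      exact (setIntegral_congr_set hae).symm
    rw [e1]
    have i1 : Integrable (fun x : E => (1 + S) * ⟪n, x⟫) (stdGaussian E) :=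
      (integrable_inner_std n).const_mul _
    have i2 : Integrable (fun x => 2 * M x) (stdGaussian E) := hMint.const_mul 2
    rw [integral_sub i1.integrableOn i2.integrableOn, integral_const_mul, integral_const_mul]
    simp only [hMdef]
    rw [integral_const_mul]
    have e2 : ∫ x in vcell w i0, ⟪n, x⟫ ∂(stdGaussian E) = z⁻¹ * z ^ 2 := by
      rw [← inner_mom, hfix, hn, inner_smul_left, hzz]
      simp
    rw [e2]
    ring
  rw [hval] at hkey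
  have h9 := inv_pos.2 hz0
  by_contra hc'
  push Not at hc'
  have := mul_pos h9 (sub_pos.2 hc')
  linarith


/-- the family level checks of a table -/
def famOK4 (c : Head4) (th vh2 : ℚ) : Bool :=
  decide (c.τ1 ^ 2 + ((c.N : ℚ) - 1) * c.τ0 ^ 2 + 2 * c.τ0 * c.κ * (1 - c.p) +
    c.κ ^ 2 * c.cap * (1 - c.p) + th ^ 2 ≤ c.S) &&
  decide (0 ≤ c.τ0) && decide (0 ≤ c.κ) && decide (0 ≤ c.cap) && decide (0 ≤ th) &&
  decide (c.sg ^ 2 * vh2 ≤ th ^ 2) && decide (0 ≤ c.sg) && decide (0 < vh2 ∨ c.sg = 0) &&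
  (decide (c.q ≤ c.cap) || decide (1 - c.p ≤ c.cap))

/-- the penalty of the shifts -/
lemma sum_tau_sq4 [DecidableEq ι] {c : Head4} {a τ : ι → ℝ} {j1 : ι}
    (hτ1 : τ j1 = c.τ1) (hτr : ∀ l, l ≠ j1 → τ l = c.τ0 + c.κ * a l)
    (hcap : ∀ l, l ≠ j1 → a l ≤ c.cap) (hN : Fintype.card ι = c.N) (hp : (c.p : ℝ) ≤ a j1)
    (ha : ∀ j, 0 < a j) (hsum : ∑ j, a j = 1)
    (hτ0 : 0 ≤ c.τ0) (hκ : 0 ≤ c.κ) (hcap0 : 0 ≤ c.cap) :
    ∑ l, τ l ^ 2 ≤ (c.τ1 : ℝ) ^ 2 + ((c.N : ℝ) - 1) * (c.τ0 : ℝ) ^ 2 + 2 * c.τ0 * c.κ * (1 - c.p) +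
      (c.κ : ℝ) ^ 2 * c.cap * (1 - c.p) := by
  have hτ0' : (0 : ℝ) ≤ c.τ0 := by exact_mod_cast hτ0
  have hκ' : (0 : ℝ) ≤ c.κ := by exact_mod_cast hκ
  have hcap' : (0 : ℝ) ≤ c.cap := by exact_mod_cast hcap0
  set U := Finset.univ.erase j1 with hU
  have hmem : j1 ∈ (Finset.univ : Finset ι) := Finset.mem_univ _
  have h1 : ∑ l, τ l ^ 2 = (c.τ1 : ℝ) ^ 2 + ∑ l ∈ U, ((c.τ0 : ℝ) + c.κ * a l) ^ 2 := by
    rw [← Finset.add_sum_erase _ _ hmem, hτ1]
    congr 1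
    apply Finset.sum_congr rfl
    intro l hl
    rw [hτr l (Finset.mem_erase.1 hl).1]
  have h2 : ∑ l ∈ U, a l = 1 - a j1 := by
    rw [← hsum, ← Finset.add_sum_erase _ _ hmem]
    ring
  have h3 : ∑ l ∈ U, a l ^ 2 ≤ (c.cap : ℝ) * ∑ l ∈ U, a l := by
    rw [Finset.mul_sum]
    apply Finset.sum_le_sum
    intro l hl
    have h4 := hcap l (Finset.mem_erase.1 hl).1
    have h5 := ha l
    nlinarith
  have hcardU : (U.card : ℝ) = (c.N : ℝ) - 1 := by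
    rw [hU, Finset.card_erase_of_mem hmem, Finset.card_univ, hN]
    have : 1 ≤ c.N := by
      rw [← hN]
      exact Fintype.card_pos_iff.2 ⟨j1⟩
    push_cast [Nat.cast_sub this]
    ring
  have h6 : ∑ l ∈ U, ((c.τ0 : ℝ) + c.κ * a l) ^ 2 = ((c.N : ℝ) - 1) * (c.τ0 : ℝ) ^ 2 +
      2 * c.τ0 * c.κ * ∑ l ∈ U, a l + (c.κ : ℝ) ^ 2 * ∑ l ∈ U, a l ^ 2 := by
    have h7 : ∀ l, ((c.τ0 : ℝ) + c.κ * a l) ^ 2 = (c.τ0 : ℝ) ^ 2 + 2 * c.τ0 * c.κ * a l +
        (c.κ : ℝ) ^ 2 * a l ^ 2 := by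
      intro l
      ring
    simp_rw [h7]
    rw [Finset.sum_add_distrib, Finset.sum_add_distrib, ← Finset.mul_sum, ← Finset.mul_sum,
      Finset.sum_const, nsmul_eq_mul, hcardU]
  rw [h1, h6, h2]
  rw [h2] at h3
  have hp' : 1 - a j1 ≤ 1 - (c.p : ℝ) := by linarith
  have ha1 : 0 ≤ 1 - a j1 := by
    have : 0 ≤ ∑ l ∈ U, a l := Finset.sum_nonneg fun l _ => (ha l).le
    linarith
  have h8 : 2 * (c.τ0 : ℝ) * c.κ * (1 - a j1) ≤ 2 * c.τ0 * c.κ * (1 - c.p) :=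
    mul_le_mul_of_nonneg_left hp' (by positivity)
  have h9 : (c.κ : ℝ) ^ 2 * ∑ l ∈ U, a l ^ 2 ≤ (c.κ : ℝ) ^ 2 * c.cap * (1 - c.p) := by
    have h10 : ∑ l ∈ U, a l ^ 2 ≤ (c.cap : ℝ) * (1 - c.p) :=
      h3.trans (mul_le_mul_of_nonneg_left hp' hcap')
    have := mul_le_mul_of_nonneg_left h10 (sq_nonneg (c.κ : ℝ))
    linarith
  linarith

/-- A cell can be removed using one table, for a point in the range of the table. -/
theorem del_table [LinearOrder ι] {w : ι → E} {i0 : ι} [Nonempty {l // l ≠ i0}] [Nonempty ι]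
    (hfix : ∀ i, mom (vcell w i) = w i)
    {v : {l // l ≠ i0} → E} {a : {l // l ≠ i0} → ℝ} {n : E}
    (hw0v : ∀ j, ⟪w i0, v j⟫ = 0) (hz : 0 < ‖w i0‖)
    (hgeo : ∀ (τ b : {l // l ≠ i0} → ℝ) (S : ℝ), (∀ j, 0 ≤ b j) →
        Geo4 v a τ b n (fun x => (‖w i0‖)⁻¹ *
          wid (fun l : {l // l ≠ i0} => w l.1 + (τ l • w i0 + (b l * ‖w i0‖) • v l)) x) ∧
        (∫ x, cellG v n (fun x => (‖w i0‖)⁻¹ *
          wid (fun l : {l // l ≠ i0} => w l.1 + (τ l • w i0 + (b l * ‖w i0‖) • v l)) x) S x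
            ∂(stdGaussian E) ≤ 0 →
          (1 + S) * ‖w i0‖ ^ 2 ≤ 2 * ∫ x in vcell w i0,
            wid (fun l : {l // l ≠ i0} => w l.1 + (τ l • w i0 + (b l * ‖w i0‖) • v l)) x
              ∂(stdGaussian E)))
    (c : Head4) (hgood : Good4 c) (th vh2 : ℚ) (hfam : famOK4 c th vh2 = true)
    (j1 : {l // l ≠ i0}) (Sm : Finset {l // l ≠ i0}) (hl0 : ∃ l, l ≠ j1)
    (hp : (c.p : ℝ) ≤ a j1) (hq : a j1 < c.q)
    (hcap : ∀ l, l ≠ j1 → a l ≤ c.cap) (hN : Fintype.card {l // l ≠ i0} = c.N)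
    (hxt : 0 < c.xt → (‖v j1‖ ^ 2)⁻¹ ≤ c.xt)
    (hV : c.sg ≠ 0 → ‖v j1‖ ^ 2 ≤ vh2)
    (hj1 : j1 ∉ Sm) (hSm : Sm.card = c.NS)
    (hbig : ∀ l, l ≠ j1 → l ∉ Sm → (c.kap : ℝ) - a l ^ 2 ≤ (1 + a l) ^ 2 * ‖v l‖ ^ 2)
    (hkap : (0 : ℝ) < c.kap ∨ c.kap = 0)
    (hv1 : v j1 ≠ 0) :
    ∃ B : {l // l ≠ i0} → Set E, IsPart B ∧ Fval (vcell w) ≤ Fval B := by
  classical
  simp only [famOK4, Bool.and_eq_true, Bool.or_eq_true, decide_eq_true_eq] at hfam
  obtain ⟨⟨⟨⟨⟨⟨⟨⟨hS, hτ0⟩, hκ⟩, hcap0⟩, hth⟩, hsgth⟩, hsg0⟩, hvh⟩, -⟩ := hfam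
  have hth' : (0 : ℝ) ≤ th := by exact_mod_cast hth
  have hsg0' : (0 : ℝ) ≤ c.sg := by exact_mod_cast hsg0
  have hV0 : 0 < ‖v j1‖ := norm_pos_iff.2 hv1
  set τ : {l // l ≠ i0} → ℝ := fun l => if l = j1 then (c.τ1 : ℝ) else c.τ0 + c.κ * a l with hτ
  set b : {l // l ≠ i0} → ℝ := fun l => if l = j1 then (th : ℝ) / ‖v j1‖ else 0 with hb
  have hb0 : ∀ j, 0 ≤ b j := by
    intro j
    simp only [hb]
    split_ifs
    · positivity
    · exact le_rfl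
  have hb1 : b j1 = (th : ℝ) / ‖v j1‖ := by simp [hb]
  have hbl : ∀ l, l ≠ j1 → b l = 0 := fun l hl => by simp [hb, hl]
  have hsg : (c.sg : ℝ) ≤ b j1 := by
    by_cases hsgz : c.sg = 0
    · rw [hsgz]
      simpa using hb0 j1
    rw [hb1, le_div_iff₀ hV0]
    have hsq : ((c.sg : ℝ) * ‖v j1‖) ^ 2 ≤ (th : ℝ) ^ 2 := by
      have h1 : (c.sg : ℝ) ^ 2 * (vh2 : ℝ) ≤ (th : ℝ) ^ 2 := by exact_mod_cast hsgth
      have h2 : (c.sg : ℝ) ^ 2 * ‖v j1‖ ^ 2 ≤ (c.sg : ℝ) ^ 2 * (vh2 : ℝ) :=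
        mul_le_mul_of_nonneg_left (hV hsgz) (sq_nonneg _)
      rw [mul_pow]
      linarith
    exact (abs_le_of_sq_le_sq' hsq hth').2
  obtain ⟨g, hfinal⟩ := hgeo τ b c.S hb0
  have hF : Fit4 c v a τ b j1 Sm := by
    refine ⟨hp, hq, by simp [hτ], fun l hl => by simp [hτ, hl], hcap, hN, hbl, hsg, hxt, hj1, hSm,
      hbig, hkap⟩
  have hint := table4_sound g hF hl0 hgood
  have hkey := hfinal hint
  -- the penalty
  have hT := sum_tau_sq4 (c := c) (a := a) (τ := τ) (j1 := j1) (by simp [hτ])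
    (fun l hl => by simp [hτ, hl]) hcap hN hp g.ha g.hsum hτ0 hκ hcap0
  have hxi : ∀ l, ‖τ l • w i0 + (b l * ‖w i0‖) • v l‖ ^ 2 =
      (τ l ^ 2 + (if l = j1 then (th : ℝ) ^ 2 else 0)) * ‖w i0‖ ^ 2 := by
    intro l
    rw [@norm_add_sq_real, inner_smul_left, inner_smul_right, hw0v, norm_smul, norm_smul]
    simp only [Real.norm_eq_abs, mul_pow, sq_abs, mul_zero, add_zero]
    by_cases hl : l = j1
    · rw [hl, hb1, if_pos rfl]
      have hne : ‖v j1‖ ≠ 0 := hV0.ne'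
      field_simp
    · rw [hbl l hl, if_neg hl]
      simp
  have hSum : ∑ l, ‖τ l • w i0 + (b l * ‖w i0‖) • v l‖ ^ 2 ≤ (c.S : ℝ) * ‖w i0‖ ^ 2 := by
    simp_rw [hxi]
    rw [← Finset.sum_mul]
    apply mul_le_mul_of_nonneg_right _ (by positivity)
    rw [Finset.sum_add_distrib, Finset.sum_ite_eq' Finset.univ j1]
    simp only [Finset.mem_univ, if_true]
    have hS' : (c.τ1 : ℝ) ^ 2 + ((c.N : ℝ) - 1) * (c.τ0 : ℝ) ^ 2 + 2 * c.τ0 * c.κ * (1 - c.p) +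
        (c.κ : ℝ) ^ 2 * c.cap * (1 - c.p) + (th : ℝ) ^ 2 ≤ c.S := by
      exact_mod_cast hS
    linarith
  exact step_delete3 hfix (fun l => τ l • w i0 + (b l * ‖w i0‖) • v l) hSum hkey

end Vale.Agent.P226h14
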