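import Vale.Agent.P226h14.Key

open MeasureTheory ProbabilityTheory Real Set Filter Topology
open scoped RealInnerProductSpace ENNReal NNReal

namespace Vale.Agent.P226h14

variable {E : Type*} [NormedAddCommGroup E] [InnerProductSpace ℝ E] [FiniteDimensional ℝ E]
  [MeasurableSpace E] [BorelSpace E]

variable {ι : Type*} [Fintype ι]

/-- a measurable partition -/
def IsPart (A : ι → Set E) : Prop :=
  (∀ i, MeasurableSet (A i)) ∧ Pairwise (Function.onFun Disjoint A) ∧ ⋃ i, A i = Set.univ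

/-- the Gaussian first moment -/
noncomputable def mom (A : Set E) : E := ∫ x in A, x ∂(stdGaussian E)

/-- the functional of the propeller problem -/
noncomputable def Fval (A : ι → Set E) : ℝ := ∑ i, ‖mom (A i)‖ ^ 2

lemma integrable_id_std : Integrable (fun x : E => x) (stdGaussian E) :=
  IsGaussian.integrable_id

lemma integrable_inner_std (u : E) : Integrable (fun x : E => ⟪u, x⟫) (stdGaussian E) :=
  IsGaussian.integrable_dual (stdGaussian E) (innerSL ℝ u)

lemma sum_setIntegral_part {A : ι → Set E} (hA : IsPart A) {F : Type*} [NormedAddCommGroup F]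
    [NormedSpace ℝ F] {f : E → F} (hf : Integrable f (stdGaussian E)) :
    ∑ i, ∫ x in A i, f x ∂(stdGaussian E) = ∫ x, f x ∂(stdGaussian E) := by
  have h1 := hasSum_integral_iUnion hA.1 hA.2.1 (f := f) (μ := stdGaussian E)
    (by rw [hA.2.2]; exact hf.integrableOn)
  rw [hA.2.2, Measure.restrict_univ] at h1
  exact (hasSum_fintype _).unique h1

lemma sum_mom {A : ι → Set E} (hA : IsPart A) : ∑ i, mom (A i) = 0 := by
  simp only [mom]
  rw [sum_setIntegral_part hA integrable_id_std]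
  exact integral_id_stdGaussian

lemma inner_mom (u : E) (A : Set E) : ⟪u, mom A⟫ = ∫ x in A, ⟪u, x⟫ ∂(stdGaussian E) := by
  simp only [mom]
  rw [integral_inner integrable_id_std.integrableOn]

section vcell

variable [LinearOrder ι]

/-- the Voronoi cell with first index tie breaking -/
def vcell (Z : ι → E) (i : ι) : Set E :=
  {x | (∀ j, ⟪Z j, x⟫ ≤ ⟪Z i, x⟫) ∧ ∀ j, j < i → ⟪Z j, x⟫ < ⟪Z i, x⟫}

lemma measurableSet_vcell (Z : ι → E) (i : ι) : MeasurableSet (vcell Z i) := by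
  have h1 : {x | ∀ j, ⟪Z j, x⟫ ≤ ⟪Z i, x⟫} = ⋂ j, {x | ⟪Z j, x⟫ ≤ ⟪Z i, x⟫} := by
    ext x; simp
  have h2 : {x | ∀ j, j < i → ⟪Z j, x⟫ < ⟪Z i, x⟫} =
      ⋂ j, ⋂ (_ : j < i), {x | ⟪Z j, x⟫ < ⟪Z i, x⟫} := by
    ext x; simp
  have h3 : vcell Z i = {x | ∀ j, ⟪Z j, x⟫ ≤ ⟪Z i, x⟫} ∩ {x | ∀ j, j < i → ⟪Z j, x⟫ < ⟪Z i, x⟫} :=
    rfl
  rw [h3, h1, h2]
  exact (MeasurableSet.iInter fun j => measurableSet_le (measurable_inner_left _)
    (measurable_inner_left _)).inter (MeasurableSet.iInter fun j => MeasurableSet.iInter fun _ =>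
      measurableSet_lt (measurable_inner_left _) (measurable_inner_left _))

omit [MeasurableSpace E] [BorelSpace E] [FiniteDimensional ℝ E] [Fintype ι] in
lemma disjoint_vcell (Z : ι → E) : Pairwise (Function.onFun Disjoint (vcell Z)) := by
  have key : ∀ i j, i < j → Disjoint (vcell Z i) (vcell Z j) := by
    intro i j hij
    rw [Set.disjoint_left]
    intro x hi hj
    exact absurd (hj.2 i hij) (not_lt.2 (hi.1 j))
  intro i j hij
  rcases lt_or_gt_of_ne hij with h | h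
  · exact key i j h
  · exact (key j i h).symm

omit [MeasurableSpace E] [BorelSpace E] [FiniteDimensional ℝ E] in
lemma exists_mem_vcell [Nonempty ι] (Z : ι → E) (x : E) : ∃ i, x ∈ vcell Z i := by
  classical
  obtain ⟨j, -, hj⟩ := Finset.exists_max_image Finset.univ (fun l => ⟪Z l, x⟫) Finset.univ_nonempty
  set s := Finset.univ.filter fun l => ⟪Z l, x⟫ = ⟪Z j, x⟫ with hs
  have hne : s.Nonempty := ⟨j, by simp [hs]⟩
  refine ⟨s.min' hne, ?_⟩
  have hmem := Finset.min'_mem s hne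
  have heq : ⟪Z (s.min' hne), x⟫ = ⟪Z j, x⟫ := (Finset.mem_filter.1 hmem).2
  refine ⟨fun l => ?_, fun l hl => ?_⟩
  · rw [heq]; exact hj l (Finset.mem_univ l)
  · rw [heq]
    refine lt_of_le_of_ne (hj l (Finset.mem_univ l)) ?_
    intro hc
    have hl' : l ∈ s := Finset.mem_filter.2 ⟨Finset.mem_univ l, hc⟩
    exact absurd (Finset.min'_le s l hl') (not_le.2 hl)

lemma isPart_vcell [Nonempty ι] (Z : ι → E) : IsPart (vcell Z) := by
  refine ⟨measurableSet_vcell Z, disjoint_vcell Z, ?_⟩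
  ext x
  simp only [mem_iUnion, mem_univ, iff_true]
  exact exists_mem_vcell Z x

omit [MeasurableSpace E] [BorelSpace E] [FiniteDimensional ℝ E] [Fintype ι] in
lemma vcell_smul (Z : ι → E) {s : ℝ} (hs : 0 < s) : vcell (fun i => s • Z i) = vcell Z := by
  ext i x
  simp only [vcell, mem_ofPred_eq, inner_smul_left]
  simp only [conj_trivial]
  constructor
  · rintro ⟨h1, h2⟩
    exact ⟨fun j => le_of_mul_le_mul_left (h1 j) hs, fun j hj => lt_of_mul_lt_mul_left (h2 j hj) hs.le⟩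
  · rintro ⟨h1, h2⟩
    exact ⟨fun j => mul_le_mul_of_nonneg_left (h1 j) hs.le, fun j hj => mul_lt_mul_of_pos_left (h2 j hj) hs⟩

end vcell

/-- the width function -/
noncomputable def wid (Z : ι → E) (x : E) : ℝ := ⨆ j, ⟪Z j, x⟫

omit [MeasurableSpace E] [BorelSpace E] [FiniteDimensional ℝ E] in
lemma le_wid (Z : ι → E) (x : E) (i : ι) : ⟪Z i, x⟫ ≤ wid Z x :=
  le_ciSup (f := fun j => ⟪Z j, x⟫) (Set.finite_range _).bddAbove i

omit [MeasurableSpace E] [BorelSpace E] [FiniteDimensional ℝ E] in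
lemma wid_le [Nonempty ι] (Z : ι → E) (x : E) {c : ℝ} (h : ∀ j, ⟪Z j, x⟫ ≤ c) : wid Z x ≤ c :=
  ciSup_le h

omit [MeasurableSpace E] [BorelSpace E] [FiniteDimensional ℝ E] in
lemma wid_eq_of_mem [LinearOrder ι] [Nonempty ι] {Z : ι → E} {x : E} {i : ι} (hx : x ∈ vcell Z i) :
    wid Z x = ⟪Z i, x⟫ :=
  le_antisymm (wid_le Z x hx.1) (le_wid Z x i)

lemma wid_eq_sum [LinearOrder ι] [Nonempty ι] (Z : ι → E) :
    wid Z = fun x => ∑ i, (vcell Z i).indicator (fun y => ⟪Z i, y⟫) x := by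
  ext x
  obtain ⟨i, hi⟩ := exists_mem_vcell Z x
  rw [Finset.sum_eq_single i]
  · rw [indicator_of_mem hi, wid_eq_of_mem hi]
  · intro b _ hb
    apply indicator_of_notMem
    intro hc
    exact Set.disjoint_left.1 (disjoint_vcell Z hb) hc hi
  · intro h
    exact absurd (Finset.mem_univ i) h

lemma integrable_wid [LinearOrder ι] [Nonempty ι] (Z : ι → E) :
    Integrable (wid Z) (stdGaussian E) := by
  rw [wid_eq_sum]
  exact integrable_finsetSum _ fun i _ =>
    (integrable_inner_std (Z i)).indicator (measurableSet_vcell Z i)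

/-- the mean width -/
noncomputable def mw (Z : ι → E) : ℝ := ∫ x, wid Z x ∂(stdGaussian E)

lemma mw_eq [LinearOrder ι] [Nonempty ι] (Z : ι → E) :
    mw Z = ∑ i, ⟪Z i, mom (vcell Z i)⟫ := by
  simp only [mw]
  rw [← sum_setIntegral_part (isPart_vcell Z) (integrable_wid Z)]
  apply Finset.sum_congr rfl
  intro i _
  rw [inner_mom]
  apply setIntegral_congr_fun (measurableSet_vcell Z i)
  intro x hx
  exact wid_eq_of_mem hx

lemma sum_inner_mom_le [LinearOrder ι] [Nonempty ι] {A : ι → Set E} (hA : IsPart A) (Y : ι → E) :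
    ∑ i, ⟪Y i, mom (A i)⟫ ≤ mw Y := by
  simp only [mw]
  rw [← sum_setIntegral_part hA (integrable_wid Y)]
  apply Finset.sum_le_sum
  intro i _
  rw [inner_mom]
  apply setIntegral_mono_on (integrable_inner_std _).integrableOn (integrable_wid Y).integrableOn
    (hA.1 i)
  intro x _
  exact le_wid Y x i

lemma lipschitz_mw [LinearOrder ι] [Nonempty ι] :
    LipschitzWith (Real.toNNReal (∫ x : E, ‖x‖ ∂(stdGaussian E))) (mw : (ι → E) → ℝ) := by
  apply LipschitzWith.of_le_add_mul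
  intro Y Y'
  have hn : 0 ≤ ∫ x : E, ‖x‖ ∂(stdGaussian E) := integral_nonneg fun x => norm_nonneg x
  rw [Real.coe_toNNReal _ hn]
  have hint : Integrable (fun x : E => ‖x‖) (stdGaussian E) := integrable_id_std.norm
  have h1 : ∀ x, wid Y x ≤ wid Y' x + dist Y Y' * ‖x‖ := by
    intro x
    apply wid_le
    intro j
    have h2 : ⟪Y j, x⟫ = ⟪Y' j, x⟫ + ⟪Y j - Y' j, x⟫ := by
      rw [inner_sub_left]; ring
    rw [h2]
    have h3 := le_wid Y' x j
    have h4 : ⟪Y j - Y' j, x⟫ ≤ ‖Y j - Y' j‖ * ‖x‖ := real_inner_le_norm _ _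
    have h5 : ‖Y j - Y' j‖ ≤ dist Y Y' := by
      rw [← dist_eq_norm]
      exact dist_le_pi_dist Y Y' j
    have h6 : ‖Y j - Y' j‖ * ‖x‖ ≤ dist Y Y' * ‖x‖ :=
      mul_le_mul_of_nonneg_right h5 (norm_nonneg _)
    linarith
  have h2 : mw Y ≤ ∫ x, (wid Y' x + dist Y Y' * ‖x‖) ∂(stdGaussian E) :=
    integral_mono (integrable_wid Y) ((integrable_wid Y').add (hint.const_mul _)) h1
  rw [integral_add (integrable_wid Y') (hint.const_mul _), integral_const_mul] at h2
  simp only [mw] at h2 ⊢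
  linarith

lemma isCompact_sphere_sum : IsCompact {Y : ι → E | ∑ i, ‖Y i‖ ^ 2 = 1} := by
  apply Metric.isCompact_of_isClosed_isBounded
  · apply isClosed_eq
    · fun_prop
    · exact continuous_const
  · rw [isBounded_iff_forall_norm_le]
    refine ⟨1, fun Y hY => ?_⟩
    rw [pi_norm_le_iff_of_nonneg zero_le_one]
    intro i
    have h1 : ‖Y i‖ ^ 2 ≤ ∑ i, ‖Y i‖ ^ 2 :=
      Finset.single_le_sum (f := fun i => ‖Y i‖ ^ 2) (fun i _ => by positivity) (Finset.mem_univ i)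
    have h2 : ∑ i, ‖Y i‖ ^ 2 = 1 := hY
    rw [h2] at h1
    nlinarith [norm_nonneg (Y i)]

/-- Every partition with a positive value is dominated by a fixed point of the Lloyd map. -/
theorem exists_fixed [LinearOrder ι] [Nonempty ι] {A : ι → Set E} (hA : IsPart A)
    (hpos : 0 < Fval A) :
    ∃ w : ι → E, (∀ i, mom (vcell w i) = w i) ∧ Fval A ≤ ∑ i, ‖w i‖ ^ 2 := by
  set s : ℝ := √(Fval A) with hs
  have hs0 : 0 < s := Real.sqrt_pos.2 hpos
  have hss : s ^ 2 = Fval A := Real.sq_sqrt hpos.le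
  set Y0 : ι → E := fun i => s⁻¹ • mom (A i) with hY0
  have hY0S : Y0 ∈ {Y : ι → E | ∑ i, ‖Y i‖ ^ 2 = 1} := by
    change ∑ i, ‖Y0 i‖ ^ 2 = 1
    have : ∀ i, ‖Y0 i‖ ^ 2 = s⁻¹ ^ 2 * ‖mom (A i)‖ ^ 2 := by
      intro i
      simp only [hY0, norm_smul, norm_inv, Real.norm_eq_abs, abs_of_pos hs0]
      ring
    simp_rw [this]
    rw [← Finset.mul_sum]
    change s⁻¹ ^ 2 * Fval A = 1
    rw [← hss]
    field_simp
  obtain ⟨Y, hYS, hYmax⟩ := isCompact_sphere_sum.exists_isMaxOn ⟨Y0, hY0S⟩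
    (lipschitz_mw (ι := ι) (E := E)).continuous.continuousOn
  have hmax : ∀ Z ∈ {Y : ι → E | ∑ i, ‖Y i‖ ^ 2 = 1}, mw Z ≤ mw Y := fun Z hZ => hYmax hZ
  have hY1 : ∑ i, ‖Y i‖ ^ 2 = 1 := hYS
  have hge_s : s ≤ mw Y := by
    have h1 := sum_inner_mom_le hA Y0
    have h2 : ∑ i, ⟪Y0 i, mom (A i)⟫ = s := by
      simp only [hY0, inner_smul_left, conj_trivial, real_inner_self_eq_norm_sq]
      rw [← Finset.mul_sum]
      change s⁻¹ * Fval A = s
      rw [← hss]
      field_simp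
    linarith [hmax Y0 hY0S]
  set w : ι → E := fun i => mom (vcell Y i) with hw
  have hmwY : mw Y = ∑ i, ⟪Y i, w i⟫ := mw_eq Y
  have hFb : 0 < ∑ i, ‖w i‖ ^ 2 := by
    apply lt_of_le_of_ne (Finset.sum_nonneg fun i _ => by positivity)
    intro hc
    have h1 : ∀ i, w i = 0 := by
      intro i
      have h2 := (Finset.sum_eq_zero_iff_of_nonneg (fun i _ => by positivity)).1 hc.symm i
        (Finset.mem_univ i)
      simpa using h2
    have h3 : mw Y = 0 := by
      rw [hmwY]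
      simp [h1]
    linarith
  set sb : ℝ := √(∑ i, ‖w i‖ ^ 2) with hsb
  have hsb0 : 0 < sb := Real.sqrt_pos.2 hFb
  have hsbs : sb ^ 2 = ∑ i, ‖w i‖ ^ 2 := Real.sq_sqrt hFb.le
  set Y1 : ι → E := fun i => sb⁻¹ • w i with hY1def
  have hY1S : Y1 ∈ {Y : ι → E | ∑ i, ‖Y i‖ ^ 2 = 1} := by
    change ∑ i, ‖Y1 i‖ ^ 2 = 1
    have : ∀ i, ‖Y1 i‖ ^ 2 = sb⁻¹ ^ 2 * ‖w i‖ ^ 2 := by
      intro i
      simp only [hY1def, norm_smul, norm_inv, Real.norm_eq_abs, abs_of_pos hsb0]
      ring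
    simp_rw [this]
    rw [← Finset.mul_sum, ← hsbs]
    field_simp
  have hge_sb : sb ≤ mw Y := by
    have h1 := sum_inner_mom_le (isPart_vcell Y) Y1
    have h2 : ∑ i, ⟪Y1 i, mom (vcell Y i)⟫ = sb := by
      simp only [hY1def, inner_smul_left, conj_trivial]
      have : ∀ i, ⟪w i, mom (vcell Y i)⟫ = ‖w i‖ ^ 2 := by
        intro i
        rw [← real_inner_self_eq_norm_sq]
      simp_rw [this]
      rw [← Finset.mul_sum, ← hsbs]
      field_simp
    linarith [hmax Y1 hY1S]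
  -- the distance vanishes
  have hdist : ∑ i, ‖Y i - Y1 i‖ ^ 2 = 2 - 2 * (sb⁻¹ * mw Y) := by
    have h1 : ∀ i, ‖Y i - Y1 i‖ ^ 2 = ‖Y i‖ ^ 2 - 2 * (sb⁻¹ * ⟪Y i, w i⟫) + ‖Y1 i‖ ^ 2 := by
      intro i
      rw [norm_sub_sq_real]
      simp only [hY1def, inner_smul_right]
    simp_rw [h1]
    rw [Finset.sum_add_distrib, Finset.sum_sub_distrib, hY1, ← Finset.mul_sum, ← Finset.mul_sum,
      ← hmwY, show ∑ i, ‖Y1 i‖ ^ 2 = 1 from hY1S]
    ring
  have hdist0 : ∑ i, ‖Y i - Y1 i‖ ^ 2 ≤ 0 := by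
    rw [hdist]
    have : 1 ≤ sb⁻¹ * mw Y := by
      rw [inv_mul_eq_div, le_div_iff₀ hsb0]
      linarith
    linarith
  have hYeq : ∀ i, Y i = Y1 i := by
    intro i
    have h1 : ∑ i, ‖Y i - Y1 i‖ ^ 2 = 0 :=
      le_antisymm hdist0 (Finset.sum_nonneg fun i _ => by positivity)
    have h2 := (Finset.sum_eq_zero_iff_of_nonneg (fun i _ => by positivity)).1 h1 i
      (Finset.mem_univ i)
    have h3 : Y i - Y1 i = 0 := by simpa using h2
    exact sub_eq_zero.1 h3
  have hYfun : Y = fun i => sb⁻¹ • w i := funext hYeq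
  have hcell : vcell Y = vcell w := by
    rw [hYfun]
    exact vcell_smul w (inv_pos.2 hsb0)
  refine ⟨w, fun i => ?_, ?_⟩
  · rw [← hcell]
  · -- compare values
    have h1 : mw Y = sb := by
      rw [hmwY]
      have : ∀ i, ⟪Y i, w i⟫ = sb⁻¹ * ‖w i‖ ^ 2 := by
        intro i
        rw [hYeq i]
        simp only [hY1def, inner_smul_left, conj_trivial, real_inner_self_eq_norm_sq]
      simp_rw [this]
      rw [← Finset.mul_sum, ← hsbs]
      field_simp
    have h2 : s ≤ sb := by linarith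
    rw [← hss, ← hsbs]
    exact pow_le_pow_left₀ hs0.le h2 2

end Vale.Agent.P226h14
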