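import Vale.Agent.P226h14.Growth

open MeasureTheory ProbabilityTheory Real Set Filter Topology
open scoped ENNReal NNReal

namespace Vale.Agent.P226h14

lemma continuous_ph : Continuous ph := by
  unfold ph
  fun_prop

lemma ph_zero_pos : 0 < ph 0 := ph_pos 0

lemma ph_eq (u : ℝ) : ph u = ph 0 * Real.exp (-u ^ 2 / 2) := by
  unfold ph
  simp

/-- the upper tail of the standard Gaussian -/
noncomputable def Qf (u : ℝ) : ℝ := (gaussianReal 0 1).real (Ici u)

lemma Qf_nonneg (u : ℝ) : 0 ≤ Qf u := measureReal_nonneg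

lemma Qf_eq_integral (u : ℝ) : Qf u = ∫ r in Ioi u, ph r := by
  rw [Qf, gaussReal_eq_integral measurableSet_Ici, integral_Ici_eq_integral_Ioi]

lemma Qf_eq (u : ℝ) : Qf u = (∫ r in Ioi (0 : ℝ), ph r) - ∫ r in (0 : ℝ)..u, ph r := by
  rw [Qf_eq_integral]
  have hd : ∀ x ∈ Ici u, HasDerivAt (fun y => ∫ r in (0 : ℝ)..y, ph r) (ph x) x := fun x _ =>
    intervalIntegral.integral_hasDerivAt_right (integrable_ph.intervalIntegrable)
      (continuous_ph.stronglyMeasurableAtFilter _ _) continuous_ph.continuousAt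
  have ht : Tendsto (fun y => ∫ r in (0 : ℝ)..y, ph r) atTop (𝓝 (∫ r in Ioi (0 : ℝ), ph r)) :=
    intervalIntegral_tendsto_integral_Ioi 0 integrable_ph.integrableOn tendsto_id
  exact integral_Ioi_of_hasDerivAt_of_tendsto' hd integrable_ph.integrableOn ht

lemma hasDerivAt_Qf (u : ℝ) : HasDerivAt Qf (-ph u) u := by
  have h1 : Qf = fun u => (∫ r in Ioi (0 : ℝ), ph r) - ∫ r in (0 : ℝ)..u, ph r := by
    ext x; exact Qf_eq x
  rw [h1]
  exact (intervalIntegral.integral_hasDerivAt_right (integrable_ph.intervalIntegrable)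
      (continuous_ph.stronglyMeasurableAtFilter _ _) continuous_ph.continuousAt).const_sub _

/-- the tail in units of the density at zero -/
noncomputable def Qt (u : ℝ) : ℝ := Qf u / ph 0

lemma Qt_nonneg (u : ℝ) : 0 ≤ Qt u := div_nonneg (Qf_nonneg u) ph_zero_pos.le

lemma hasDerivAt_et (u : ℝ) : HasDerivAt (fun y : ℝ => Real.exp (-y ^ 2 / 2))
    (-(u * Real.exp (-u ^ 2 / 2))) u := by
  have h0 : HasDerivAt (fun y : ℝ => -y ^ 2 / 2) (-u) u := by
    have := ((hasDerivAt_pow 2 u).fun_neg).div_const 2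
    refine this.congr_deriv ?_
    simp
    ring
  have := h0.exp
  refine this.congr_deriv ?_
  ring

lemma hasDerivAt_Qt (u : ℝ) : HasDerivAt Qt (-Real.exp (-u ^ 2 / 2)) u := by
  have h := (hasDerivAt_Qf u).div_const (ph 0)
  refine h.congr_deriv ?_
  rw [ph_eq]
  have := ph_zero_pos.ne'
  field_simp

lemma continuous_Qt : Continuous Qt :=
  continuous_iff_continuousAt.2 fun u => (hasDerivAt_Qt u).continuousAt

/-- the convex part of the bound function -/
noncomputable def Ac (c u : ℝ) : ℝ := c * Real.exp (-u ^ 2 / 2) - 2 * u * Qt u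

/-- the monotone part of the bound function -/
noncomputable def Psi (u : ℝ) : ℝ := Real.exp (-u ^ 2 / 2) - u * Qt u

lemma hasDerivAt_Ac (c u : ℝ) : HasDerivAt (Ac c)
    ((2 - c) * u * Real.exp (-u ^ 2 / 2) - 2 * Qt u) u := by
  have h1 := (hasDerivAt_et u).const_mul c
  have h2 := ((hasDerivAt_id u).const_mul 2).mul (hasDerivAt_Qt u)
  have h3 := h1.sub h2
  refine (h3.congr_of_eventuallyEq (Eventually.of_forall fun y => ?_)).congr_deriv ?_
  · simp [Ac]
  · simp
    ring

lemma hasDerivAt_Ac' (c u : ℝ) : HasDerivAt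
    (fun y => (2 - c) * y * Real.exp (-y ^ 2 / 2) - 2 * Qt y)
    (Real.exp (-u ^ 2 / 2) * ((2 - c) * (1 - u ^ 2) + 2)) u := by
  have h1 := (((hasDerivAt_id u).const_mul (2 - c))).mul (hasDerivAt_et u)
  have h2 := (hasDerivAt_Qt u).const_mul 2
  have h3 := h1.sub h2
  refine (h3.congr_of_eventuallyEq (Eventually.of_forall fun y => ?_)).congr_deriv ?_
  · simp
  · simp
    ring

lemma hasDerivAt_Psi (u : ℝ) : HasDerivAt Psi (-Qt u) u := by
  have h2 := (hasDerivAt_id u).mul (hasDerivAt_Qt u)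
  have h3 := (hasDerivAt_et u).sub h2
  refine (h3.congr_of_eventuallyEq (Eventually.of_forall fun y => ?_)).congr_deriv ?_
  · simp [Psi]
  · simp

lemma Psi_anti {t u : ℝ} (h : t ≤ u) : Psi u ≤ Psi t := by
  have hd : Differentiable ℝ Psi := fun x => (hasDerivAt_Psi x).differentiableAt
  have : Antitone Psi := antitone_of_deriv_nonpos hd fun x => by
    rw [(hasDerivAt_Psi x).deriv]
    linarith [Qt_nonneg x]
  exact this h

/-- endpoint bound for the convex part -/
lemma Ac_le_max {c t u T : ℝ} (hc : c < 2) (h2 : (2 - c) * (T ^ 2 - 1) ≤ 2) (ht : 0 ≤ t)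
    (htu : t ≤ u) (huT : u ≤ T) : Ac c u ≤ max (Ac c t) (Ac c T) := by
  have hT : 0 ≤ T := ht.trans (htu.trans huT)
  have hconv : ConvexOn ℝ (Icc t T) (Ac c) := by
    refine convexOn_of_hasDerivWithinAt2_nonneg (f' := fun y => (2 - c) * y * Real.exp (-y ^ 2 / 2) - 2 * Qt y)
      (f'' := fun u => Real.exp (-u ^ 2 / 2) * ((2 - c) * (1 - u ^ 2) + 2))
      (convex_Icc t T) ?_ (fun x _ => ?_) (fun x _ => ?_) (fun x hx => ?_)
    · exact fun x _ => (hasDerivAt_Ac c x).continuousAt.continuousWithinAt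
    · exact (hasDerivAt_Ac c x).hasDerivWithinAt
    · exact (hasDerivAt_Ac' c x).hasDerivWithinAt
    · rw [interior_Icc] at hx
      apply mul_nonneg (Real.exp_pos _).le
      have h3 : x ^ 2 ≤ T ^ 2 := pow_le_pow_left₀ (ht.trans hx.1.le) hx.2.le 2
      have h4 : (2 - c) * (x ^ 2 - 1) ≤ (2 - c) * (T ^ 2 - 1) :=
        mul_le_mul_of_nonneg_left (by linarith) (by linarith)
      nlinarith
  exact hconv.le_max_of_mem_Icc (left_mem_Icc.2 (htu.trans huT)) (right_mem_Icc.2 (htu.trans huT))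
    ⟨htu, huT⟩

/-- cross bound for the convex part -/
lemma Ac_le_cross {c t u T : ℝ} (hc : 0 ≤ c) (ht : 0 ≤ t) (htu : t ≤ u) (huT : u ≤ T) :
    Ac c u ≤ c * Real.exp (-t ^ 2 / 2) - 2 * t * Qt T := by
  have h1 : Real.exp (-u ^ 2 / 2) ≤ Real.exp (-t ^ 2 / 2) := by
    apply Real.exp_le_exp.2
    have : t ^ 2 ≤ u ^ 2 := pow_le_pow_left₀ ht htu 2
    linarith
  have h2 : Qt T ≤ Qt u := by
    have hd : Differentiable ℝ Qt := fun x => (hasDerivAt_Qt x).differentiableAt
    have : Antitone Qt := antitone_of_deriv_nonpos hd fun x => by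
      rw [(hasDerivAt_Qt x).deriv]
      linarith [Real.exp_pos (-x ^ 2 / 2)]
    exact this huT
  have h3 : t * Qt T ≤ u * Qt u :=
    mul_le_mul htu h2 (Qt_nonneg T) (ht.trans htu)
  have h4 := mul_le_mul_of_nonneg_left h1 hc
  simp only [Ac]
  linarith

/-- decomposition of the bound function -/
lemma bound_decomp (c a u : ℝ) :
    (c + 2 * a) * Real.exp (-u ^ 2 / 2) - 2 * (1 + a) * u * Qt u = Ac c u + 2 * a * Psi u := by
  simp only [Ac, Psi]
  ring

/-- Jensen lower bound for a Gaussian interval -/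
lemma gauss_Ioc_jensen {a b : ℝ} (hab : a ≤ b) :
    (b - a) * ph 0 * Real.exp (-(a ^ 2 + a * b + b ^ 2) / 6) ≤ (gaussianReal 0 1).real (Ioc a b) := by
  rw [gaussReal_eq_integral measurableSet_Ioc]
  set m : ℝ := (a ^ 2 + a * b + b ^ 2) / 6 with hm
  have he : -(a ^ 2 + a * b + b ^ 2) / 6 = -m := by rw [hm]; ring
  rw [he]
  set K : ℝ := ph 0 * Real.exp (-m) with hK
  have hK0 : 0 ≤ K := by
    have := ph_zero_pos
    positivity
  have hpt : ∀ r, K * (1 + m - r ^ 2 / 2) ≤ ph r := by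
    intro r
    have h1 : m - r ^ 2 / 2 + 1 ≤ Real.exp (m - r ^ 2 / 2) := Real.add_one_le_exp _
    have h2 : ph r = K * Real.exp (m - r ^ 2 / 2) := by
      rw [ph_eq, hK, mul_assoc, ← Real.exp_add]
      congr 2
      ring
    rw [h2]
    apply mul_le_mul_of_nonneg_left _ hK0
    linarith
  have hcont : Continuous fun r : ℝ => K * (1 + m - r ^ 2 / 2) := by fun_prop
  have h1 : ∫ r in Ioc a b, K * (1 + m - r ^ 2 / 2) ≤ ∫ r in Ioc a b, ph r := by
    apply setIntegral_mono_on
    · exact (hcont.integrableOn_Icc (a := a) (b := b)).mono_set Ioc_subset_Icc_self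
    · exact integrable_ph.integrableOn
    · exact measurableSet_Ioc
    · intro r _
      exact hpt r
  refine le_trans (le_of_eq ?_) h1
  rw [← intervalIntegral.integral_of_le hab]
  have hF : ∀ x ∈ uIcc a b, HasDerivAt (fun r : ℝ => K * ((1 + m) * r - r ^ 3 / 6))
      (K * (1 + m - x ^ 2 / 2)) x := by
    intro x _
    have h3 : HasDerivAt (fun r : ℝ => r ^ 3 / 6) (x ^ 2 / 2) x := by
      have := (hasDerivAt_pow 3 x).div_const 6
      refine this.congr_deriv ?_
      simp
      ring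
    have h4 : HasDerivAt (fun r : ℝ => (1 + m) * r) (1 + m) x := by
      simpa using (hasDerivAt_id x).const_mul (1 + m)
    have := (h4.sub h3).const_mul K
    exact this
  rw [intervalIntegral.integral_eq_sub_of_hasDerivAt hF (hcont.intervalIntegrable _ _)]
  rw [hm]
  ring

/-- lower bound for the tail increments -/
lemma Qt_step {t T : ℝ} (h : t ≤ T) :
    Qt T + (T - t) * Real.exp (-(t ^ 2 + t * T + T ^ 2) / 6) ≤ Qt t := by
  have h1 := gauss_Ioc_jensen h
  have h2 : Qf t = Qf T + (gaussianReal 0 1).real (Ioc t T) := by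
    rw [gaussReal_eq_integral measurableSet_Ioc, ← intervalIntegral.integral_of_le h, Qf_eq, Qf_eq]
    have := intervalIntegral.integral_add_adjacent_intervals
      (integrable_ph.intervalIntegrable (a := 0) (b := t))
      (integrable_ph.intervalIntegrable (a := t) (b := T))
    linarith
  have h0 := ph_zero_pos
  simp only [Qt]
  rw [h2, add_div]
  have h3 : (T - t) * ph 0 * Real.exp (-(t ^ 2 + t * T + T ^ 2) / 6) / ph 0 ≤
      (gaussianReal 0 1).real (Ioc t T) / ph 0 :=
    div_le_div_of_nonneg_right h1 h0.le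
  have h4 : (T - t) * ph 0 * Real.exp (-(t ^ 2 + t * T + T ^ 2) / 6) / ph 0 =
      (T - t) * Real.exp (-(t ^ 2 + t * T + T ^ 2) / 6) := by
    field_simp
  rw [h4] at h3
  linarith

/-- Mills bound in units of the density at zero -/
lemma Qt_mills (u : ℝ) : u * Real.exp (-u ^ 2 / 2) ≤ (1 + u ^ 2) * Qt u := by
  have h1 := mills u
  have h0 := ph_zero_pos
  rw [ph_eq] at h1
  simp only [Qt]
  change u * (ph 0 * Real.exp (-u ^ 2 / 2)) ≤ (1 + u ^ 2) * Qf u at h1
  rw [← mul_div_assoc, le_div_iff₀ h0]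
  linarith

/-- The integral of the triangular kernel against the density, with a chord bound. -/
lemma tri_integral {a b l θ Y : ℝ} (hab : a < b)
    (hl : ∀ r ∈ Ioc a b, l ≤ r ^ 2 / 2 ∧ r ^ 2 / 2 - l ≤ Y)
    (hch : ∀ y, 0 ≤ y → y ≤ Y → Real.exp (-y) ≤ 1 - θ * y) :
    ∫ r in Ioc a b, ph r * ((r - a) / (b - a)) ≤
      ph 0 * ((b - a) / 2) *
        Real.exp (-(l + θ * ((b ^ 2 - 2 * b * (b - a) / 3 + (b - a) ^ 2 / 6) / 2 - l))) := by
  set L : ℝ := b - a with hL
  have hL0 : 0 < L := by rw [hL]; linarith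
  set K : ℝ := ph 0 * Real.exp (-l) with hK
  have hK0 : 0 ≤ K := by
    have := ph_zero_pos
    positivity
  have hpt : ∀ r ∈ Ioc a b, ph r * ((r - a) / L) ≤
      K * ((1 - θ * (r ^ 2 / 2 - l)) * ((r - a) / L)) := by
    intro r hr
    have h0 : 0 ≤ (r - a) / L := div_nonneg (by linarith [hr.1]) hL0.le
    rw [← mul_assoc]
    apply mul_le_mul_of_nonneg_right _ h0
    obtain ⟨h1, h2⟩ := hl r hr
    have h3 := hch (r ^ 2 / 2 - l) (by linarith) h2
    have h4 : ph r = K * Real.exp (-(r ^ 2 / 2 - l)) := by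
      rw [ph_eq, hK, mul_assoc, ← Real.exp_add]
      congr 2
      ring
    rw [h4]
    exact mul_le_mul_of_nonneg_left h3 hK0
  have hcont : Continuous fun r : ℝ => K * ((1 - θ * (r ^ 2 / 2 - l)) * ((r - a) / L)) := by
    fun_prop
  have hcont2 : Continuous fun r : ℝ => ph r * ((r - a) / L) := by
    have := continuous_ph
    fun_prop
  have h1 : ∫ r in Ioc a b, ph r * ((r - a) / L) ≤
      ∫ r in Ioc a b, K * ((1 - θ * (r ^ 2 / 2 - l)) * ((r - a) / L)) := by
    apply setIntegral_mono_on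
    · exact (hcont2.integrableOn_Icc (a := a) (b := b)).mono_set Ioc_subset_Icc_self
    · exact (hcont.integrableOn_Icc (a := a) (b := b)).mono_set Ioc_subset_Icc_self
    · exact measurableSet_Ioc
    · exact hpt
  refine h1.trans ?_
  have hval : ∫ r in Ioc a b, K * ((1 - θ * (r ^ 2 / 2 - l)) * ((r - a) / L)) =
      K * ((L / 2) * (1 - θ * ((b ^ 2 - 2 * b * L / 3 + L ^ 2 / 6) / 2 - l))) := by
    rw [← intervalIntegral.integral_of_le hab.le]
    have hF : ∀ x ∈ uIcc a b, HasDerivAt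
        (fun r : ℝ => K * (((1 + θ * l) * (r ^ 2 / 2 - a * r) -
          θ / 2 * (r ^ 4 / 4 - a * r ^ 3 / 3)) / L))
        (K * ((1 - θ * (x ^ 2 / 2 - l)) * ((x - a) / L))) x := by
      intro x _
      have h2 : HasDerivAt (fun r : ℝ => r ^ 2 / 2 - a * r) (x - a) x := by
        have h3 := (hasDerivAt_pow 2 x).div_const 2
        have h4 := (hasDerivAt_id x).const_mul a
        refine (h3.sub h4).congr_deriv ?_
        simp
      have h5 : HasDerivAt (fun r : ℝ => r ^ 4 / 4 - a * r ^ 3 / 3) (x ^ 3 - a * x ^ 2) x := by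
        have h3 := (hasDerivAt_pow 4 x).div_const 4
        have h4 := ((hasDerivAt_pow 3 x).const_mul a).div_const 3
        refine (h3.sub h4).congr_deriv ?_
        simp
        ring
      have h6 := (((h2.const_mul (1 + θ * l)).sub (h5.const_mul (θ / 2))).div_const L).const_mul K
      refine h6.congr_deriv ?_
      field_simp
      ring
    rw [intervalIntegral.integral_eq_sub_of_hasDerivAt hF (hcont.intervalIntegrable _ _)]
    have ha : a = b - L := by rw [hL]; ring
    rw [ha]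
    field_simp
    ring
  rw [hval]
  have h2 : (L / 2) * (1 - θ * ((b ^ 2 - 2 * b * L / 3 + L ^ 2 / 6) / 2 - l)) ≤
      (L / 2) * Real.exp (-(θ * ((b ^ 2 - 2 * b * L / 3 + L ^ 2 / 6) / 2 - l))) := by
    apply mul_le_mul_of_nonneg_left _ (by positivity)
    have := Real.add_one_le_exp (-(θ * ((b ^ 2 - 2 * b * L / 3 + L ^ 2 / 6) / 2 - l)))
    linarith
  have h3 := mul_le_mul_of_nonneg_left h2 hK0
  refine h3.trans (le_of_eq ?_)
  rw [hK, mul_assoc (ph 0), mul_assoc (ph 0)]
  congr 1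
  have : Real.exp (-(l + θ * ((b ^ 2 - 2 * b * L / 3 + L ^ 2 / 6) / 2 - l))) =
      Real.exp (-l) * Real.exp (-(θ * ((b ^ 2 - 2 * b * L / 3 + L ^ 2 / 6) / 2 - l))) := by
    rw [← Real.exp_add]
    congr 1
    ring
  rw [this]
  ring

end Vale.Agent.P226h14
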