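import Vale.Agent.P226h14.Chain

open MeasureTheory ProbabilityTheory Real Set Filter Topology
open scoped RealInnerProductSpace ENNReal

namespace Vale.Agent.P226h14

variable {E : Type*} [NormedAddCommGroup E] [InnerProductSpace ℝ E] [FiniteDimensional ℝ E]
  [MeasurableSpace E] [BorelSpace E]

lemma measurableSet_KL {ι : Type*} [Fintype ι] (v : ι → E) (L : ι → ℝ) :
    MeasurableSet {x | ∀ l, ⟪v l, x⟫ ≤ L l} := by
  have : {x | ∀ l, ⟪v l, x⟫ ≤ L l} = ⋂ l, {x | ⟪v l, x⟫ ≤ L l} := by
    ext x; simp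
  rw [this]
  exact MeasurableSet.iInter fun l => measurableSet_le (measurable_inner_left _) measurable_const

lemma measurableSet_layerL {ι : Type*} [Fintype ι] (v : ι → E) (j : ι) (L : ι → ℝ) {t T : ℝ} :
    MeasurableSet {x | t < ⟪v j, x⟫ ∧ ⟪v j, x⟫ ≤ T ∧ ∀ l, l ≠ j → ⟪v l, x⟫ ≤ L l} := by
  have : {x | ∀ l, l ≠ j → ⟪v l, x⟫ ≤ L l} = ⋂ l, ⋂ (_ : l ≠ j), {x | ⟪v l, x⟫ ≤ L l} := by
    ext x; simp
  have h3 : MeasurableSet {x | ∀ l, l ≠ j → ⟪v l, x⟫ ≤ L l} := by
    rw [this]
    exact MeasurableSet.iInter fun l => MeasurableSet.iInter fun _ =>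
      measurableSet_le (measurable_inner_left _) measurable_const
  exact (measurableSet_lt measurable_const (measurable_inner_left _)).inter
    ((measurableSet_le (measurable_inner_left _) measurable_const).inter h3)

/-- The growth lemma with a triangular kernel. -/
lemma growth_kernelL {ι : Type*} [Fintype ι] (v : ι → E) (j : ι) (L : ι → ℝ)
    (hneg : ∀ l, l ≠ j → ⟪v l, v j⟫ ≤ 0) (hvj : v j ≠ 0) {t T h l θ Y : ℝ} (hLj : L j = t)
    (ht : 0 < t) (htT : t < T) (hh : 0 < h)
    (hl : ∀ u ∈ Ioc (t - h) t, l ≤ u ^ 2 / 2 ∧ u ^ 2 / 2 - l ≤ Y)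
    (hch : ∀ y, 0 ≤ y → y ≤ (‖v j‖ ^ 2)⁻¹ * Y → Real.exp (-y) ≤ 1 - θ * y) :
    2 * (T - t) / h * Real.exp (-((‖v j‖ ^ 2)⁻¹ * ((T ^ 2 + t * T + t ^ 2) / 6 - (l + θ *
        ((t ^ 2 - 2 * t * h / 3 + h ^ 2 / 6) / 2 - l))))) *
      ∫ y in {x | ∀ m, ⟪v m, x⟫ ≤ L m}, max 0 (1 - (t - ⟪v j, y⟫) / h) ∂(stdGaussian E) ≤
      (stdGaussian E).real {x | t < ⟪v j, x⟫ ∧ ⟪v j, x⟫ ≤ T ∧ ∀ m, m ≠ j → ⟪v m, x⟫ ≤ L m} := by
  classical
  set s : ℝ := ‖v j‖ with hs
  have hs0 : 0 < s := norm_pos_iff.2 hvj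
  set X : ℝ := (s ^ 2)⁻¹ with hX
  have hX0 : 0 < X := by positivity
  set w : E := s⁻¹ • v j with hw
  have hw1 : ‖w‖ = 1 := by
    rw [hw, norm_smul, norm_inv, norm_norm, ← hs]
    field_simp
  have hvw : ⟪v j, w⟫ = s := by
    rw [hw, inner_smul_right, real_inner_self_eq_norm_sq, ← hs]
    field_simp
  have hwx : ∀ x, ⟪w, x⟫ = s⁻¹ * ⟪v j, x⟫ := by
    intro x
    rw [hw, inner_smul_left]
    simp
  have hjs : ∀ x r, ⟪v j, slice w (x, r)⟫ = s * r := by
    intro x r
    rw [inner_slice, hvw, hwx]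
    field_simp
    ring
  have hls : ∀ m, m ≠ j → ⟪v m, w⟫ ≤ 0 := by
    intro m hm
    rw [hw, inner_smul_right]
    have := hneg m hm
    have h2 : 0 ≤ s⁻¹ := by positivity
    nlinarith
  set K : Set E := {x | ∀ m, ⟪v m, x⟫ ≤ L m} with hK
  set S : Set E := {x | t < ⟪v j, x⟫ ∧ ⟪v j, x⟫ ≤ T ∧ ∀ m, m ≠ j → ⟪v m, x⟫ ≤ L m} with hS
  have hmK : MeasurableSet K := measurableSet_KL v L
  have hmS : MeasurableSet S := measurableSet_layerL v j L
  set q : E → ℝ := fun y => max 0 (1 - (t - ⟪v j, y⟫) / h) with hq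
  have hmq : Measurable q := by
    have := measurable_inner_left (E := E) (v j)
    simp only [hq]
    fun_prop
  set f : E → ℝ := K.indicator q with hf
  set g : E → ℝ := S.indicator (fun _ => (1 : ℝ)) with hg
  have hfi : Integrable f (stdGaussian E) := by
    refine Integrable.mono' (integrable_const (1 : ℝ)) (hmq.indicator hmK).aestronglyMeasurable
      (ae_of_all _ fun y => ?_)
    by_cases hy : y ∈ K
    · simp only [hf, indicator_of_mem hy, hq]
      have h1 : 0 ≤ (t - ⟪v j, y⟫) / h := div_nonneg (by linarith [hy j, hLj]) hh.le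
      rw [Real.norm_of_nonneg (le_max_left _ _)]
      exact max_le zero_le_one (by linarith)
    · simp [hf, indicator_of_notMem hy]
  have hgi : Integrable g (stdGaussian E) := (integrable_const (1 : ℝ)).indicator hmS
  have e1 : ∫ y in K, q y ∂(stdGaussian E) = ∫ y, f y ∂(stdGaussian E) :=
    (integral_indicator hmK).symm
  have e2 : (stdGaussian E).real S = ∫ y, g y ∂(stdGaussian E) := by
    simp only [hg]
    rw [integral_indicator hmS]
    simp
  change _ * ∫ y in K, q y ∂(stdGaussian E) ≤ (stdGaussian E).real S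
  rw [e1, e2, integral_slice w hw1 hfi, integral_slice w hw1 hgi, ← integral_const_mul]
  have hi1 := (integrable_slice w hw1 hfi).2
  have hi2 := (integrable_slice w hw1 hgi).2
  apply integral_mono (hi1.const_mul _) hi2
  intro x
  simp only
  set A : Set ℝ := {r | slice w (x, r) ∈ K} with hA
  set D : Set ℝ := {r | slice w (x, r) ∈ S} with hD
  have hcs : Measurable fun r : ℝ => slice w (x, r) :=
    (measurable_slice w).comp (measurable_const.prodMk measurable_id)
  have hmA : MeasurableSet A := hcs hmK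
  have hmD : MeasurableSet D := hcs hmS
  set a : ℝ := (t - h) / s with ha
  set b : ℝ := t / s with hb
  have hL : b - a = h / s := by
    rw [ha, hb]
    field_simp
    ring
  have hab : a < b := by
    have : 0 < h / s := by positivity
    linarith
  have hf1 : (fun r => f (slice w (x, r))) = A.indicator (fun r => max 0 ((r - a) / (b - a))) := by
    ext r
    by_cases hr : r ∈ A
    · have hr' : slice w (x, r) ∈ K := hr
      rw [indicator_of_mem hr]
      simp only [hf, indicator_of_mem hr', hq]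
      rw [hjs, hL, ha]
      congr 1
      field_simp
      ring
    · have hr' : slice w (x, r) ∉ K := hr
      rw [indicator_of_notMem hr]
      simp only [hf, indicator_of_notMem hr']
  have hg1 : (fun r => g (slice w (x, r))) = D.indicator (fun _ => (1 : ℝ)) := by
    ext r
    by_cases hr : r ∈ D
    · have hr' : slice w (x, r) ∈ S := hr
      rw [indicator_of_mem hr]
      simp only [hg, indicator_of_mem hr']
    · have hr' : slice w (x, r) ∉ S := hr
      rw [indicator_of_notMem hr]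
      simp only [hg, indicator_of_notMem hr']
  rw [hf1, hg1, integral_indicator hmD]
  simp only [integral_const, smul_eq_mul, mul_one, measureReal_restrict_apply MeasurableSet.univ,
    univ_inter]
  by_cases hne : A.Nonempty
  · obtain ⟨r0, hr0⟩ := hne
    have hsubA : A ⊆ Iic b := by
      intro r hr
      have h1 := hr j
      rw [hjs] at h1
      simp only [mem_Iic, hb]
      rw [le_div_iff₀ hs0]
      linarith
    have hsubD : Ioc (t / s) (T / s) ⊆ D := by
      intro r hr
      have hr1 : t < s * r := by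
        have := hr.1
        rw [div_lt_iff₀ hs0] at this
        linarith
      have hr2 : s * r ≤ T := by
        have := hr.2
        rw [le_div_iff₀ hs0] at this
        linarith
      refine ⟨by rw [hjs]; exact hr1, by rw [hjs]; exact hr2, ?_⟩
      intro m hm
      have h0 := hr0 m
      have hr0j := hr0 j
      rw [hjs] at hr0j
      rw [inner_slice] at h0 ⊢
      have hle : r0 ≤ r := by
        nlinarith
      have := hls m hm
      nlinarith
    have hlr : ∀ r ∈ Ioc a b, X * l ≤ r ^ 2 / 2 ∧ r ^ 2 / 2 - X * l ≤ X * Y := by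
      intro r hr
      have hu : s * r ∈ Ioc (t - h) t := by
        constructor
        · have := hr.1
          rw [ha, div_lt_iff₀ hs0] at this
          linarith
        · have := hr.2
          rw [hb, le_div_iff₀ hs0] at this
          linarith
      obtain ⟨h1, h2⟩ := hl _ hu
      have h3 : r ^ 2 / 2 = X * ((s * r) ^ 2 / 2) := by
        rw [hX]
        field_simp
      rw [h3]
      constructor
      · exact mul_le_mul_of_nonneg_left h1 hX0.le
      · have := mul_le_mul_of_nonneg_left h2 hX0.le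
        linarith
    have hsb := section_bound hmA hab hsubA hlr hch
    have hP := gauss_Ioc_jensen (a := t / s) (b := T / s)
      (div_le_div_of_nonneg_right htT.le hs0.le)
    have hD2 : (gaussianReal 0 1).real (Ioc (t / s) (T / s)) ≤ (gaussianReal 0 1).real D :=
      measureReal_mono hsubD
    refine le_trans ?_ (hP.trans hD2)
    set C : ℝ := 2 * (T - t) / h * Real.exp (-(X * ((T ^ 2 + t * T + t ^ 2) / 6 - (l + θ *
        ((t ^ 2 - 2 * t * h / 3 + h ^ 2 / 6) / 2 - l))))) with hC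
    have hC0 : 0 ≤ C := by
      have : 0 ≤ T - t := by linarith
      positivity
    refine (mul_le_mul_of_nonneg_left hsb hC0).trans (le_of_eq ?_)
    rw [hC, hL]
    have e3 : b ^ 2 - 2 * b * (h / s) / 3 + (h / s) ^ 2 / 6 =
        X * (t ^ 2 - 2 * t * h / 3 + h ^ 2 / 6) := by
      rw [hb, hX]
      field_simp
    rw [e3]
    have e4 : -((t / s) ^ 2 + t / s * (T / s) + (T / s) ^ 2) / 6 =
        -(X * ((T ^ 2 + t * T + t ^ 2) / 6)) := by
      rw [hX]
      field_simp
      ring
    rw [e4]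
    have e5 : Real.exp (-(X * ((T ^ 2 + t * T + t ^ 2) / 6))) =
        Real.exp (-(X * ((T ^ 2 + t * T + t ^ 2) / 6 - (l + θ *
        ((t ^ 2 - 2 * t * h / 3 + h ^ 2 / 6) / 2 - l))))) *
        Real.exp (-(X * l + θ * (X * (t ^ 2 - 2 * t * h / 3 + h ^ 2 / 6) / 2 - X * l))) := by
      rw [← Real.exp_add]
      congr 1
      ring
    rw [e5]
    have e6 : T / s - t / s = (T - t) / s := by ring
    rw [e6]
    field_simp
  · rw [not_nonempty_iff_eq_empty] at hne
    rw [hne]
    simp

/-- The basic per vertex inequality behind the multi level chain. -/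
lemma lemmaLv {ι : Type*} [Fintype ι] (v : ι → E) (j : ι) (L : ι → ℝ)
    (hneg : ∀ l, l ≠ j → ⟪v l, v j⟫ ≤ 0) (hvj : v j ≠ 0) {t T al lam c η l θ Y xbar mlow e : ℝ}
    (hLj : L j = t)
    (ht : 0 < t) (htT : t < T) (hal : 0 < al) (hlam : 0 < lam) (hc : 0 ≤ c)
    (hx : (‖v j‖ ^ 2)⁻¹ ≤ xbar) (hθ : 0 ≤ θ)
    (hmain : 0 < η →
      (∀ u ∈ Ioc (t - η / (lam * al)) t, l ≤ u ^ 2 / 2 ∧ u ^ 2 / 2 - l ≤ Y) ∧
      (∀ y, 0 ≤ y → y ≤ xbar * Y → Real.exp (-y) ≤ 1 - θ * y) ∧ 0 ≤ Y ∧
      mlow ≤ t ^ 2 - 2 * t * (η / (lam * al)) / 3 + (η / (lam * al)) ^ 2 / 6 ∧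
      0 ≤ (T ^ 2 + t * T + t ^ 2) / 6 - (l + θ * (mlow / 2 - l)) ∧
      e ≤ Real.exp (-(xbar * ((T ^ 2 + t * T + t ^ 2) / 6 - (l + θ * (mlow / 2 - l))))) ∧
      η ^ 2 ≤ 2 * (T - t) * lam * c * al * e) :
    ∫ y in {x | ∀ m, ⟪v m, x⟫ ≤ L m}, (η - lam * al * (t - ⟪v j, y⟫)) ∂(stdGaussian E) ≤
      c * (stdGaussian E).real {x | t < ⟪v j, x⟫ ∧ ⟪v j, x⟫ ≤ T ∧ ∀ m, m ≠ j → ⟪v m, x⟫ ≤ L m} := by
  set K : Set E := {x | ∀ m, ⟪v m, x⟫ ≤ L m} with hK
  have hmK : MeasurableSet K := measurableSet_KL v L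
  have hRHS : 0 ≤ c * (stdGaussian E).real
      {x | t < ⟪v j, x⟫ ∧ ⟪v j, x⟫ ≤ T ∧ ∀ m, m ≠ j → ⟪v m, x⟫ ≤ L m} :=
    mul_nonneg hc measureReal_nonneg
  have hcst : Integrable (fun y : E => η - lam * al * (t - ⟪v j, y⟫)) (stdGaussian E) := by
    have h1 : Integrable (fun y : E => ⟪v j, y⟫) (stdGaussian E) :=
      IsGaussian.integrable_dual (stdGaussian E) (innerSL ℝ (v j))
    exact (integrable_const _).sub (((integrable_const _).sub h1).const_mul _)
  by_cases hη : 0 < η
  · obtain ⟨h1, h2, hY, h3, h4, h5, h6⟩ := hmain hη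
    set h : ℝ := η / (lam * al) with hh
    have hh0 : 0 < h := by positivity
    set X : ℝ := (‖v j‖ ^ 2)⁻¹ with hX
    have hX0 : 0 < X := by
      have := norm_pos_iff.2 hvj
      positivity
    have hch : ∀ y, 0 ≤ y → y ≤ X * Y → Real.exp (-y) ≤ 1 - θ * y := by
      intro y hy0 hy1
      exact h2 y hy0 (hy1.trans (mul_le_mul_of_nonneg_right hx hY))
    have hg := growth_kernelL v j L hneg hvj hLj ht htT hh0 h1 hch
    set q : E → ℝ := fun y => max 0 (1 - (t - ⟪v j, y⟫) / h) with hq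
    have hmq : Measurable q := by
      have := measurable_inner_left (E := E) (v j)
      simp only [hq]
      fun_prop
    -- the integrand is below a multiple of the kernel
    have hle : ∫ y in K, (η - lam * al * (t - ⟪v j, y⟫)) ∂(stdGaussian E) ≤
        ∫ y in K, η * q y ∂(stdGaussian E) := by
      have hqi : IntegrableOn (fun y => η * q y) K (stdGaussian E) := by
        have : Integrable (K.indicator q) (stdGaussian E) := by
          refine Integrable.mono' (integrable_const (1 : ℝ))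
            (hmq.indicator hmK).aestronglyMeasurable (ae_of_all _ fun y => ?_)
          by_cases hy : y ∈ K
          · simp only [indicator_of_mem hy, hq]
            have h7 : 0 ≤ (t - ⟪v j, y⟫) / h := div_nonneg (by linarith [hy j, hLj]) hh0.le
            rw [Real.norm_of_nonneg (le_max_left _ _)]
            exact max_le zero_le_one (by linarith)
          · simp [indicator_of_notMem hy]
        exact ((integrable_indicator_iff hmK).1 this).const_mul η
      apply setIntegral_mono_on hcst.integrableOn hqi hmK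
      intro y _
      have h8 : η - lam * al * (t - ⟪v j, y⟫) = η * (1 - (t - ⟪v j, y⟫) / h) := by
        rw [hh]
        field_simp
      rw [h8]
      exact mul_le_mul_of_nonneg_left (le_max_right _ _) hη.le
    refine hle.trans ?_
    rw [integral_const_mul]
    refine le_trans ?_ (mul_le_mul_of_nonneg_left hg hc)
    rw [← mul_assoc]
    apply mul_le_mul_of_nonneg_right _ (setIntegral_nonneg hmK fun y _ => le_max_left _ _)
    -- the constants
    have hexp : e ≤ Real.exp (-(X * ((T ^ 2 + t * T + t ^ 2) / 6 - (l + θ *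
        ((t ^ 2 - 2 * t * h / 3 + h ^ 2 / 6) / 2 - l))))) := by
      refine h5.trans (Real.exp_le_exp.2 ?_)
      have h9 : (T ^ 2 + t * T + t ^ 2) / 6 - (l + θ * ((t ^ 2 - 2 * t * h / 3 + h ^ 2 / 6) / 2 - l))
          ≤ (T ^ 2 + t * T + t ^ 2) / 6 - (l + θ * (mlow / 2 - l)) := by
        have := mul_le_mul_of_nonneg_left (show mlow / 2 - l ≤
          (t ^ 2 - 2 * t * h / 3 + h ^ 2 / 6) / 2 - l by linarith) hθ
        linarith
      have h10 : X * ((T ^ 2 + t * T + t ^ 2) / 6 - (l + θ *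
          ((t ^ 2 - 2 * t * h / 3 + h ^ 2 / 6) / 2 - l))) ≤
          xbar * ((T ^ 2 + t * T + t ^ 2) / 6 - (l + θ * (mlow / 2 - l))) := by
        calc _ ≤ X * ((T ^ 2 + t * T + t ^ 2) / 6 - (l + θ * (mlow / 2 - l))) :=
              mul_le_mul_of_nonneg_left h9 hX0.le
          _ ≤ _ := mul_le_mul_of_nonneg_right hx h4
      linarith
    have h11 : 0 ≤ 2 * (T - t) / h := by
      have : 0 ≤ T - t := by linarith
      positivity
    have h12 : c * (2 * (T - t) / h * e) ≤ c * (2 * (T - t) / h * Real.exp (-(X *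
        ((T ^ 2 + t * T + t ^ 2) / 6 - (l + θ * ((t ^ 2 - 2 * t * h / 3 + h ^ 2 / 6) / 2 - l)))))) :=
      mul_le_mul_of_nonneg_left (mul_le_mul_of_nonneg_left hexp h11) hc
    refine le_trans ?_ h12
    have h13 : c * (2 * (T - t) / h * e) = 2 * (T - t) * lam * c * al * e / η := by
      rw [hh]
      field_simp
    rw [h13, le_div_iff₀ hη]
    nlinarith
  · -- the trivial case
    refine le_trans ?_ hRHS
    have hle : ∫ y in K, (η - lam * al * (t - ⟪v j, y⟫)) ∂(stdGaussian E) ≤
        ∫ y in K, (0 : ℝ) ∂(stdGaussian E) := by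
      apply setIntegral_mono_on hcst.integrableOn (integrableOn_const (by simp)) hmK
      intro y hy
      have h7 : 0 ≤ lam * al * (t - ⟪v j, y⟫) := by
        have : 0 ≤ t - ⟪v j, y⟫ := by linarith [hy j, hLj]
        positivity
      linarith [not_lt.1 hη]
    simpa using hle

end Vale.Agent.P226h14
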