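import Mathlib

open MeasureTheory ProbabilityTheory Real Set Filter Topology
open scoped ENNReal NNReal

namespace Vale.Agent.P226h14

/-- the standard normal density -/
noncomputable def ph (u : ℝ) : ℝ := (√(2 * π))⁻¹ * Real.exp (-u ^ 2 / 2)

lemma ph_pos (u : ℝ) : 0 < ph u := by unfold ph; positivity

lemma gaussianPDFReal_eq_ph (u : ℝ) : gaussianPDFReal 0 1 u = ph u := by
  simp [gaussianPDFReal_def, ph]

lemma setIntegral_gaussian {s : Set ℝ} (hs : MeasurableSet s) (f : ℝ → ℝ) :
    ∫ r in s, f r ∂(gaussianReal 0 1) = ∫ r in s, ph r * f r := by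
  rw [gaussianReal_of_var_ne_zero 0 one_ne_zero,
    setIntegral_withDensity_eq_setIntegral_toReal_smul (measurable_gaussianPDF 0 1)
      (Eventually.of_forall fun x => gaussianPDF_lt_top) f hs]
  simp [toReal_gaussianPDF, gaussianPDFReal_eq_ph]

lemma hasDerivAt_ph (u : ℝ) : HasDerivAt ph (-(u * ph u)) u := by
  have h0 : HasDerivAt (fun y : ℝ => -y ^ 2 / 2) (-u) u := by
    have := ((hasDerivAt_pow 2 u).fun_neg).div_const 2
    refine this.congr_deriv ?_
    simp
    ring
  have := (h0.exp).const_mul (√(2 * π))⁻¹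
  unfold ph
  refine this.congr_deriv ?_
  ring

lemma integrable_ph : Integrable ph := by
  unfold ph
  have := (integrable_exp_neg_mul_sq (b := 1 / 2) (by norm_num)).const_mul (√(2 * π))⁻¹
  refine this.congr (Eventually.of_forall fun x => ?_)
  simp only
  congr 2
  ring

lemma integrable_id_mul_ph : Integrable (fun r => r * ph r) := by
  unfold ph
  have := (integrable_mul_exp_neg_mul_sq (b := 1 / 2) (by norm_num)).const_mul (√(2 * π))⁻¹
  refine this.congr (Eventually.of_forall fun x => ?_)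
  simp only
  have : -(1 / 2 : ℝ) * x ^ 2 = -x ^ 2 / 2 := by ring
  rw [this]
  ring

lemma integrable_sq_mul_ph : Integrable (fun r => r ^ 2 * ph r) := by
  have h := (memLp_id_gaussianReal (μ := 0) (v := 1) 2)
  have h2 : Integrable (fun r : ℝ => r ^ 2) (gaussianReal 0 1) := by
    have := h.integrable_norm_rpow (by norm_num) (by norm_num)
    refine this.congr (Eventually.of_forall fun x => ?_)
    simp
  rw [gaussianReal_of_var_ne_zero 0 one_ne_zero,
    integrable_withDensity_iff_integrable_smul' (measurable_gaussianPDF 0 1)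
      (Eventually.of_forall fun x => gaussianPDF_lt_top)] at h2
  refine h2.congr (Eventually.of_forall fun x => ?_)
  simp [toReal_gaussianPDF, gaussianPDFReal_eq_ph, mul_comm]

lemma tendsto_ph_atTop : Tendsto ph atTop (𝓝 0) := by
  have h : Tendsto (fun y : ℝ => -y ^ 2 / 2) atTop atBot := by
    have : Tendsto (fun y : ℝ => y ^ 2) atTop atTop := tendsto_pow_atTop two_ne_zero
    have h2 := this.const_mul_atTop_of_neg (r := (-1 / 2 : ℝ)) (by norm_num)
    refine h2.congr ?_
    intro y; ring
  have h3 := (Real.tendsto_exp_atBot.comp h).const_mul (√(2 * π))⁻¹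
  have h4 : ph = fun x => (√(2 * π))⁻¹ * (Real.exp ∘ fun y : ℝ => -y ^ 2 / 2) x := by
    ext x; simp [ph]
  rw [h4]
  simpa using h3

/-- first moment on a half line -/
lemma integral_Ici_id (u : ℝ) : ∫ r in Ici u, r ∂(gaussianReal 0 1) = ph u := by
  rw [setIntegral_gaussian measurableSet_Ici, integral_Ici_eq_integral_Ioi]
  have A : ∀ x ∈ Ici u, HasDerivAt (fun y => -ph y) (ph x * x) x := by
    intro x _
    have := (hasDerivAt_ph x).fun_neg
    refine this.congr_deriv ?_
    ring
  have B : IntegrableOn (fun r => ph r * r) (Ioi u) := by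
    have := integrable_id_mul_ph.integrableOn (s := Ioi u)
    refine this.congr_fun (fun x _ => ?_) measurableSet_Ioi
    simp [mul_comm]
  have C : Tendsto (fun y => -ph y) atTop (𝓝 (-0)) := tendsto_ph_atTop.neg
  rw [integral_Ioi_of_hasDerivAt_of_tendsto' A B C]
  simp

/-- second moment on a half line -/
lemma integral_Ici_sq (u : ℝ) :
    ∫ r in Ici u, r ^ 2 ∂(gaussianReal 0 1) = u * ph u + (gaussianReal 0 1).real (Ici u) := by
  have hQ : (gaussianReal 0 1).real (Ici u) = ∫ r in Ici u, ph r := by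
    have := setIntegral_gaussian (measurableSet_Ici (a := u)) (fun _ => (1 : ℝ))
    simp only [mul_one] at this
    rw [← this]
    simp
  rw [hQ, setIntegral_gaussian measurableSet_Ici, integral_Ici_eq_integral_Ioi,
    integral_Ici_eq_integral_Ioi]
  have A : ∀ x ∈ Ici u, HasDerivAt (fun y => -(y * ph y)) (ph x * x ^ 2 - ph x) x := by
    intro x _
    have := ((hasDerivAt_id x).mul (hasDerivAt_ph x)).fun_neg
    refine this.congr_deriv ?_
    simp
    ring
  have B : IntegrableOn (fun r => ph r * r ^ 2 - ph r) (Ioi u) := by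
    have h1 := (integrable_sq_mul_ph.sub integrable_ph).integrableOn (s := Ioi u)
    refine h1.congr_fun (fun x _ => ?_) measurableSet_Ioi
    simp [mul_comm]
  have C : Tendsto (fun y => -(y * ph y)) atTop (𝓝 (-0)) := by
    apply Tendsto.neg
    have h1 : Tendsto (fun y : ℝ => y * Real.exp (-(1 / 2) * y ^ 2)) atTop (𝓝 0) := by
      have h0 := (tendsto_rpow_abs_mul_exp_neg_mul_sq_cocompact (a := 1 / 2) (by norm_num) 1).mono_left
        (atTop_le_cocompact (α := ℝ))
      refine h0.congr' ?_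
      filter_upwards [eventually_ge_atTop (0 : ℝ)] with y hy
      rw [abs_of_nonneg hy, Real.rpow_one]
    have h4 : (fun y => y * ph y) = fun y => (√(2 * π))⁻¹ * (y * Real.exp (-(1 / 2) * y ^ 2)) := by
      ext y
      simp only [ph]
      have : -(1 / 2 : ℝ) * y ^ 2 = -y ^ 2 / 2 := by ring
      rw [this]
      ring
    rw [h4]
    simpa using h1.const_mul (√(2 * π))⁻¹
  have key := integral_Ioi_of_hasDerivAt_of_tendsto' A B C
  have h3 : ∫ x in Ioi u, (ph x * x ^ 2 - ph x) =
      (∫ x in Ioi u, ph x * x ^ 2) - ∫ x in Ioi u, ph x := by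
    have h1 : IntegrableOn (fun x => ph x * x ^ 2) (Ioi u) := by
      have h1 := integrable_sq_mul_ph.integrableOn (s := Ioi u)
      refine h1.congr_fun (fun x _ => ?_) measurableSet_Ioi
      simp [mul_comm]
    exact integral_sub h1 integrable_ph.integrableOn
  rw [h3] at key
  have e : (-0 : ℝ) - -(u * ph u) = u * ph u := by ring
  rw [e] at key
  linarith

/-- Mills inequality, in product form: it says the truncated second moment about `u` is
nonnegative. -/
lemma mills (u : ℝ) : u * ph u ≤ (1 + u ^ 2) * (gaussianReal 0 1).real (Ici u) := by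
  have h1 : 0 ≤ ∫ r in Ici u, (r - u) ^ 2 ∂(gaussianReal 0 1) :=
    integral_nonneg fun r => sq_nonneg _
  have hid : IntegrableOn (fun r : ℝ => r) (Ici u) (gaussianReal 0 1) :=
    (memLp_id_gaussianReal (μ := 0) (v := 1) 1 |>.integrable (by norm_num)).integrableOn
  have hsq : IntegrableOn (fun r : ℝ => r ^ 2) (Ici u) (gaussianReal 0 1) := by
    have h := (memLp_id_gaussianReal (μ := 0) (v := 1) 2)
    have h2 : Integrable (fun r : ℝ => r ^ 2) (gaussianReal 0 1) := by
      have := h.integrable_norm_rpow (by norm_num) (by norm_num)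
      refine this.congr (Eventually.of_forall fun x => ?_)
      simp
    exact h2.integrableOn
  have h2 : ∫ r in Ici u, (r - u) ^ 2 ∂(gaussianReal 0 1) =
      ∫ r in Ici u, r ^ 2 ∂(gaussianReal 0 1) - 2 * u * ∫ r in Ici u, r ∂(gaussianReal 0 1)
        + u ^ 2 * (gaussianReal 0 1).real (Ici u) := by
    have e : ∀ r : ℝ, (r - u) ^ 2 = r ^ 2 - 2 * u * r + u ^ 2 := fun r => by ring
    simp_rw [e]
    have i1 : IntegrableOn (fun r : ℝ => r ^ 2 - 2 * u * r) (Ici u) (gaussianReal 0 1) :=
      hsq.sub (hid.const_mul _)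
    have i2 : IntegrableOn (fun r : ℝ => 2 * u * r) (Ici u) (gaussianReal 0 1) :=
      hid.const_mul _
    have i3 : IntegrableOn (fun _ : ℝ => u ^ 2) (Ici u) (gaussianReal 0 1) :=
      integrableOn_const (by simp)
    rw [integral_add i1 i3, integral_sub hsq i2, integral_const_mul]
    simp
    ring
  rw [h2, integral_Ici_sq, integral_Ici_id] at h1
  nlinarith

lemma ph_le_ph_zero (u : ℝ) : ph u ≤ ph 0 := by
  unfold ph
  have h : Real.exp (-u ^ 2 / 2) ≤ Real.exp (-(0 : ℝ) ^ 2 / 2) := by
    apply Real.exp_le_exp.2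
    nlinarith [sq_nonneg u]
  exact mul_le_mul_of_nonneg_left h (by positivity)

lemma ph_anti {u w : ℝ} (hu : 0 ≤ u) (huw : u ≤ w) : ph w ≤ ph u := by
  unfold ph
  have h : Real.exp (-w ^ 2 / 2) ≤ Real.exp (-u ^ 2 / 2) := by
    apply Real.exp_le_exp.2
    nlinarith
  exact mul_le_mul_of_nonneg_left h (by positivity)

lemma gaussReal_eq_integral {s : Set ℝ} (hs : MeasurableSet s) :
    (gaussianReal 0 1).real s = ∫ r in s, ph r := by
  have := setIntegral_gaussian hs (fun _ => (1 : ℝ))
  simp only [mul_one] at this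
  rw [← this]
  simp

lemma gauss_Ioc_lower {a b : ℝ} (ha : 0 ≤ a) (hab : a ≤ b) :
    (b - a) * ph b ≤ (gaussianReal 0 1).real (Ioc a b) := by
  rw [gaussReal_eq_integral measurableSet_Ioc]
  have h1 : ∫ r in Ioc a b, ph b ≤ ∫ r in Ioc a b, ph r := by
    apply setIntegral_mono_on
    · exact integrableOn_const (by simp)
    · exact integrable_ph.integrableOn
    · exact measurableSet_Ioc
    · intro r hr
      exact ph_anti (ha.trans hr.1.le) hr.2
  simpa [hab, Real.volume_Ioc] using h1

lemma gauss_Ioc_upper {a b : ℝ} (hab : a ≤ b) :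
    (gaussianReal 0 1).real (Ioc a b) ≤ (b - a) * ph 0 := by
  rw [gaussReal_eq_integral measurableSet_Ioc]
  have h1 : ∫ r in Ioc a b, ph r ≤ ∫ r in Ioc a b, ph 0 := by
    apply setIntegral_mono_on
    · exact integrable_ph.integrableOn
    · exact integrableOn_const (by simp)
    · exact measurableSet_Ioc
    · intro r _
      exact ph_le_ph_zero r
  simpa [hab, Real.volume_Ioc] using h1

/-- the basic half line integral -/
lemma J_eq (u a : ℝ) :
    ∫ r in Ici u, ((1 + 2 * a) * r - 2 * (1 + a) * u) ∂(gaussianReal 0 1) =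
      (1 + 2 * a) * ph u - 2 * (1 + a) * u * (gaussianReal 0 1).real (Ici u) := by
  have hid : IntegrableOn (fun r : ℝ => (1 + 2 * a) * r) (Ici u) (gaussianReal 0 1) :=
    ((memLp_id_gaussianReal (μ := 0) (v := 1) 1 |>.integrable (by norm_num)).integrableOn).const_mul _
  have i3 : IntegrableOn (fun _ : ℝ => 2 * (1 + a) * u) (Ici u) (gaussianReal 0 1) :=
    integrableOn_const (by simp)
  rw [integral_sub hid i3, integral_const_mul, integral_Ici_id]
  simp
  ring

lemma J_le_one {u a : ℝ} (hu : 0 ≤ u) (ha : 0 ≤ a) (ha1 : a ≤ 1) :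
    ∫ r in Ici u, ((1 + 2 * a) * r - 2 * (1 + a) * u) ∂(gaussianReal 0 1) ≤ 3 * ph 0 := by
  rw [J_eq]
  have h1 : 0 ≤ (gaussianReal 0 1).real (Ici u) := measureReal_nonneg
  have h2 : 0 ≤ 2 * (1 + a) * u * (gaussianReal 0 1).real (Ici u) := by positivity
  have h3 : ph u ≤ ph 0 := ph_le_ph_zero u
  have h4 := ph_pos u
  nlinarith

lemma J_le_two {u a : ℝ} (hu : 0 ≤ u) (ha : 0 ≤ a) :
    ∫ r in Ici u, ((1 + 2 * a) * r - 2 * (1 + a) * u) ∂(gaussianReal 0 1) ≤
      ph u * ((1 + 2 * a - u ^ 2) / (1 + u ^ 2)) := by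
  rw [J_eq]
  have h1 := mills u
  have h2 : 0 < 1 + u ^ 2 := by positivity
  have h3 : u * ph u / (1 + u ^ 2) ≤ (gaussianReal 0 1).real (Ici u) := by
    rw [div_le_iff₀ h2]; linarith
  have h4 : 2 * (1 + a) * u * (u * ph u / (1 + u ^ 2)) ≤
      2 * (1 + a) * u * (gaussianReal 0 1).real (Ici u) :=
    mul_le_mul_of_nonneg_left h3 (by positivity)
  have h5 : (1 + 2 * a) * ph u - 2 * (1 + a) * u * (u * ph u / (1 + u ^ 2)) =
      ph u * ((1 + 2 * a - u ^ 2) / (1 + u ^ 2)) := by
    field_simp
    ring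
  linarith

end Vale.Agent.P226h14
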