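import Vale.Agent.P226h14.Slice
import Vale.Agent.P226h14.OneDim

open MeasureTheory ProbabilityTheory Real Set Filter Topology
open scoped RealInnerProductSpace ENNReal

namespace Vale.Agent.P226h14

variable {E : Type*} [NormedAddCommGroup E] [InnerProductSpace ℝ E] [FiniteDimensional ℝ E]
  [MeasurableSpace E] [BorelSpace E]

lemma ph_div_eq (T s : ℝ) : ph (T / s) = ph 0 * Real.exp (-T ^ 2 / (2 * s ^ 2)) := by
  unfold ph
  have : -(T / s) ^ 2 / 2 = -T ^ 2 / (2 * s ^ 2) := by
    rw [div_pow]; ring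
  rw [this]
  simp

lemma measurable_inner_left (u : E) : Measurable fun x : E => ⟪u, x⟫ :=
  (continuous_const.inner continuous_id).measurable

lemma measurableSet_K {ι : Type*} [Fintype ι] (v : ι → E) (t : ℝ) :
    MeasurableSet {x | ∀ l, ⟪v l, x⟫ ≤ t} := by
  have : {x | ∀ l, ⟪v l, x⟫ ≤ t} = ⋂ l, {x | ⟪v l, x⟫ ≤ t} := by
    ext x; simp
  rw [this]
  exact MeasurableSet.iInter fun l => measurableSet_le (measurable_inner_left _) measurable_const

lemma measurableSet_K_slab {ι : Type*} [Fintype ι] (v : ι → E) (j : ι) {t h : ℝ} (_hh : 0 ≤ h) :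
    MeasurableSet {x | (∀ l, ⟪v l, x⟫ ≤ t) ∧ t - h < ⟪v j, x⟫} :=
  (measurableSet_K v t).inter (measurableSet_lt measurable_const (measurable_inner_left _))

lemma measurableSet_layer {ι : Type*} [Fintype ι] (v : ι → E) (j : ι) {t T : ℝ} :
    MeasurableSet {x | t < ⟪v j, x⟫ ∧ ⟪v j, x⟫ ≤ T ∧ ∀ l, l ≠ j → ⟪v l, x⟫ ≤ t} := by
  have : {x | ∀ l, l ≠ j → ⟪v l, x⟫ ≤ t} = ⋂ l, ⋂ (_ : l ≠ j), {x | ⟪v l, x⟫ ≤ t} := by
    ext x; simp
  have h3 : MeasurableSet {x | ∀ l, l ≠ j → ⟪v l, x⟫ ≤ t} := by
    rw [this]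
    exact MeasurableSet.iInter fun l => MeasurableSet.iInter fun _ =>
      measurableSet_le (measurable_inner_left _) measurable_const
  exact (measurableSet_lt measurable_const (measurable_inner_left _)).inter
    ((measurableSet_le (measurable_inner_left _) measurable_const).inter h3)

/-- The growth lemma: mass of a slab below the level `t` is controlled by the mass of the part of
the layer just above the level `t` where only one functional exceeds `t`. -/
lemma growth {ι : Type*} [Fintype ι] (v : ι → E) (j : ι)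
    (hneg : ∀ l, l ≠ j → ⟪v l, v j⟫ ≤ 0) (hvj : v j ≠ 0) {t T h : ℝ}
    (ht : 0 < t) (htT : t < T) (hh : 0 < h) :
    ENNReal.ofReal ((T - t) / h * Real.exp (-T ^ 2 / (2 * ‖v j‖ ^ 2))) *
        stdGaussian E {x | (∀ l, ⟪v l, x⟫ ≤ t) ∧ t - h < ⟪v j, x⟫} ≤
      stdGaussian E {x | t < ⟪v j, x⟫ ∧ ⟪v j, x⟫ ≤ T ∧ ∀ l, l ≠ j → ⟪v l, x⟫ ≤ t} := by
  classical
  set s : ℝ := ‖v j‖ with hs
  have hs0 : 0 < s := norm_pos_iff.2 hvj
  set w : E := s⁻¹ • v j with hw
  have hw1 : ‖w‖ = 1 := by
    rw [hw, norm_smul, norm_inv, norm_norm, ← hs]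
    field_simp
  have hvw : ⟪v j, w⟫ = s := by
    rw [hw, inner_smul_right, real_inner_self_eq_norm_sq, ← hs]
    field_simp
  have hwx : ∀ x, ⟪w, x⟫ = s⁻¹ * ⟪v j, x⟫ := by
    intro x
    rw [hw, inner_smul_left]
    simp
  have hjs : ∀ x r, ⟪v j, slice w (x, r)⟫ = s * r := by
    intro x r
    rw [inner_slice, hvw, hwx]
    field_simp
    ring
  have hls : ∀ l, l ≠ j → ⟪v l, w⟫ ≤ 0 := by
    intro l hl
    rw [hw, inner_smul_right]
    have := hneg l hl
    have h2 : 0 ≤ s⁻¹ := by positivity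
    nlinarith
  have hmA : MeasurableSet {x | (∀ l, ⟪v l, x⟫ ≤ t) ∧ t - h < ⟪v j, x⟫} :=
    measurableSet_K_slab v j hh.le
  have hmD : MeasurableSet {x | t < ⟪v j, x⟫ ∧ ⟪v j, x⟫ ≤ T ∧ ∀ l, l ≠ j → ⟪v l, x⟫ ≤ t} :=
    measurableSet_layer v j
  rw [measure_slice w hw1 hmA, measure_slice w hw1 hmD,
    ← lintegral_const_mul' _ _ ENNReal.ofReal_ne_top]
  apply lintegral_mono
  intro x
  simp only [mem_ofPred_eq]
  set A : Set ℝ := {r | (∀ l, ⟪v l, slice w (x, r)⟫ ≤ t) ∧ t - h < ⟪v j, slice w (x, r)⟫} with hA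
  set D : Set ℝ := {r | t < ⟪v j, slice w (x, r)⟫ ∧ ⟪v j, slice w (x, r)⟫ ≤ T ∧
    ∀ l, l ≠ j → ⟪v l, slice w (x, r)⟫ ≤ t} with hD
  by_cases hne : A.Nonempty
  · obtain ⟨r0, hr0⟩ := hne
    have hsub1 : A ⊆ Ioc ((t - h) / s) (t / s) := by
      intro r hr
      have h1 := hr.1 j
      have h2 := hr.2
      rw [hjs] at h1 h2
      constructor
      · rw [div_lt_iff₀ hs0]; linarith
      · rw [le_div_iff₀ hs0]; linarith
    have hsub2 : Ioc (t / s) (T / s) ⊆ D := by
      intro r hr
      have hr1 : t < s * r := by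
        have := hr.1
        rw [div_lt_iff₀ hs0] at this
        linarith
      have hr2 : s * r ≤ T := by
        have := hr.2
        rw [le_div_iff₀ hs0] at this
        linarith
      refine ⟨by rw [hjs]; exact hr1, by rw [hjs]; exact hr2, ?_⟩
      intro l hl
      have h0 := hr0.1 l
      have hr0j := hr0.1 j
      rw [hjs] at hr0j
      rw [inner_slice] at h0 ⊢
      have hle : r0 ≤ r := by
        nlinarith
      have := hls l hl
      nlinarith
    have hup : gaussianReal 0 1 A ≤ ENNReal.ofReal (h / s * ph 0) := by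
      calc gaussianReal 0 1 A ≤ gaussianReal 0 1 (Ioc ((t - h) / s) (t / s)) := measure_mono hsub1
        _ = ENNReal.ofReal ((gaussianReal 0 1).real (Ioc ((t - h) / s) (t / s))) := by
            rw [ofReal_measureReal]
        _ ≤ ENNReal.ofReal (h / s * ph 0) := by
            apply ENNReal.ofReal_le_ofReal
            have hab : (t - h) / s ≤ t / s := by
              apply div_le_div_of_nonneg_right _ hs0.le
              linarith
            refine (gauss_Ioc_upper hab).trans_eq ?_
            congr 1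
            field_simp
            ring
    have hlo : ENNReal.ofReal ((T - t) / s * ph (T / s)) ≤ gaussianReal 0 1 D := by
      calc ENNReal.ofReal ((T - t) / s * ph (T / s))
          ≤ ENNReal.ofReal ((gaussianReal 0 1).real (Ioc (t / s) (T / s))) := by
            apply ENNReal.ofReal_le_ofReal
            have hab : t / s ≤ T / s := div_le_div_of_nonneg_right htT.le hs0.le
            have h0 : 0 ≤ t / s := by positivity
            refine le_trans (le_of_eq ?_) (gauss_Ioc_lower h0 hab)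
            congr 1
            field_simp
        _ = gaussianReal 0 1 (Ioc (t / s) (T / s)) := by rw [ofReal_measureReal]
        _ ≤ gaussianReal 0 1 D := measure_mono hsub2
    refine le_trans ?_ hlo
    calc ENNReal.ofReal ((T - t) / h * Real.exp (-T ^ 2 / (2 * s ^ 2))) * gaussianReal 0 1 A
        ≤ ENNReal.ofReal ((T - t) / h * Real.exp (-T ^ 2 / (2 * s ^ 2))) *
            ENNReal.ofReal (h / s * ph 0) := by gcongr
      _ = ENNReal.ofReal ((T - t) / s * ph (T / s)) := by
          rw [← ENNReal.ofReal_mul (by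
            have : 0 ≤ T - t := by linarith
            positivity)]
          congr 1
          rw [ph_div_eq]
          field_simp
  · rw [not_nonempty_iff_eq_empty] at hne
    rw [hne]
    simp

end Vale.Agent.P226h14
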