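import Vale.Agent.P226h14.Growth

open MeasureTheory ProbabilityTheory Real Set Filter Topology
open scoped RealInnerProductSpace ENNReal

namespace Vale.Agent.P226h14

variable {E : Type*} [NormedAddCommGroup E] [InnerProductSpace ℝ E] [FiniteDimensional ℝ E]
  [MeasurableSpace E] [BorelSpace E]

/-- real version of the growth lemma -/
lemma growth_real {ι : Type*} [Fintype ι] (v : ι → E) (j : ι)
    (hneg : ∀ l, l ≠ j → ⟪v l, v j⟫ ≤ 0) (hvj : v j ≠ 0) {t T h : ℝ}
    (ht : 0 < t) (htT : t < T) (hh : 0 < h) :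
    (T - t) / h * Real.exp (-T ^ 2 / (2 * ‖v j‖ ^ 2)) *
        (stdGaussian E).real {x | (∀ l, ⟪v l, x⟫ ≤ t) ∧ t - h < ⟪v j, x⟫} ≤
      (stdGaussian E).real {x | t < ⟪v j, x⟫ ∧ ⟪v j, x⟫ ≤ T ∧ ∀ l, l ≠ j → ⟪v l, x⟫ ≤ t} := by
  have h1 := growth v j hneg hvj ht htT hh
  have h2 := ENNReal.toReal_mono (measure_ne_top _ _) h1
  rw [ENNReal.toReal_mul, ENNReal.toReal_ofReal (by
    have : 0 ≤ T - t := by linarith
    positivity)] at h2
  exact h2

/-- the counting lemma -/
lemma count_bound {ι : Type*} [Fintype ι] [DecidableEq ι] (v : ι → E) (a : ι → ℝ)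
    (ha0 : ∀ j, 0 ≤ a j) (hsum : ∑ j, a j = 1)
    (hbal : ∑ j, (1 + a j) • v j = 0) {t h a0 : ℝ} (hh : 0 < h) (ha : 0 < a0) (ht : 0 < t)
    (x : E) (hx : ∀ l, ⟪v l, x⟫ ≤ t) [DecidablePred fun j => a j ≤ a0] :
    (Fintype.card ι : ℝ) - t * (Fintype.card ι + 1) / h - 1 / a0 ≤
      ((Finset.univ.filter fun j => a j ≤ a0).filter fun j => t - h < ⟪v j, x⟫).card := by
  classical
  set N : ℝ := (Fintype.card ι : ℝ) with hN
  -- the weighted slack identity
  have hid : ∑ j, (1 + a j) * (t - ⟪v j, x⟫) = t * (N + 1) := by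
    have h1 : ∑ j, (1 + a j) * ⟪v j, x⟫ = 0 := by
      have := congrArg (fun y => ⟪y, x⟫) hbal
      simp only [sum_inner, inner_smul_left, inner_zero_left] at this
      simpa using this
    have h2 : ∑ j, (1 + a j) * (t - ⟪v j, x⟫) =
        t * ∑ j, (1 + a j) - ∑ j, (1 + a j) * ⟪v j, x⟫ := by
      rw [Finset.mul_sum, ← Finset.sum_sub_distrib]
      apply Finset.sum_congr rfl
      intro j _
      ring
    rw [h2, h1, Finset.sum_add_distrib, hsum]
    simp [hN]
  set Jc := Finset.univ.filter fun j => ¬ (t - h < ⟪v j, x⟫) with hJc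
  have hJc_bound : (Jc.card : ℝ) * h ≤ t * (N + 1) := by
    rw [← hid]
    calc (Jc.card : ℝ) * h = ∑ j ∈ Jc, h := by simp
      _ ≤ ∑ j ∈ Jc, (1 + a j) * (t - ⟪v j, x⟫) := by
          apply Finset.sum_le_sum
          intro j hj
          have hj' : ¬ (t - h < ⟪v j, x⟫) := (Finset.mem_filter.1 hj).2
          have h1 : h ≤ t - ⟪v j, x⟫ := by linarith [not_lt.1 hj']
          have h2 := ha0 j
          nlinarith
      _ ≤ ∑ j, (1 + a j) * (t - ⟪v j, x⟫) := by
          apply Finset.sum_le_sum_of_subset_of_nonneg (Finset.subset_univ _)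
          intro j _ _
          have h1 := hx j
          have h2 := ha0 j
          have : 0 ≤ t - ⟪v j, x⟫ := by linarith
          positivity
  set Bd := Finset.univ.filter fun j => ¬ (a j ≤ a0) with hBd
  have hBd_bound : (Bd.card : ℝ) * a0 ≤ 1 := by
    rw [← hsum]
    calc (Bd.card : ℝ) * a0 = ∑ j ∈ Bd, a0 := by simp
      _ ≤ ∑ j ∈ Bd, a j := by
          apply Finset.sum_le_sum
          intro j hj
          have hj' := (Finset.mem_filter.1 hj).2
          linarith [not_le.1 hj']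
      _ ≤ ∑ j, a j := by
          apply Finset.sum_le_sum_of_subset_of_nonneg (Finset.subset_univ _)
          intro j _ _
          exact ha0 j
  have hcard : (Fintype.card ι : ℝ) ≤
      ((Finset.univ.filter fun j => a j ≤ a0).filter fun j => t - h < ⟪v j, x⟫).card
        + Jc.card + Bd.card := by
    have hsub : (Finset.univ : Finset ι) ⊆
        ((Finset.univ.filter fun j => a j ≤ a0).filter fun j => t - h < ⟪v j, x⟫) ∪ Jc ∪ Bd := by
      intro j _
      by_cases h1 : a j ≤ a0
      · by_cases h2 : t - h < ⟪v j, x⟫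
        · exact Finset.mem_union_left _ (Finset.mem_union_left _ (Finset.mem_filter.2
            ⟨Finset.mem_filter.2 ⟨Finset.mem_univ _, h1⟩, h2⟩))
        · exact Finset.mem_union_left _ (Finset.mem_union_right _
            (Finset.mem_filter.2 ⟨Finset.mem_univ _, h2⟩))
      · exact Finset.mem_union_right _ (Finset.mem_filter.2 ⟨Finset.mem_univ _, h1⟩)
    have h3 := Finset.card_le_card hsub
    have h4 := Finset.card_union_le (((Finset.univ.filter fun j => a j ≤ a0).filter
      fun j => t - h < ⟪v j, x⟫) ∪ Jc) Bd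
    have h5 := Finset.card_union_le ((Finset.univ.filter fun j => a j ≤ a0).filter
      fun j => t - h < ⟪v j, x⟫) Jc
    rw [Finset.card_univ] at h3
    have h6 : Fintype.card ι ≤
      ((Finset.univ.filter fun j => a j ≤ a0).filter fun j => t - h < ⟪v j, x⟫).card
        + Jc.card + Bd.card := by omega
    exact_mod_cast h6
  have h7 : (Jc.card : ℝ) ≤ t * (N + 1) / h := by
    rw [le_div_iff₀ hh]; exact hJc_bound
  have h8 : (Bd.card : ℝ) ≤ 1 / a0 := by
    rw [le_div_iff₀ ha]; exact hBd_bound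
  linarith

/-- integrated form of the counting bound -/
lemma sum_slab_ge {ι : Type*} [Fintype ι] (v : ι → E) (G : Finset ι) {t h n : ℝ} (hh : 0 ≤ h)
    (hn : ∀ x, (∀ l, ⟪v l, x⟫ ≤ t) → n ≤ (G.filter fun j => t - h < ⟪v j, x⟫).card) :
    n * (stdGaussian E).real {x | ∀ l, ⟪v l, x⟫ ≤ t} ≤
      ∑ j ∈ G, (stdGaussian E).real {x | (∀ l, ⟪v l, x⟫ ≤ t) ∧ t - h < ⟪v j, x⟫} := by
  classical
  set K : Set E := {x | ∀ l, ⟪v l, x⟫ ≤ t} with hK
  have hmK : MeasurableSet K := measurableSet_K v t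
  have hmB : ∀ j, MeasurableSet {x | (∀ l, ⟪v l, x⟫ ≤ t) ∧ t - h < ⟪v j, x⟫} :=
    fun j => measurableSet_K_slab v j hh
  have e1 : ∀ j, (stdGaussian E).real {x | (∀ l, ⟪v l, x⟫ ≤ t) ∧ t - h < ⟪v j, x⟫} =
      ∫ x, ({x | (∀ l, ⟪v l, x⟫ ≤ t) ∧ t - h < ⟪v j, x⟫} : Set E).indicator (fun _ => (1 : ℝ)) x
        ∂(stdGaussian E) := by
    intro j
    rw [integral_indicator (hmB j)]
    simp
  have e2 : n * (stdGaussian E).real K =
      ∫ x, K.indicator (fun _ => n) x ∂(stdGaussian E) := by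
    rw [integral_indicator hmK]
    simp [mul_comm]
  rw [e2]
  simp_rw [e1]
  rw [← integral_finsetSum]
  · apply integral_mono
    · exact (integrable_const n).indicator hmK
    · exact integrable_finsetSum _ fun j _ => (integrable_const (1 : ℝ)).indicator (hmB j)
    · intro x
      by_cases hx : x ∈ K
      · simp only [indicator_of_mem hx]
        refine (hn x hx).trans (le_of_eq ?_)
        rw [Finset.card_filter]
        push_cast
        apply Finset.sum_congr rfl
        intro j _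
        by_cases hj : t - h < ⟪v j, x⟫
        · rw [if_pos hj, indicator_of_mem (show x ∈ {x | (∀ l, ⟪v l, x⟫ ≤ t) ∧ t - h < ⟪v j, x⟫}
            from ⟨hx, hj⟩)]
        · rw [if_neg hj, indicator_of_notMem (fun hc => hj hc.2)]
      · simp only [indicator_of_notMem hx]
        apply Finset.sum_nonneg
        intro j _
        exact indicator_nonneg (fun _ _ => zero_le_one) _
  · exact fun j _ => (integrable_const (1 : ℝ)).indicator (hmB j)

section key

variable {ι : Type*} [Fintype ι] (v : ι → E) (a : ι → ℝ) (n : E) (M : E → ℝ)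

/-- the integrand of the main inequality -/
noncomputable def cellF : E → ℝ :=
  ({y | ∀ l, ⟪v l, y⟫ ≤ ⟪n, y⟫} : Set E).indicator fun y => ⟪n, y⟫ - 2 * M y

include v a n M in
lemma inner_bound (hn : ‖n‖ = 1) (horth : ∀ j, ⟪v j, n⟫ = 0)
    (hM : ∀ x j, (1 + a j) * ⟪v j, x⟫ - a j * ⟪n, x⟫ ≤ M x)
    (x : E) (j : ι) (hj : ∀ l, ⟪v l, x⟫ ≤ ⟪v j, x⟫)
    (hint : Integrable (fun r => cellF v n M (slice n (x, r))) (gaussianReal 0 1)) :
    ∫ r, cellF v n M (slice n (x, r)) ∂(gaussianReal 0 1) ≤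
      ∫ r in Ici ⟪v j, x⟫, ((1 + 2 * a j) * r - 2 * (1 + a j) * ⟪v j, x⟫) ∂(gaussianReal 0 1) := by
  have hnn : ⟪n, n⟫ = 1 := by rw [real_inner_self_eq_norm_sq, hn]; norm_num
  have h1 : ∀ l r, ⟪v l, slice n (x, r)⟫ = ⟪v l, x⟫ := by
    intro l r
    rw [inner_slice, horth]
    ring
  have h2 : ∀ r, ⟪n, slice n (x, r)⟫ = r := by
    intro r
    rw [inner_slice, hnn]
    ring
  rw [← integral_indicator measurableSet_Ici]
  have hg : Integrable (fun r : ℝ => (1 + 2 * a j) * r - 2 * (1 + a j) * ⟪v j, x⟫)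
      (gaussianReal 0 1) := by
    have hid : Integrable (fun r : ℝ => r) (gaussianReal 0 1) :=
      memLp_id_gaussianReal (μ := 0) (v := 1) 1 |>.integrable (by norm_num)
    exact (hid.const_mul _).sub (integrable_const _)
  apply integral_mono hint (hg.indicator measurableSet_Ici)
  intro r
  simp only [cellF]
  by_cases hr : ⟪v j, x⟫ ≤ r
  · have hC : slice n (x, r) ∈ ({y | ∀ l, ⟪v l, y⟫ ≤ ⟪n, y⟫} : Set E) := by
      intro l
      rw [h1, h2]
      exact (hj l).trans hr
    rw [indicator_of_mem hC, indicator_of_mem (show r ∈ Ici ⟪v j, x⟫ from hr), h2]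
    have h3 := hM (slice n (x, r)) j
    rw [h1, h2] at h3
    linarith
  · have hC : slice n (x, r) ∉ ({y | ∀ l, ⟪v l, y⟫ ≤ ⟪n, y⟫} : Set E) := by
      intro hc
      have := hc j
      rw [h1, h2] at this
      exact hr this
    rw [indicator_of_notMem hC, indicator_of_notMem (show r ∉ Ici ⟪v j, x⟫ from hr)]

lemma ratio_mono {U t a a0 : ℝ} (htU : t ≤ U) (ht : 0 < t) (ha : a ≤ a0) (ha0 : 0 ≤ a) :
    (t ^ 2 - 1 - 2 * a0) / (1 + t ^ 2) ≤ (U ^ 2 - 1 - 2 * a) / (1 + U ^ 2) := by
  rw [div_le_div_iff₀ (by positivity) (by positivity)]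
  have h1 : t ^ 2 ≤ U ^ 2 := by nlinarith
  have h2 : a * (1 + t ^ 2) ≤ a0 * (1 + U ^ 2) := by
    apply mul_le_mul ha (by linarith) (by positivity) (ha0.trans ha)
  nlinarith

/-- The main inequality: on the cell of the smallest vertex the second best functional is at least
half of the best one, once the number of other vertices is large. -/
theorem key_ineq [Nonempty ι] (hn : ‖n‖ = 1) (horth : ∀ j, ⟪v j, n⟫ = 0)
    (ha0 : ∀ j, 0 ≤ a j) (hsum : ∑ j, a j = 1)
    (hneg : ∀ j l, j ≠ l → ⟪v j, v l⟫ ≤ 0)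
    (hbal : ∑ j, (1 + a j) • v j = 0)
    (hvar : ∀ j, 1 - a j ≤ (1 + a j) * ‖v j‖ ^ 2)
    (hMint : Integrable M (stdGaussian E))
    (hM : ∀ x j, (1 + a j) * ⟪v j, x⟫ - a j * ⟪n, x⟫ ≤ M x)
    {t T h a0 : ℝ} (ht : 0 < t) (ht3 : 3 ≤ t ^ 2) (htT : t < T) (hh : 0 < h)
    (ha : 0 < a0) (ha1 : a0 < 1) (hc : 1 + 2 * a0 ≤ t ^ 2)
    (hnum : 3 * ph 0 ≤ ph T * ((t ^ 2 - 1 - 2 * a0) / (1 + t ^ 2)) *
      ((T - t) / h * Real.exp (-T ^ 2 * (1 + a0) / (2 * (1 - a0)))) *
      ((Fintype.card ι : ℝ) - t * (Fintype.card ι + 1) / h - 1 / a0)) :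
    ∫ x, cellF v n M x ∂(stdGaussian E) ≤ 0 := by
  classical
  set G : Finset ι := Finset.univ.filter fun j => a j ≤ a0 with hG
  set K : Set E := {x | ∀ l, ⟪v l, x⟫ ≤ t} with hK
  set S : ι → Set E := fun j => {x | t < ⟪v j, x⟫ ∧ ⟪v j, x⟫ ≤ T ∧ ∀ l, l ≠ j → ⟪v l, x⟫ ≤ t} with hS
  set m : ℝ := ph T * ((t ^ 2 - 1 - 2 * a0) / (1 + t ^ 2)) with hm
  set ρ : ℝ := (T - t) / h * Real.exp (-T ^ 2 * (1 + a0) / (2 * (1 - a0))) with hρ
  set nn : ℝ := (Fintype.card ι : ℝ) - t * (Fintype.card ι + 1) / h - 1 / a0 with hnn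
  have hmK : MeasurableSet K := measurableSet_K v t
  have hmS : ∀ j, MeasurableSet (S j) := fun j => measurableSet_layer v j
  have hm0 : 0 ≤ m := by
    have h1 := ph_pos T
    have h2 : 0 ≤ t ^ 2 - 1 - 2 * a0 := by linarith
    positivity
  have hρ0 : 0 ≤ ρ := by
    have : 0 ≤ T - t := by linarith
    positivity
  have hT0 : 0 < T := ht.trans htT
  have ha_le : ∀ j, a j ≤ 1 := by
    intro j
    rw [← hsum]
    exact Finset.single_le_sum (fun i _ => ha0 i) (Finset.mem_univ j)
  -- integrability of the cell integrand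
  have hmC : MeasurableSet ({y | ∀ l, ⟪v l, y⟫ ≤ ⟪n, y⟫} : Set E) := by
    have : ({y | ∀ l, ⟪v l, y⟫ ≤ ⟪n, y⟫} : Set E) = ⋂ l, {y | ⟪v l, y⟫ ≤ ⟪n, y⟫} := by
      ext x; simp
    rw [this]
    exact MeasurableSet.iInter fun l =>
      measurableSet_le (measurable_inner_left _) (measurable_inner_left _)
  have hFint : Integrable (cellF v n M) (stdGaussian E) := by
    have h1 : Integrable (fun y : E => ⟪n, y⟫) (stdGaussian E) :=
      IsGaussian.integrable_dual (stdGaussian E) (innerSL ℝ n)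
    exact (h1.sub (hMint.const_mul 2)).indicator hmC
  obtain ⟨hae, hout⟩ := integrable_slice n hn hFint
  -- the comparison function
  set Jb : E → ℝ := fun x => 3 * ph 0 * K.indicator (fun _ => (1 : ℝ)) x -
    m * ∑ i ∈ G, (S i).indicator (fun _ => (1 : ℝ)) x with hJb
  have hJbint : Integrable Jb (stdGaussian E) := by
    apply Integrable.sub
    · exact ((integrable_const (1 : ℝ)).indicator hmK).const_mul _
    · exact (integrable_finsetSum _ fun i _ =>
        (integrable_const (1 : ℝ)).indicator (hmS i)).const_mul _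
  have hpt : ∀ᵐ x ∂(stdGaussian E),
      ∫ r, cellF v n M (slice n (x, r)) ∂(gaussianReal 0 1) ≤ Jb x := by
    filter_upwards [hae] with x hx
    obtain ⟨j, -, hj⟩ := Finset.exists_max_image Finset.univ (fun l => ⟪v l, x⟫)
      Finset.univ_nonempty
    have hj' : ∀ l, ⟪v l, x⟫ ≤ ⟪v j, x⟫ := fun l => hj l (Finset.mem_univ l)
    have hU0 : 0 ≤ ⟪v j, x⟫ := by
      by_contra hneg0
      push Not at hneg0
      have h1 : ∑ l, (1 + a l) * ⟪v l, x⟫ = 0 := by
        have := congrArg (fun y => ⟪y, x⟫) hbal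
        simp only [sum_inner, inner_smul_left, inner_zero_left] at this
        simpa using this
      have h2 : ∑ l, (1 + a l) * ⟪v l, x⟫ < 0 := by
        apply Finset.sum_neg
        · intro l _
          have h3 := hj' l
          have h4 := ha0 l
          nlinarith
        · exact Finset.univ_nonempty
      linarith
    have hin := inner_bound v a n M hn horth hM x j hj' hx
    by_cases hxK : x ∈ K
    · -- the low part
      have h1 := J_le_one hU0 (ha0 j) (ha_le j)
      have h2 : ∀ i, x ∉ S i := by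
        intro i hi
        have := hxK i
        exact absurd hi.1 (not_lt.2 this)
      simp only [hJb, indicator_of_mem hxK, indicator_of_notMem (h2 _)]
      simp only [Finset.sum_const_zero, mul_zero, mul_one, sub_zero]
      exact hin.trans h1
    · -- the high part
      have hU : t < ⟪v j, x⟫ := by
        by_contra hc'
        push Not at hc'
        exact hxK fun l => (hj' l).trans hc'
      have hU2 : t ^ 2 ≤ ⟪v j, x⟫ ^ 2 := by nlinarith
      have h1 := J_le_two hU0 (ha0 j)
      simp only [hJb, indicator_of_notMem hxK, mul_zero, zero_sub]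
      by_cases hex : ∃ i ∈ G, x ∈ S i
      · obtain ⟨i, hiG, hiS⟩ := hex
        have hij : j = i := by
          by_contra hne
          have := hiS.2.2 j hne
          linarith
        subst hij
        have hsum1 : ∑ i ∈ G, (S i).indicator (fun _ => (1 : ℝ)) x = 1 := by
          rw [Finset.sum_eq_single j]
          · exact indicator_of_mem hiS _
          · intro b _ hb
            apply indicator_of_notMem
            intro hbS
            have h5 := hiS.2.2 b hb
            exact absurd hbS.1 (not_lt.2 h5)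
          · intro hc'
            exact absurd hiG hc'
        rw [hsum1, mul_one]
        have haj : a j ≤ a0 := (Finset.mem_filter.1 hiG).2
        have h3 := ratio_mono hU.le ht haj (ha0 j)
        have h4 : ph T ≤ ph ⟪v j, x⟫ := ph_anti hU0 hiS.2.1
        have h5 : 0 ≤ (t ^ 2 - 1 - 2 * a0) / (1 + t ^ 2) := by
          have h2 : 0 ≤ t ^ 2 - 1 - 2 * a0 := by linarith
          positivity
        have h6 : ph ⟪v j, x⟫ * ((1 + 2 * a j - ⟪v j, x⟫ ^ 2) / (1 + ⟪v j, x⟫ ^ 2)) =
            - (ph ⟪v j, x⟫ * ((⟪v j, x⟫ ^ 2 - 1 - 2 * a j) / (1 + ⟪v j, x⟫ ^ 2))) := by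
          rw [← mul_neg, ← neg_div]
          congr 2
          ring
        have h7 : m ≤ ph ⟪v j, x⟫ * ((⟪v j, x⟫ ^ 2 - 1 - 2 * a j) / (1 + ⟪v j, x⟫ ^ 2)) := by
          apply mul_le_mul h4 h3 h5 (ph_pos _).le
        linarith
      · push Not at hex
        have hsum0 : ∑ i ∈ G, (S i).indicator (fun _ => (1 : ℝ)) x = 0 := by
          apply Finset.sum_eq_zero
          intro i hi
          exact indicator_of_notMem (hex i hi) _
        rw [hsum0, mul_zero, neg_zero]
        refine hin.trans (h1.trans ?_)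
        apply mul_nonpos_of_nonneg_of_nonpos (ph_pos _).le
        apply div_nonpos_of_nonpos_of_nonneg _ (by positivity)
        have := ha_le j
        nlinarith
  -- integrate
  have hmain : ∫ x, cellF v n M x ∂(stdGaussian E) ≤ ∫ x, Jb x ∂(stdGaussian E) := by
    rw [integral_slice n hn hFint]
    exact integral_mono_ae hout hJbint hpt
  have hJbval : ∫ x, Jb x ∂(stdGaussian E) =
      3 * ph 0 * (stdGaussian E).real K - m * ∑ i ∈ G, (stdGaussian E).real (S i) := by
    simp only [hJb]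
    rw [integral_sub, integral_const_mul, integral_const_mul, integral_finsetSum]
    · congr 2
      · rw [integral_indicator hmK]; simp
      · apply Finset.sum_congr rfl
        intro i _
        rw [integral_indicator (hmS i)]; simp
    · exact fun i _ => (integrable_const (1 : ℝ)).indicator (hmS i)
    · exact ((integrable_const (1 : ℝ)).indicator hmK).const_mul _
    · exact (integrable_finsetSum _ fun i _ =>
        (integrable_const (1 : ℝ)).indicator (hmS i)).const_mul _
  -- growth on good indices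
  have hgrow : ∀ i ∈ G, ρ * (stdGaussian E).real {x | (∀ l, ⟪v l, x⟫ ≤ t) ∧ t - h < ⟪v i, x⟫} ≤
      (stdGaussian E).real (S i) := by
    intro i hi
    have hai : a i ≤ a0 := (Finset.mem_filter.1 hi).2
    have h1 := hvar i
    have h2 : 0 < 1 + a i := by linarith [ha0 i]
    have h3 : (1 - a0) / (1 + a0) ≤ ‖v i‖ ^ 2 := by
      rw [div_le_iff₀ (by linarith)]
      have h4 : 1 - a i ≤ (1 + a i) * ‖v i‖ ^ 2 := h1
      have h5 : 0 ≤ ‖v i‖ ^ 2 := by positivity
      nlinarith [ha0 i]
    have h4 : 0 < (1 - a0) / (1 + a0) := by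
      apply div_pos <;> linarith
    have hvne : v i ≠ 0 := by
      intro hv
      rw [hv, norm_zero] at h3
      norm_num at h3
      linarith
    have hg := growth_real v i (fun l hl => hneg l i hl) hvne ht htT hh
    refine le_trans ?_ hg
    apply mul_le_mul_of_nonneg_right _ measureReal_nonneg
    apply mul_le_mul_of_nonneg_left _ (by
      have : 0 ≤ T - t := by linarith
      positivity)
    apply Real.exp_le_exp.2
    have hvpos : 0 < ‖v i‖ ^ 2 := lt_of_lt_of_le h4 h3
    have h1a : 0 < 1 - a0 := by linarith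
    rw [neg_mul, neg_div, neg_div, neg_le_neg_iff, div_le_div_iff₀ (by positivity) (by positivity)]
    have h6 : 1 - a0 ≤ (1 + a0) * ‖v i‖ ^ 2 := by
      rw [div_le_iff₀ (by linarith)] at h3
      linarith
    have hT2 : 0 ≤ T ^ 2 := by positivity
    nlinarith
  have hcount := sum_slab_ge v G (t := t) (h := h) (n := nn) hh.le (by
    intro x hx
    have := count_bound v a ha0 hsum hbal hh ha ht x hx
    exact this)
  have hS_sum : ρ * ∑ i ∈ G, (stdGaussian E).real {x | (∀ l, ⟪v l, x⟫ ≤ t) ∧ t - h < ⟪v i, x⟫} ≤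
      ∑ i ∈ G, (stdGaussian E).real (S i) := by
    rw [Finset.mul_sum]
    exact Finset.sum_le_sum hgrow
  have hK0 : 0 ≤ (stdGaussian E).real K := measureReal_nonneg
  have hfinal : 3 * ph 0 * (stdGaussian E).real K ≤
      m * ∑ i ∈ G, (stdGaussian E).real (S i) := by
    calc 3 * ph 0 * (stdGaussian E).real K
        ≤ (m * ρ * nn) * (stdGaussian E).real K := mul_le_mul_of_nonneg_right hnum hK0
      _ = m * (ρ * (nn * (stdGaussian E).real K)) := by ring
      _ ≤ m * (ρ * ∑ i ∈ G,
            (stdGaussian E).real {x | (∀ l, ⟪v l, x⟫ ≤ t) ∧ t - h < ⟪v i, x⟫}) := by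
          apply mul_le_mul_of_nonneg_left _ hm0
          exact mul_le_mul_of_nonneg_left hcount hρ0
      _ ≤ m * ∑ i ∈ G, (stdGaussian E).real (S i) :=
          mul_le_mul_of_nonneg_left hS_sum hm0
  linarith

end key

end Vale.Agent.P226h14
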