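import Vale.Agent.P226h14.Chain

open MeasureTheory ProbabilityTheory Real Set Filter Topology
open scoped RealInnerProductSpace ENNReal

namespace Vale.Agent.P226h14

variable {E : Type*} [NormedAddCommGroup E] [InnerProductSpace ℝ E] [FiniteDimensional ℝ E]
  [MeasurableSpace E] [BorelSpace E]

variable {ι : Type*} [Fintype ι]

/-- the integrand of the main inequality with the quadratic penalty -/
noncomputable def cellG (v : ι → E) (n : E) (M : E → ℝ) (S : ℝ) : E → ℝ :=
  ({y | ∀ l, ⟪v l, y⟫ ≤ ⟪n, y⟫} : Set E).indicator fun y => (1 + S) * ⟪n, y⟫ - 2 * M y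

/-- the one dimensional bound function -/
noncomputable def gb (β al u : ℝ) : ℝ := β * Real.exp (-u ^ 2 / 2) - 2 * al * u * Qt u

/-- the slice average, in units of the density at zero -/
noncomputable def Gf (v : ι → E) (n : E) (M : E → ℝ) (S : ℝ) (x : E) : ℝ :=
  (ph 0)⁻¹ * ∫ r, cellG v n M S (slice n (x, r)) ∂(gaussianReal 0 1)

lemma J2_eq (u β c : ℝ) :
    ∫ r in Ici u, (β * r - c) ∂(gaussianReal 0 1) =
      β * ph u - c * (gaussianReal 0 1).real (Ici u) := by
  have hid : IntegrableOn (fun r : ℝ => β * r) (Ici u) (gaussianReal 0 1) :=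
    ((memLp_id_gaussianReal (μ := 0) (v := 1) 1 |>.integrable (by norm_num)).integrableOn).const_mul _
  have i3 : IntegrableOn (fun _ : ℝ => c) (Ici u) (gaussianReal 0 1) :=
    integrableOn_const (by simp)
  rw [integral_sub hid i3, integral_const_mul, integral_Ici_id]
  simp
  ring

lemma inner_bound2 (v : ι → E) (a τ : ι → ℝ) (n : E) (M : E → ℝ) (S : ℝ) (hn : ‖n‖ = 1)
    (horth : ∀ j, ⟪v j, n⟫ = 0)
    (hM : ∀ x j, (1 + a j) * ⟪v j, x⟫ - (a j - τ j) * ⟪n, x⟫ ≤ M x)
    (x : E) (j : ι) (hj : ∀ l, ⟪v l, x⟫ ≤ ⟪v j, x⟫)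
    (hint : Integrable (fun r => cellG v n M S (slice n (x, r))) (gaussianReal 0 1)) :
    Gf v n M S x ≤ gb (1 + S + 2 * a j - 2 * τ j) (1 + a j) ⟪v j, x⟫ := by
  have hnn : ⟪n, n⟫ = 1 := by rw [real_inner_self_eq_norm_sq, hn]; norm_num
  have h1 : ∀ l r, ⟪v l, slice n (x, r)⟫ = ⟪v l, x⟫ := by
    intro l r
    rw [inner_slice, horth]
    ring
  have h2 : ∀ r, ⟪n, slice n (x, r)⟫ = r := by
    intro r
    rw [inner_slice, hnn]
    ring
  set u := ⟪v j, x⟫ with hu
  set β := 1 + S + 2 * a j - 2 * τ j with hβ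
  have hstep : ∫ r, cellG v n M S (slice n (x, r)) ∂(gaussianReal 0 1) ≤
      ∫ r in Ici u, (β * r - 2 * (1 + a j) * u) ∂(gaussianReal 0 1) := by
    rw [← integral_indicator measurableSet_Ici]
    have hg : Integrable (fun r : ℝ => β * r - 2 * (1 + a j) * u) (gaussianReal 0 1) := by
      have hid : Integrable (fun r : ℝ => r) (gaussianReal 0 1) :=
        memLp_id_gaussianReal (μ := 0) (v := 1) 1 |>.integrable (by norm_num)
      exact (hid.const_mul _).sub (integrable_const _)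
    apply integral_mono hint (hg.indicator measurableSet_Ici)
    intro r
    simp only [cellG]
    by_cases hr : u ≤ r
    · have hC : slice n (x, r) ∈ ({y | ∀ l, ⟪v l, y⟫ ≤ ⟪n, y⟫} : Set E) := by
        intro l
        rw [h1, h2]
        exact (hj l).trans hr
      rw [indicator_of_mem hC, indicator_of_mem (show r ∈ Ici u from hr), h2]
      have h3 := hM (slice n (x, r)) j
      rw [h1, h2] at h3
      rw [hβ]
      nlinarith
    · have hC : slice n (x, r) ∉ ({y | ∀ l, ⟪v l, y⟫ ≤ ⟪n, y⟫} : Set E) := by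
        intro hc
        have := hc j
        rw [h1, h2] at this
        exact hr this
      rw [indicator_of_notMem hC, indicator_of_notMem (show r ∉ Ici u from hr)]
  rw [J2_eq] at hstep
  have h0 := ph_zero_pos
  have h3 := mul_le_mul_of_nonneg_left hstep (inv_pos.2 h0).le
  simp only [Gf]
  refine h3.trans (le_of_eq ?_)
  simp only [gb, Qt, Qf]
  rw [ph_eq u]
  field_simp

lemma gb_decomp (S τ a u : ℝ) :
    gb (1 + S + 2 * a - 2 * τ) (1 + a) u = Ac (1 + S - 2 * τ) u + 2 * a * Psi u := by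
  rw [← bound_decomp]
  simp only [gb]
  ring

/-- the top of any point is nonnegative -/
lemma top_nonneg [Nonempty ι] {v : ι → E} {a : ι → ℝ} (ha0 : ∀ j, 0 ≤ a j)
    (hbal : ∑ j, (1 + a j) • v j = 0) {x : E} {j : ι} (hj : ∀ l, ⟪v l, x⟫ ≤ ⟪v j, x⟫) :
    0 ≤ ⟪v j, x⟫ := by
  by_contra hneg0
  push Not at hneg0
  have h1 : ∑ l, (1 + a l) * ⟪v l, x⟫ = 0 := by
    have := congrArg (fun y => ⟪y, x⟫) hbal
    simp only [sum_inner, inner_smul_left, inner_zero_left] at this
    simpa using this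
  have h2 : ∑ l, (1 + a l) * ⟪v l, x⟫ < 0 := by
    apply Finset.sum_neg
    · intro l _
      have h3 := hj l
      have h4 := ha0 l
      nlinarith
    · exact Finset.univ_nonempty
  linarith

lemma measurableSet_cellG (v : ι → E) (n : E) :
    MeasurableSet ({y | ∀ l, ⟪v l, y⟫ ≤ ⟪n, y⟫} : Set E) := by
  have : ({y | ∀ l, ⟪v l, y⟫ ≤ ⟪n, y⟫} : Set E) = ⋂ l, {y | ⟪v l, y⟫ ≤ ⟪n, y⟫} := by
    ext x; simp
  rw [this]
  exact MeasurableSet.iInter fun l =>
    measurableSet_le (measurable_inner_left _) (measurable_inner_left _)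

lemma integrable_cellG (v : ι → E) (n : E) {M : E → ℝ} (S : ℝ)
    (hMint : Integrable M (stdGaussian E)) : Integrable (cellG v n M S) (stdGaussian E) := by
  have h1 : Integrable (fun y : E => ⟪n, y⟫) (stdGaussian E) :=
    IsGaussian.integrable_dual (stdGaussian E) (innerSL ℝ n)
  exact ((h1.const_mul _).sub (hMint.const_mul 2)).indicator (measurableSet_cellG v n)

lemma integrable_Gf (v : ι → E) (n : E) {M : E → ℝ} (S : ℝ) (hn : ‖n‖ = 1)
    (hMint : Integrable M (stdGaussian E)) : Integrable (Gf v n M S) (stdGaussian E) :=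
  (integrable_slice n hn (integrable_cellG v n S hMint)).2.const_mul _

lemma integral_Gf (v : ι → E) (n : E) {M : E → ℝ} (S : ℝ) (hn : ‖n‖ = 1)
    (hMint : Integrable M (stdGaussian E)) :
    ∫ x, Gf v n M S x ∂(stdGaussian E) = (ph 0)⁻¹ * ∫ x, cellG v n M S x ∂(stdGaussian E) := by
  rw [integral_slice n hn (integrable_cellG v n S hMint)]
  simp only [Gf]
  rw [integral_const_mul]

/-- sign of the bound function above the top level -/
lemma gb_nonpos {β al u T : ℝ} (hT : 0 < T) (hu : T ≤ u) (hal : 0 ≤ al)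
    (hκ : 0 < 2 * al - β) (hβ : β ≤ (2 * al - β) * T ^ 2) : gb β al u ≤ 0 := by
  have hu0 : 0 < u := hT.trans_le hu
  have h1 := Qt_mills u
  have h2 : T ^ 2 ≤ u ^ 2 := pow_le_pow_left₀ hT.le hu 2
  have h3 : β * (1 + u ^ 2) ≤ 2 * al * u ^ 2 := by
    have := mul_le_mul_of_nonneg_left h2 hκ.le
    nlinarith
  have he := Real.exp_pos (-u ^ 2 / 2)
  have hQ := Qt_nonneg u
  have h4 : 2 * al * u * (u * Real.exp (-u ^ 2 / 2)) ≤ 2 * al * u * ((1 + u ^ 2) * Qt u) :=
    mul_le_mul_of_nonneg_left h1 (by positivity)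
  have h5 : (β * Real.exp (-u ^ 2 / 2) - 2 * al * u * Qt u) * (1 + u ^ 2) ≤ 0 := by
    have h6 := mul_le_mul_of_nonneg_right h3 he.le
    nlinarith
  simp only [gb]
  by_contra hc
  push Not at hc
  have h7 : 0 < 1 + u ^ 2 := by positivity
  have := mul_pos hc h7
  linarith

/-- the bound function is at most its constant -/
lemma gb_le {β al u : ℝ} (hβ : 0 ≤ β) (hal : 0 ≤ al) (hu : 0 ≤ u) : gb β al u ≤ β := by
  have h1 : Real.exp (-u ^ 2 / 2) ≤ 1 := by
    apply Real.exp_le_one_iff.2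
    nlinarith [sq_nonneg u]
  have h2 : 0 ≤ 2 * al * u * Qt u := by
    have := Qt_nonneg u
    positivity
  simp only [gb]
  nlinarith

end Vale.Agent.P226h14
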