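import Vale.Agent.P226h14.T7a
import Vale.Agent.P226h14.T7b
import Vale.Agent.P226h14.T7c
import Vale.Agent.P226h14.T8a
import Vale.Agent.P226h14.T8b
import Vale.Agent.P226h14.T8c
import Vale.Agent.P226h14.T8d
import Vale.Agent.P226h14.T8e

open MeasureTheory ProbabilityTheory Real Set Filter Topology
open scoped RealInnerProductSpace ENNReal NNReal

namespace Vale.Agent.P226h14

variable {E : Type*} [NormedAddCommGroup E] [InnerProductSpace ℝ E] [FiniteDimensional ℝ E]
  [MeasurableSpace E] [BorelSpace E]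

variable {ι : Type*} [Fintype ι]

lemma all7 : ∀ c ∈ [T7a, T7b, T7c],
    caseOK c qtop = true ∧ famOK c = true ∧ (qtop : ℝ) ≤ Qt c.Ttop := by
  intro c hc
  simp only [List.mem_cons, List.not_mem_nil, or_false] at hc
  rcases hc with rfl | rfl | rfl
  · exact ⟨T7a_ok, by decide +kernel, qtop_le⟩
  · exact ⟨T7b_ok, by decide +kernel, qtop_le⟩
  · exact ⟨T7c_ok, by decide +kernel, qtop_le⟩

lemma all8 : ∀ c ∈ [T8a, T8b, T8c, T8d, T8e],
    caseOK c qtop = true ∧ famOK c = true ∧ (qtop : ℝ) ≤ Qt c.Ttop := by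
  intro c hc
  simp only [List.mem_cons, List.not_mem_nil, or_false] at hc
  rcases hc with rfl | rfl | rfl | rfl | rfl
  · exact ⟨T8a_ok, by decide +kernel, qtop_le⟩
  · exact ⟨T8b_ok, by decide +kernel, qtop_le⟩
  · exact ⟨T8c_ok, by decide +kernel, qtop_le⟩
  · exact ⟨T8d_ok, by decide +kernel, qtop_le⟩
  · exact ⟨T8e_ok, by decide +kernel, qtop_le⟩

/-- One cell can be removed from any partition with at least eight cells. -/
theorem step7 [LinearOrder ι] (hcard : 8 ≤ Fintype.card ι) {A : ι → Set E} (hA : IsPart A) :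
    ∃ i0 : ι, ∃ B : {l // l ≠ i0} → Set E, IsPart B ∧ Fval A ≤ Fval B := by
  by_cases h8 : Fintype.card ι = 8
  · refine family_step [T7a, T7b, T7c] qtop (14 / 100) all7 (by decide +kernel) (by omega) ?_ ?_ hA
    · rw [h8]
      norm_num
    · intro c hc
      simp only [List.mem_cons, List.not_mem_nil, or_false] at hc
      rw [h8]
      rcases hc with rfl | rfl | rfl <;> exact Or.inl rfl
  · refine family_step [T8a, T8b, T8c, T8d, T8e] qtop 0 all8 (by decide +kernel) (by omega) ?_ ?_ hA
    · simp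
    · intro c hc
      simp only [List.mem_cons, List.not_mem_nil, or_false] at hc
      have h9 : 8 ≤ Fintype.card ι - 1 := by omega
      rcases hc with rfl | rfl | rfl | rfl | rfl <;> exact Or.inr ⟨h9, rfl⟩

/-- Any partition with at least `7` cells is dominated by one with exactly `7` cells. -/
theorem reduction7 {k : ℕ} (hk : 7 ≤ k) {A : Fin k → Set E} (hA : IsPart A) :
    ∃ A' : Fin 7 → Set E, IsPart A' ∧ Fval A ≤ Fval A' := by
  induction k, hk using Nat.le_induction with
  | base => exact ⟨A, hA, le_rfl⟩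
  | succ k hk ih =>
    obtain ⟨i0, B, hB, hF⟩ := step7 (ι := Fin (k + 1)) (by simp; omega) hA
    have hc : Fintype.card {l // l ≠ i0} = k := by
      rw [card_ne]
      simp
    set e : Fin k ≃ {l // l ≠ i0} := (Fintype.equivFinOfCardEq hc).symm
    obtain ⟨hB', hF'⟩ := isPart_reindex e hB
    obtain ⟨A', hA', hle⟩ := ih hB'
    exact ⟨A', hA', by linarith⟩

end Vale.Agent.P226h14
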