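import Vale.Agent.P226h14.Main2
import Vale.Agent.P226h14.T6a
import Vale.Agent.P226h14.T6b
import Vale.Agent.P226h14.T6c
import Vale.Agent.P226h14.T6d
import Vale.Agent.P226h14.T6e
import Vale.Agent.P226h14.T6f
import Vale.Agent.P226h14.T6g

open MeasureTheory ProbabilityTheory Real Set Filter Topology
open scoped RealInnerProductSpace ENNReal NNReal

namespace Vale.Agent.P226h14

variable {E : Type*} [NormedAddCommGroup E] [InnerProductSpace ℝ E] [FiniteDimensional ℝ E]
  [MeasurableSpace E] [BorelSpace E]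

variable {ι : Type*} [Fintype ι]

lemma all6 : ∀ c ∈ [T6a, T6b, T6c, T6d, T6e, T6f, T6g], caseOK3 c = true ∧ famOK3 c = true := by
  intro c hc
  simp only [List.mem_cons, List.not_mem_nil, or_false] at hc
  rcases hc with rfl | rfl | rfl | rfl | rfl | rfl | rfl
  · exact ⟨T6a_ok, by decide +kernel⟩
  · exact ⟨T6b_ok, by decide +kernel⟩
  · exact ⟨T6c_ok, by decide +kernel⟩
  · exact ⟨T6d_ok, by decide +kernel⟩
  · exact ⟨T6e_ok, by decide +kernel⟩
  · exact ⟨T6f_ok, by decide +kernel⟩
  · exact ⟨T6g_ok, by decide +kernel⟩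

/-- One cell can be removed from any partition with at least seven cells. -/
theorem step6 [LinearOrder ι] (hcard : 7 ≤ Fintype.card ι) {A : ι → Set E} (hA : IsPart A) :
    ∃ i0 : ι, ∃ B : {l // l ≠ i0} → Set E, IsPart B ∧ Fval A ≤ Fval B := by
  by_cases h7 : Fintype.card ι = 7
  · refine family_step3 [T6a, T6b, T6c, T6d, T6e, T6f, T6g] (1 / 6) all6 (by decide +kernel)
      (by omega) ?_ ?_ hA
    · rw [h7]
      norm_num
    · intro c hc
      simp only [List.mem_cons, List.not_mem_nil, or_false] at hc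
      rw [h7]
      rcases hc with rfl | rfl | rfl | rfl | rfl | rfl | rfl <;> rfl
  · exact step7 (by omega) hA

/-- Any partition with at least `6` cells is dominated by one with exactly `6` cells. -/
theorem reduction6 {k : ℕ} (hk : 6 ≤ k) {A : Fin k → Set E} (hA : IsPart A) :
    ∃ A' : Fin 6 → Set E, IsPart A' ∧ Fval A ≤ Fval A' := by
  induction k, hk using Nat.le_induction with
  | base => exact ⟨A, hA, le_rfl⟩
  | succ k hk ih =>
    obtain ⟨i0, B, hB, hF⟩ := step6 (ι := Fin (k + 1)) (by simp; omega) hA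
    have hc : Fintype.card {l // l ≠ i0} = k := by
      rw [card_ne]
      simp
    set e : Fin k ≃ {l // l ≠ i0} := (Fintype.equivFinOfCardEq hc).symm
    obtain ⟨hB', hF'⟩ := isPart_reindex e hB
    obtain ⟨A', hA', hle⟩ := ih hB'
    exact ⟨A', hA', by linarith⟩

end Vale.Agent.P226h14
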