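import Mathlib

open MeasureTheory ProbabilityTheory Real Set Filter Topology Complex
open scoped RealInnerProductSpace ENNReal

namespace Vale.Agent.P226h14

variable {E : Type*} [NormedAddCommGroup E] [InnerProductSpace ℝ E] [FiniteDimensional ℝ E]
  [MeasurableSpace E] [BorelSpace E]

/-- the slice map along the direction `n` -/
noncomputable def slice (n : E) (p : E × ℝ) : E := p.1 - ⟪n, p.1⟫ • n + p.2 • n

lemma continuous_slice (n : E) : Continuous (slice n : E × ℝ → E) := by
  unfold slice
  fun_prop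

lemma measurable_slice (n : E) : Measurable (slice n : E × ℝ → E) :=
  (continuous_slice n).measurable

/-- The standard Gaussian measure is the image of the product of itself and a one dimensional
standard Gaussian under the slice map, for a unit vector `n`. -/
lemma map_slice (n : E) (hn : ‖n‖ = 1) :
    ((stdGaussian E).prod (gaussianReal 0 1)).map (slice n) = stdGaussian E := by
  apply Measure.ext_of_charFun
  ext t
  rw [charFun_stdGaussian, charFun_apply, integral_map (measurable_slice n).aemeasurable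
    (Measurable.aestronglyMeasurable (by fun_prop))]
  have h1 : ∀ p : E × ℝ, ((⟪slice n p, t⟫ : ℝ) : ℂ) * I =
      ((⟪p.1, t - ⟪n, t⟫ • n⟫ : ℝ) : ℂ) * I + ((p.2 * ⟪n, t⟫ : ℝ) : ℂ) * I := by
    intro p
    rw [← add_mul, ← Complex.ofReal_add]
    congr 2
    simp only [slice, inner_add_left, inner_sub_left, inner_sub_right, inner_smul_left,
      inner_smul_right, real_inner_comm]
    simp
    ring
  have h2 : ∀ p : E × ℝ, Complex.exp (((⟪slice n p, t⟫ : ℝ) : ℂ) * I) =
      Complex.exp (((⟪p.1, t - ⟪n, t⟫ • n⟫ : ℝ) : ℂ) * I) *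
      Complex.exp (((p.2 * ⟪n, t⟫ : ℝ) : ℂ) * I) := by
    intro p
    rw [h1, Complex.exp_add]
  simp_rw [h2]
  rw [integral_prod_mul (μ := stdGaussian E) (ν := gaussianReal 0 1)
    (f := fun x : E => Complex.exp (((⟪x, t - ⟪n, t⟫ • n⟫ : ℝ) : ℂ) * I))
    (g := fun r : ℝ => Complex.exp (((r * ⟪n, t⟫ : ℝ) : ℂ) * I))]
  have h3 : ∫ x : E, Complex.exp (((⟪x, t - ⟪n, t⟫ • n⟫ : ℝ) : ℂ) * I) ∂(stdGaussian E) =
      charFun (stdGaussian E) (t - ⟪n, t⟫ • n) := by
    rw [charFun_apply]
  have h4 : ∫ r : ℝ, Complex.exp (((r * ⟪n, t⟫ : ℝ) : ℂ) * I) ∂(gaussianReal 0 1) =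
      charFun (gaussianReal 0 1) (⟪n, t⟫) := by
    rw [charFun_apply_real]
    congr 1
    ext r
    congr 1
    push_cast
    ring
  rw [h3, h4, charFun_stdGaussian, charFun_gaussianReal, ← Complex.exp_add]
  congr 1
  have h5 : ‖t - ⟪n, t⟫ • n‖ ^ 2 = ‖t‖ ^ 2 - ⟪n, t⟫ ^ 2 := by
    rw [← real_inner_self_eq_norm_sq, inner_sub_left, inner_sub_right, inner_sub_right,
      real_inner_self_eq_norm_sq]
    simp only [inner_smul_left, inner_smul_right, real_inner_comm]
    simp [real_inner_self_eq_norm_sq, hn]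
    ring
  have h6 : ((‖t - ⟪n, t⟫ • n‖ : ℝ) : ℂ) ^ 2 = ((‖t‖ : ℝ) : ℂ) ^ 2 - ((⟪n, t⟫ : ℝ) : ℂ) ^ 2 := by
    exact_mod_cast h5
  rw [h6]
  simp
  ring

omit [FiniteDimensional ℝ E] [MeasurableSpace E] [BorelSpace E] in
lemma inner_slice (u n x : E) (r : ℝ) :
    ⟪u, slice n (x, r)⟫ = ⟪u, x⟫ + (r - ⟪n, x⟫) * ⟪u, n⟫ := by
  simp only [slice, inner_add_right, inner_sub_right, inner_smul_right]
  ring

/-- Slice formula for the measure of a measurable set. -/
lemma measure_slice (n : E) (hn : ‖n‖ = 1) {A : Set E} (hA : MeasurableSet A) :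
    stdGaussian E A =
      ∫⁻ x, gaussianReal 0 1 {r | slice n (x, r) ∈ A} ∂(stdGaussian E) := by
  conv_lhs => rw [← map_slice n hn]
  rw [Measure.map_apply (measurable_slice n) hA,
    Measure.prod_apply ((measurable_slice n) hA)]
  rfl

/-- Slice integration, nonnegative version. -/
lemma lintegral_slice (n : E) (hn : ‖n‖ = 1) {f : E → ℝ≥0∞} (hf : Measurable f) :
    ∫⁻ x, f x ∂(stdGaussian E) =
      ∫⁻ x, ∫⁻ r, f (slice n (x, r)) ∂(gaussianReal 0 1) ∂(stdGaussian E) := by
  conv_lhs => rw [← map_slice n hn]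
  rw [lintegral_map hf (measurable_slice n), lintegral_prod _ (by
    exact (hf.comp (measurable_slice n)).aemeasurable)]

/-- Slice integration, integrable version. -/
lemma integral_slice (n : E) (hn : ‖n‖ = 1) {f : E → ℝ} (hf : Integrable f (stdGaussian E)) :
    ∫ x, f x ∂(stdGaussian E) =
      ∫ x, ∫ r, f (slice n (x, r)) ∂(gaussianReal 0 1) ∂(stdGaussian E) := by
  have h1 : Integrable f (((stdGaussian E).prod (gaussianReal 0 1)).map (slice n)) := by
    rw [map_slice n hn]; exact hf
  have h2 : Integrable (f ∘ slice n) ((stdGaussian E).prod (gaussianReal 0 1)) :=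
    h1.comp_measurable (measurable_slice n)
  conv_lhs => rw [← map_slice n hn]
  rw [integral_map (measurable_slice n).aemeasurable (by rw [map_slice n hn]; exact hf.1)]
  exact integral_prod _ h2

/-- The slices of an integrable function are almost surely integrable and their integral is
integrable. -/
lemma integrable_slice (n : E) (hn : ‖n‖ = 1) {f : E → ℝ} (hf : Integrable f (stdGaussian E)) :
    (∀ᵐ x ∂(stdGaussian E), Integrable (fun r => f (slice n (x, r))) (gaussianReal 0 1)) ∧
      Integrable (fun x => ∫ r, f (slice n (x, r)) ∂(gaussianReal 0 1)) (stdGaussian E) := by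
  have h1 : Integrable f (((stdGaussian E).prod (gaussianReal 0 1)).map (slice n)) := by
    rw [map_slice n hn]; exact hf
  have h2 : Integrable (f ∘ slice n) ((stdGaussian E).prod (gaussianReal 0 1)) :=
    h1.comp_measurable (measurable_slice n)
  exact ⟨h2.prod_right_ae, h2.integral_prod_left⟩

end Vale.Agent.P226h14
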