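import Vale.Agent.P226h14.Fixed

open MeasureTheory ProbabilityTheory Real Set Filter Topology
open scoped RealInnerProductSpace ENNReal NNReal

namespace Vale.Agent.P226h14

variable {E : Type*} [NormedAddCommGroup E] [InnerProductSpace ℝ E] [FiniteDimensional ℝ E]
  [MeasurableSpace E] [BorelSpace E]

variable {ι : Type*} [Fintype ι]

lemma mom_union {A B : Set E} (hd : Disjoint A B) (hB : MeasurableSet B) :
    mom (A ∪ B) = mom A + mom B := by
  simp only [mom]
  exact setIntegral_union hd hB integrable_id_std.integrableOn integrable_id_std.integrableOn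

/-- Reassigning one cell among the other cells. -/
lemma reassign [DecidableEq ι] {B : ι → Set E} (hB : IsPart B) (i0 : ι) {C : {l // l ≠ i0} → Set E}
    (hCm : ∀ l, MeasurableSet (C l)) (hCd : Pairwise (Function.onFun Disjoint C))
    (hCu : ⋃ l, C l = B i0) :
    IsPart (fun l : {l // l ≠ i0} => B l.1 ∪ C l) ∧
      Fval (fun l : {l // l ≠ i0} => B l.1 ∪ C l) =
        Fval B - ‖mom (B i0)‖ ^ 2 +
          ∑ l : {l // l ≠ i0}, (2 * ⟪mom (B l.1), mom (C l)⟫ + ‖mom (C l)‖ ^ 2) := by
  have hsub : ∀ l, C l ⊆ B i0 := by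
    intro l
    rw [← hCu]
    exact subset_iUnion C l
  have hdisj0 : ∀ l : {l // l ≠ i0}, Disjoint (B l.1) (B i0) := fun l => hB.2.1 l.2
  have hdisjBC : ∀ l m : {l // l ≠ i0}, Disjoint (B l.1) (C m) := fun l m =>
    (hdisj0 l).mono_right (hsub m)
  refine ⟨⟨fun l => (hB.1 l.1).union (hCm l), ?_, ?_⟩, ?_⟩
  · intro l m hlm
    have hne : l.1 ≠ m.1 := fun h => hlm (Subtype.ext h)
    simp only [Function.onFun]
    rw [Set.disjoint_union_left, Set.disjoint_union_right, Set.disjoint_union_right]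
    exact ⟨⟨hB.2.1 hne, hdisjBC l m⟩, (hdisjBC m l).symm, hCd hlm⟩
  · ext x
    simp only [mem_iUnion, mem_union, mem_univ, iff_true]
    have hx : x ∈ ⋃ i, B i := by rw [hB.2.2]; trivial
    obtain ⟨j, hj⟩ := mem_iUnion.1 hx
    by_cases hji : j = i0
    · subst hji
      rw [← hCu] at hj
      obtain ⟨l, hl⟩ := mem_iUnion.1 hj
      exact ⟨l, Or.inr hl⟩
    · exact ⟨⟨j, hji⟩, Or.inl hj⟩
  · simp only [Fval]
    rw [Fintype.sum_eq_add_sum_subtype_ne (fun i => ‖mom (B i)‖ ^ 2) i0, add_sub_cancel_left,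
      ← Finset.sum_add_distrib]
    apply Finset.sum_congr rfl
    intro l _
    rw [mom_union (hdisjBC l l) (hCm l), norm_add_sq_real]
    ring

/-- merging an acute pair of cells -/
lemma step_merge [DecidableEq ι] {B : ι → Set E} (hB : IsPart B) {i0 j0 : ι} (hne : j0 ≠ i0)
    (hacute : 0 ≤ ⟪mom (B j0), mom (B i0)⟫) :
    ∃ B' : {l // l ≠ i0} → Set E, IsPart B' ∧ Fval B ≤ Fval B' := by
  set C : {l // l ≠ i0} → Set E := fun l => if l.1 = j0 then B i0 else ∅ with hC
  have hCm : ∀ l, MeasurableSet (C l) := by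
    intro l
    simp only [hC]
    split_ifs
    · exact hB.1 i0
    · exact MeasurableSet.empty
  have hCd : Pairwise (Function.onFun Disjoint C) := by
    intro l m hlm
    simp only [Function.onFun, hC]
    by_cases hl : l.1 = j0
    · have hm : m.1 ≠ j0 := by
        intro h
        exact hlm (Subtype.ext (hl.trans h.symm))
      simp [hm]
    · simp [hl]
  have hCu : ⋃ l, C l = B i0 := by
    apply Set.Subset.antisymm
    · apply iUnion_subset
      intro l
      simp only [hC]
      split_ifs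
      · exact subset_rfl
      · exact empty_subset _
    · intro x hx
      apply mem_iUnion.2
      refine ⟨⟨j0, hne⟩, ?_⟩
      simp only [hC, if_true]
      exact hx
  obtain ⟨hP, hF⟩ := reassign hB i0 hCm hCd hCu
  refine ⟨_, hP, ?_⟩
  rw [hF]
  have hsum : ∑ l : {l // l ≠ i0}, (2 * ⟪mom (B l.1), mom (C l)⟫ + ‖mom (C l)‖ ^ 2) =
      2 * ⟪mom (B j0), mom (B i0)⟫ + ‖mom (B i0)‖ ^ 2 := by
    rw [Finset.sum_eq_single (⟨j0, hne⟩ : {l // l ≠ i0})]
    · simp [hC]
    · intro l _ hl
      have hl' : l.1 ≠ j0 := fun h => hl (Subtype.ext h)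
      have : mom (C l) = 0 := by
        simp only [hC, if_neg hl', mom]
        simp
      rw [this]
      simp
    · intro h
      exact absurd (Finset.mem_univ _) h
  rw [hsum]
  linarith

/-- the deletion of one cell, using the second best index -/
lemma step_delete [LinearOrder ι] {w : ι → E} {i0 : ι} [Nonempty {l // l ≠ i0}]
    (hfix : ∀ i, mom (vcell w i) = w i)
    (hkey : ‖w i0‖ ^ 2 ≤
      2 * ∫ x in vcell w i0, wid (fun l : {l // l ≠ i0} => w l.1) x ∂(stdGaussian E))
    [Nonempty ι] :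
    ∃ B' : {l // l ≠ i0} → Set E, IsPart B' ∧ Fval (vcell w) ≤ Fval B' := by
  classical
  set w' : {l // l ≠ i0} → E := fun l => w l.1 with hw'
  set B := vcell w with hB
  have hBP : IsPart B := isPart_vcell w
  set C : {l // l ≠ i0} → Set E := fun l => B i0 ∩ vcell w' l with hC
  have hCm : ∀ l, MeasurableSet (C l) := fun l => (hBP.1 i0).inter (measurableSet_vcell w' l)
  have hCd : Pairwise (Function.onFun Disjoint C) := by
    intro l m hlm
    exact (disjoint_vcell w' hlm).mono inter_subset_right inter_subset_right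
  have hCu : ⋃ l, C l = B i0 := by
    apply Set.Subset.antisymm
    · exact iUnion_subset fun l => inter_subset_left
    · intro x hx
      obtain ⟨l, hl⟩ := exists_mem_vcell w' x
      exact mem_iUnion.2 ⟨l, hx, hl⟩
  obtain ⟨hP, hF⟩ := reassign hBP i0 hCm hCd hCu
  refine ⟨_, hP, ?_⟩
  rw [hF]
  have hsum : ∑ l : {l // l ≠ i0}, ⟪mom (B l.1), mom (C l)⟫ =
      ∫ x in B i0, wid w' x ∂(stdGaussian E) := by
    have h1 := hasSum_integral_iUnion hCm hCd (f := wid w') (μ := stdGaussian E)
      (integrable_wid w').integrableOn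
    rw [hCu] at h1
    rw [← (hasSum_fintype _).unique h1]
    apply Finset.sum_congr rfl
    intro l _
    rw [hfix, inner_mom]
    apply setIntegral_congr_fun (hCm l)
    intro x hx
    exact (wid_eq_of_mem hx.2).symm
  have h2 : ∑ l : {l // l ≠ i0}, (2 * ⟪mom (B l.1), mom (C l)⟫ + ‖mom (C l)‖ ^ 2) ≥
      2 * ∑ l : {l // l ≠ i0}, ⟪mom (B l.1), mom (C l)⟫ := by
    rw [Finset.mul_sum]
    apply Finset.sum_le_sum
    intro l _
    have : 0 ≤ ‖mom (C l)‖ ^ 2 := by positivity
    linarith
  rw [hsum] at h2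
  have h3 : mom (B i0) = w i0 := hfix i0
  rw [h3]
  linarith

end Vale.Agent.P226h14
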