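import Vale.Agent.P226h14.Delete2

namespace Vale.Agent.P226h14

/-- decoding of a table row -/
def rw (t qt lam k0 k1 eta1 Rc : ℤ) : Row :=
  ⟨(t : ℚ) / 10000, (qt : ℚ) / 10000000000, (lam : ℚ) / 10000000000, (k0 : ℚ) / 10000000000,
    (k1 : ℚ) / 10000000000, (eta1 : ℚ) / 10000000000, (Rc : ℚ) / 100000000⟩

/-- the tail lower bound at the top level -/
def qtop : ℚ := 180113013/2000000000

/-- decoding of a level of the tail bounds -/
def qr (t q : ℤ) : ℚ × ℚ := ((t : ℚ) / 10000, (q : ℚ) / 10000000000)

/-- the levels of the tail bounds -/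
def qrows : List (ℚ × ℚ) := [
  qr (49800) (7949),
  qr (49600) (8814),
  qr (49400) (9769),
  qr (49200) (10824),
  qr (49000) (11988),
  qr (48800) (13272),
  qr (48600) (14687),
  qr (48400) (16247),
  qr (48200) (17965),
  qr (48000) (19857),
  qr (47800) (21940),
  qr (47600) (24232),
  qr (47400) (26753),
  qr (47200) (29525),
  qr (47000) (32571),
  qr (46800) (35917),
  qr (46600) (39592),
  qr (46400) (43626),
  qr (46200) (48052),
  qr (46000) (52906),
  qr (45800) (58228),
  qr (45600) (64061),
  qr (45400) (70451),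
  qr (45200) (77448),
  qr (45000) (85107),
  qr (44800) (93488),
  qr (44600) (102654),
  qr (44400) (112676),
  qr (44200) (123628),
  qr (44000) (135593),
  qr (43800) (148658),
  qr (43600) (162920),
  qr (43400) (178481),
  qr (43200) (195453),
  qr (43000) (213957),
  qr (42800) (234123),
  qr (42600) (256091),
  qr (42400) (280013),
  qr (42200) (306052),
  qr (42000) (334384),
  qr (41800) (365199),
  qr (41600) (398701),
  qr (41400) (435109),
  qr (41200) (474660),
  qr (41000) (517608),
  qr (40800) (564226),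
  qr (40600) (614808),
  qr (40400) (669669),
  qr (40200) (729146),
  qr (40000) (793603),
  qr (39800) (863428),
  qr (39600) (939039),
  qr (39400) (1020882),
  qr (39200) (1109435),
  qr (39000) (1205210),
  qr (38800) (1308754),
  qr (38600) (1420654),
  qr (38400) (1541534),
  qr (38200) (1672064),
  qr (38000) (1812957),
  qr (37800) (1964976),
  qr (37600) (2128933),
  qr (37400) (2305695),
  qr (37200) (2496186),
  qr (37000) (2701390),
  qr (36800) (2922355),
  qr (36600) (3160196),
  qr (36400) (3416100),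
  qr (36200) (3691329),
  qr (36000) (3987224),
  qr (35800) (4305209),
  qr (35600) (4646797),
  qr (35400) (5013593),
  qr (35200) (5407299),
  qr (35000) (5829721),
  qr (34800) (6282772),
  qr (34600) (6768479),
  qr (34400) (7288987),
  qr (34200) (7846566),
  qr (34000) (8443619),
  qr (33800) (9082683),
  qr (33600) (9766442),
  qr (33400) (10497728),
  qr (33200) (11279533),
  qr (33000) (12115012),
  qr (32800) (13007493),
  qr (32600) (13960484),
  qr (32400) (14977680),
  qr (32200) (16062973),
  qr (32000) (17220459),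
  qr (31800) (18454446),
  qr (31600) (19769464),
  qr (31400) (21170274),
  qr (31200) (22661875),
  qr (31000) (24249518),
  qr (30800) (25938710),
  qr (30600) (27735228),
  qr (30400) (29645127),
  qr (30200) (31674751),
  qr (30000) (33830742),
  qr (29800) (36120052),
  qr (29600) (38549953),
  qr (29400) (41128047),
  qr (29200) (43862279),
  qr (29000) (46760945),
  qr (28800) (49832705),
  qr (28600) (53086593),
  qr (28400) (56532029),
  qr (28200) (60178831),
  qr (28000) (64037223),
  qr (27800) (68117850),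
  qr (27600) (72431785),
  qr (27400) (76990545),
  qr (27200) (81806097),
  qr (27000) (86890871),
  qr (26800) (92257772),
  qr (26600) (97920188),
  qr (26400) (103892001),
  qr (26200) (110187599),
  qr (26000) (116821882),
  qr (25800) (123810275),
  qr (25600) (131168735),
  qr (25400) (138913759),
  qr (25200) (147062396),
  qr (25000) (155632250),
  qr (24800) (164641489),
  qr (24600) (174108854),
  qr (24400) (184053662),
  qr (24200) (194495814),
  qr (24000) (205455796),
  qr (23800) (216954688),
  qr (23600) (229014163),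
  qr (23400) (241656492),
  qr (23200) (254904546),
  qr (23000) (268781794),
  qr (22800) (283312305),
  qr (22600) (298520747),
  qr (22400) (314432383),
  qr (22200) (331073069),
  qr (22000) (348469250),
  qr (21800) (366647952),
  qr (21600) (385636777),
  qr (21400) (405463897),
  qr (21200) (426158039),
  qr (21000) (447748480),
  qr (20800) (470265032),
  qr (20600) (493738029),
  qr (20400) (518198311),
  qr (20200) (543677212),
  qr (20000) (570206536),
  qr (19800) (597818542),
  qr (19600) (626545922),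
  qr (19400) (656421779),
  qr (19200) (687479601),
  qr (19000) (719753237),
  qr (18800) (753276871),
  qr (18600) (788084991),
  qr (18400) (824212359),
  qr (18200) (861693979),
  qr (18000) (900565065)]

/-- check of the tail bounds -/
def qcheck : ℚ → ℚ → List (ℚ × ℚ) → ℚ → ℚ → Bool
  | T, q, [], Tend, qend => decide (T = Tend) && decide (qend ≤ q)
  | T, q, x :: l, Tend, qend =>
    decide (0 < x.1) && decide (x.1 ≤ T) &&
    decide (x.2 ≤ q + (T - x.1) * eLow ((T ^ 2 + x.1 * T + x.1 ^ 2) / 6)) &&
    qcheck x.1 x.2 l Tend qend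

lemma qcheck_sound : ∀ (l : List (ℚ × ℚ)) (T q Tend qend : ℚ), 0 < T →
    qcheck T q l Tend qend = true → (q : ℝ) ≤ Qt T → (qend : ℝ) ≤ Qt Tend := by
  intro l
  induction l with
  | nil =>
    intro T q Tend qend _ h hq
    simp only [qcheck, Bool.and_eq_true, decide_eq_true_eq] at h
    rw [← h.1]
    have : (qend : ℝ) ≤ q := by exact_mod_cast h.2
    linarith
  | cons x l ih =>
    intro T q Tend qend hT h hq
    simp only [qcheck, Bool.and_eq_true, decide_eq_true_eq] at h
    obtain ⟨⟨⟨h1, h2⟩, h3⟩, h4⟩ := h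
    refine ih x.1 x.2 Tend qend h1 h4 ?_
    have h2' : (x.1 : ℝ) ≤ T := by exact_mod_cast h2
    have hs := Qt_step h2'
    have hM : 0 ≤ (T ^ 2 + x.1 * T + x.1 ^ 2) / 6 := by positivity
    have he := eLow_le hM
    have h3' : (x.2 : ℝ) ≤ q + ((T : ℝ) - x.1) *
        ((eLow ((T ^ 2 + x.1 * T + x.1 ^ 2) / 6) : ℚ) : ℝ) := by
      exact_mod_cast h3
    have e1 : -(((x.1 : ℝ)) ^ 2 + x.1 * T + (T : ℝ) ^ 2) / 6 =
        -(((T ^ 2 + x.1 * T + x.1 ^ 2) / 6 : ℚ) : ℝ) := by
      push_cast
      ring
    rw [e1] at hs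
    have := mul_le_mul_of_nonneg_left he (sub_nonneg.2 h2')
    linarith

/-- the anchor of the tail bounds -/
lemma q_anchor {T q : ℚ} (hT : 0 < T) (hq : q * (1 + T ^ 2) ≤ T * eLow (T ^ 2 / 2)) :
    (q : ℝ) ≤ Qt T := by
  have h1 := Qt_mills T
  have h2 : ((eLow (T ^ 2 / 2) : ℚ) : ℝ) ≤ Real.exp (-((T ^ 2 / 2 : ℚ) : ℝ)) :=
    eLow_le (by positivity)
  have e : -(((T ^ 2 / 2 : ℚ) : ℝ)) = -(T : ℝ) ^ 2 / 2 := by
    push_cast
    ring
  rw [e] at h2
  have hT' : (0 : ℝ) < T := by exact_mod_cast hT
  have h3 : (q : ℝ) * (1 + (T : ℝ) ^ 2) ≤ T * ((eLow (T ^ 2 / 2) : ℚ) : ℝ) := by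
    exact_mod_cast hq
  have h4 := mul_le_mul_of_nonneg_left h2 hT'.le
  have h5 : 0 < 1 + (T : ℝ) ^ 2 := by positivity
  by_contra hc
  push Not at hc
  have := mul_lt_mul_of_pos_right hc h5
  linarith

/-- the tail lower bound at the top level is valid -/
theorem qtop_le : (qtop : ℝ) ≤ Qt ((9 / 5 : ℚ) : ℝ) := by
  refine qcheck_sound qrows (5) (3583/5000000000) (9 / 5) qtop (by norm_num) (by decide +kernel) ?_
  apply q_anchor (by norm_num)
  decide +kernel

end Vale.Agent.P226h14
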