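import Vale.Agent.P226h14.Delete3

namespace Vale.Agent.P226h14

/-- decoding of a table row -/
def rw3 (t Lv lam k0 k1 eta1 Wb Bb Ar cv Rc : ℤ) : Row3 :=
  ⟨(t : ℚ) / 10000, (Lv : ℚ) / 10000, (lam : ℚ) / 10000000000, (k0 : ℚ) / 10000000000,
    (k1 : ℚ) / 10000000000, (eta1 : ℚ) / 10000000000, (Wb : ℚ) / 10000000000,
    (Bb : ℚ) / 10000000000, (Ar : ℚ) / 10000000000, (cv : ℚ) / 10000000000,
    (Rc : ℚ) / 100000000⟩

end Vale.Agent.P226h14
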