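import Vale.Agent.P226h14.Delete4

namespace Vale.Agent.P226h14

/-- decoding of a table row -/
def rw4 (t Lv lam k0 k0s k1 eta1 Wb Bb Ar cv Rc : ℤ) : Row4 :=
  ⟨(t : ℚ) / 10000, (Lv : ℚ) / 10000, (lam : ℚ) / 10000000000, (k0 : ℚ) / 10000000000,
    (k0s : ℚ) / 10000000000, (k1 : ℚ) / 10000000000, (eta1 : ℚ) / 10000000000,
    (Wb : ℚ) / 10000000000, (Bb : ℚ) / 10000000000, (Ar : ℚ) / 10000000000,
    (cv : ℚ) / 10000000000, (Rc : ℚ) / 100000000⟩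

/-- decoding of a state -/
def st4 (T LT R : ℤ) : St4 := ⟨(T : ℚ) / 10000, (LT : ℚ) / 10000, (R : ℚ) / 100000000⟩

end Vale.Agent.P226h14
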