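import Vale.Agent.P226h14.Chain3

open MeasureTheory ProbabilityTheory Real Set Filter Topology
open scoped RealInnerProductSpace ENNReal

namespace Vale.Agent.P226h14

variable {E : Type*} [NormedAddCommGroup E] [InnerProductSpace ℝ E] [FiniteDimensional ℝ E]
  [MeasurableSpace E] [BorelSpace E]

variable {ι : Type*} [Fintype ι]

lemma integrable_id_gauss : Integrable (fun r : ℝ => r) (gaussianReal 0 1) :=
  memLp_id_gaussianReal (μ := 0) (v := 1) 1 |>.integrable (by norm_num)

lemma integrable_line (β c : ℝ) : Integrable (fun r : ℝ => β * r - c) (gaussianReal 0 1) :=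
  (integrable_id_gauss.const_mul _).sub (integrable_const _)

/-- the two line bound for the slice average -/
lemma inner_two (v : ι → E) (a τ : ι → ℝ) (n : E) (M : E → ℝ) (S : ℝ) (hn : ‖n‖ = 1)
    (horth : ∀ j, ⟪v j, n⟫ = 0)
    (hM : ∀ x j, (1 + a j) * ⟪v j, x⟫ - (a j - τ j) * ⟪n, x⟫ ≤ M x)
    (x : E) (j l : ι) (hj : ∀ m, ⟪v m, x⟫ ≤ ⟪v j, x⟫)
    (hint : Integrable (fun r => cellG v n M S (slice n (x, r))) (gaussianReal 0 1))
    {q t yl y2 ρ : ℝ} (hq : a j ≤ q) (hq1 : 0 ≤ 1 + q) (hyl : yl ≤ ⟪v j, x⟫) (hy2 : ⟪v j, x⟫ ≤ y2)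
    (hρ : y2 ≤ ρ) (ht : t ≤ ⟪v l, x⟫) (hal : 0 ≤ 1 + a l)
    (hb : 0 ≤ 1 + S - 2 * τ j + 2 * q)
    (hd : (1 + S - 2 * τ j + 2 * q) * y2 ≤ 2 * (1 + q) * yl) :
    Gf v n M S x ≤ (1 + S - 2 * τ j + 2 * q) * (Real.exp (-y2 ^ 2 / 2) - Real.exp (-ρ ^ 2 / 2)) -
      2 * (1 + q) * yl * (Qt y2 - Qt ρ) + (1 + S + 2 * (a l - τ l)) * Real.exp (-ρ ^ 2 / 2) -
      2 * (1 + a l) * t * Qt ρ := by
  have hnn : ⟪n, n⟫ = 1 := by rw [real_inner_self_eq_norm_sq, hn]; norm_num
  have h1 : ∀ m r, ⟪v m, slice n (x, r)⟫ = ⟪v m, x⟫ := by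
    intro m r
    rw [inner_slice, horth]
    ring
  have h2 : ∀ r, ⟪n, slice n (x, r)⟫ = r := by
    intro r
    rw [inner_slice, hnn]
    ring
  set y := ⟪v j, x⟫ with hy
  set w := ⟪v l, x⟫ with hw
  set b := 1 + S - 2 * τ j + 2 * q with hbdef
  set d := 2 * (1 + q) with hddef
  set β := 1 + S + 2 * (a l - τ l) with hβ
  set I0 : ℝ → ℝ := fun r => b * r - d * yl with hI0
  set J0 : ℝ → ℝ := fun r => β * r - 2 * (1 + a l) * t with hJ0
  have iI : Integrable I0 (gaussianReal 0 1) := integrable_line _ _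
  have iJ : Integrable J0 (gaussianReal 0 1) := integrable_line _ _
  set H : ℝ → ℝ := fun r => (Ici y2).indicator I0 r - (Ici ρ).indicator I0 r +
    (Ici ρ).indicator J0 r with hH
  have iH : Integrable H (gaussianReal 0 1) :=
    ((iI.indicator measurableSet_Ici).sub (iI.indicator measurableSet_Ici)).add
      (iJ.indicator measurableSet_Ici)
  have hle : ∫ r, cellG v n M S (slice n (x, r)) ∂(gaussianReal 0 1) ≤
      ∫ r, H r ∂(gaussianReal 0 1) := by
    apply integral_mono hint iH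
    intro r
    simp only [cellG, hH]
    have hd0 : 0 ≤ d := by rw [hddef]; linarith
    by_cases hr : y ≤ r
    · have hC : slice n (x, r) ∈ ({y | ∀ l, ⟪v l, y⟫ ≤ ⟪n, y⟫} : Set E) := by
        intro m
        rw [h1, h2]
        exact (hj m).trans hr
      rw [indicator_of_mem hC, h2]
      have h3 := hM (slice n (x, r)) j
      rw [h1, h2] at h3
      have h4 := hM (slice n (x, r)) l
      rw [h1, h2] at h4
      have hqa : 0 ≤ (q - a j) * (r - y) := mul_nonneg (by linarith) (by linarith)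
      have hylb : d * yl ≤ d * y := mul_le_mul_of_nonneg_left hyl hd0
      have hF1 : (1 + S) * r - 2 * M (slice n (x, r)) ≤ b * r - d * yl := by
        have e : b * r - d * y = (1 + S + 2 * a j - 2 * τ j) * r - 2 * (1 + a j) * y +
            2 * ((q - a j) * (r - y)) := by
          rw [hbdef, hddef]
          ring
        nlinarith
      by_cases hr2 : y2 ≤ r
      · rw [indicator_of_mem (show r ∈ Ici y2 from hr2)]
        by_cases hr3 : ρ ≤ r
        · rw [indicator_of_mem (show r ∈ Ici ρ from hr3), indicator_of_mem (show r ∈ Ici ρ from hr3)]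
          simp only [hJ0]
          have h5 : (1 + a l) * t ≤ (1 + a l) * w := mul_le_mul_of_nonneg_left ht hal
          have e : β * r = (1 + S) * r + 2 * ((a l - τ l) * r) := by
            rw [hβ]
            ring
          nlinarith
        · rw [indicator_of_notMem (show r ∉ Ici ρ from hr3),
            indicator_of_notMem (show r ∉ Ici ρ from hr3)]
          simp only [hI0]
          linarith
      · have hr3 : ¬ ρ ≤ r := fun h => hr2 (hρ.trans h)
        rw [indicator_of_notMem (show r ∉ Ici y2 from hr2),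
          indicator_of_notMem (show r ∉ Ici ρ from hr3),
          indicator_of_notMem (show r ∉ Ici ρ from hr3)]
        have h6 : b * r ≤ b * y2 := mul_le_mul_of_nonneg_left (not_le.1 hr2).le hb
        have hd' : b * y2 ≤ d * yl := hd
        linarith
    · have hC : slice n (x, r) ∉ ({y | ∀ l, ⟪v l, y⟫ ≤ ⟪n, y⟫} : Set E) := by
        intro hc
        have := hc j
        rw [h1, h2] at this
        exact hr this
      have hr2 : ¬ y2 ≤ r := fun h => hr (hy2.trans h)
      have hr3 : ¬ ρ ≤ r := fun h => hr2 (hρ.trans h)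
      rw [indicator_of_notMem hC, indicator_of_notMem (show r ∉ Ici y2 from hr2),
        indicator_of_notMem (show r ∉ Ici ρ from hr3),
        indicator_of_notMem (show r ∉ Ici ρ from hr3)]
      simp
  have hval : ∫ r, H r ∂(gaussianReal 0 1) = (b * ph y2 - (d * yl) * Qf y2) -
      (b * ph ρ - (d * yl) * Qf ρ) + (β * ph ρ - (2 * (1 + a l) * t) * Qf ρ) := by
    have i1 : Integrable (fun r => (Ici y2).indicator I0 r) (gaussianReal 0 1) :=
      iI.indicator measurableSet_Ici
    have i2 : Integrable (fun r => (Ici ρ).indicator I0 r) (gaussianReal 0 1) :=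
      iI.indicator measurableSet_Ici
    have i3 : Integrable (fun r => (Ici ρ).indicator J0 r) (gaussianReal 0 1) :=
      iJ.indicator measurableSet_Ici
    have e1 : ∫ r, H r ∂(gaussianReal 0 1) = ∫ r, (Ici y2).indicator I0 r ∂(gaussianReal 0 1) -
        ∫ r, (Ici ρ).indicator I0 r ∂(gaussianReal 0 1) +
        ∫ r, (Ici ρ).indicator J0 r ∂(gaussianReal 0 1) := by
      have e0 : ∫ r, ((Ici y2).indicator I0 r - (Ici ρ).indicator I0 r + (Ici ρ).indicator J0 r)
          ∂(gaussianReal 0 1) =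
          (∫ r, ((Ici y2).indicator I0 r - (Ici ρ).indicator I0 r) ∂(gaussianReal 0 1)) +
          ∫ r, (Ici ρ).indicator J0 r ∂(gaussianReal 0 1) := integral_add (i1.sub i2) i3
      have e00 : ∫ r, ((Ici y2).indicator I0 r - (Ici ρ).indicator I0 r) ∂(gaussianReal 0 1) =
          (∫ r, (Ici y2).indicator I0 r ∂(gaussianReal 0 1)) -
          ∫ r, (Ici ρ).indicator I0 r ∂(gaussianReal 0 1) := integral_sub i1 i2
      simp only [hH]
      rw [e0, e00]
    rw [e1, integral_indicator measurableSet_Ici, integral_indicator measurableSet_Ici,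
      integral_indicator measurableSet_Ici]
    simp only [hI0, hJ0]
    rw [J2_eq, J2_eq, J2_eq]
    simp only [Qf]
  have h0 := ph_zero_pos
  have h3 := mul_le_mul_of_nonneg_left hle (inv_pos.2 h0).le
  simp only [Gf]
  refine h3.trans (le_of_eq ?_)
  rw [hval]
  simp only [Qt]
  rw [ph_eq y2, ph_eq ρ]
  field_simp
  ring

/-- the base bound for the slice average -/
lemma inner_base (v : ι → E) (n : E) (M : E → ℝ) (S : ℝ) (hn : ‖n‖ = 1)
    (horth : ∀ j, ⟪v j, n⟫ = 0)
    (x : E) (j : ι) (hj : ∀ m, ⟪v m, x⟫ ≤ ⟪v j, x⟫)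
    (hint : Integrable (fun r => cellG v n M S (slice n (x, r))) (gaussianReal 0 1))
    {ε : ℝ} (hε : ∀ y, 0 ≤ ⟪n, y⟫ → -ε * ⟪n, y⟫ ≤ M y) (hu : 0 ≤ ⟪v j, x⟫)
    (h0 : 0 ≤ 1 + S + 2 * ε) :
    Gf v n M S x ≤ 1 + S + 2 * ε := by
  have hnn : ⟪n, n⟫ = 1 := by rw [real_inner_self_eq_norm_sq, hn]; norm_num
  have h1 : ∀ m r, ⟪v m, slice n (x, r)⟫ = ⟪v m, x⟫ := by
    intro m r
    rw [inner_slice, horth]
    ring
  have h2 : ∀ r, ⟪n, slice n (x, r)⟫ = r := by
    intro r
    rw [inner_slice, hnn]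
    ring
  set u := ⟪v j, x⟫ with hudef
  set β := 1 + S + 2 * ε with hβ
  have hle : ∫ r, cellG v n M S (slice n (x, r)) ∂(gaussianReal 0 1) ≤
      ∫ r, (Ici u).indicator (fun r => β * r - 0) r ∂(gaussianReal 0 1) := by
    apply integral_mono hint ((integrable_line _ _).indicator measurableSet_Ici)
    intro r
    simp only [cellG]
    by_cases hr : u ≤ r
    · have hC : slice n (x, r) ∈ ({y | ∀ l, ⟪v l, y⟫ ≤ ⟪n, y⟫} : Set E) := by
        intro m
        rw [h1, h2]
        exact (hj m).trans hr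
      rw [indicator_of_mem hC, indicator_of_mem (show r ∈ Ici u from hr), h2]
      have h3 := hε (slice n (x, r)) (by rw [h2]; linarith)
      rw [h2] at h3
      rw [hβ]
      nlinarith
    · have hC : slice n (x, r) ∉ ({y | ∀ l, ⟪v l, y⟫ ≤ ⟪n, y⟫} : Set E) := by
        intro hc
        have := hc j
        rw [h1, h2] at this
        exact hr this
      rw [indicator_of_notMem hC, indicator_of_notMem (show r ∉ Ici u from hr)]
  rw [integral_indicator measurableSet_Ici, J2_eq] at hle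
  have h0' := ph_zero_pos
  have h3 := mul_le_mul_of_nonneg_left hle (inv_pos.2 h0').le
  simp only [Gf]
  refine h3.trans ?_
  rw [ph_eq u]
  have he : Real.exp (-u ^ 2 / 2) ≤ 1 := by
    apply Real.exp_le_one_iff.2
    nlinarith [sq_nonneg u]
  have e : (ph 0)⁻¹ * (β * (ph 0 * Real.exp (-u ^ 2 / 2)) -
      0 * (gaussianReal 0 1).real (Ici u)) = β * Real.exp (-u ^ 2 / 2) := by
    field_simp
    ring
  rw [e]
  nlinarith

end Vale.Agent.P226h14
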