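import Vale.Agent.P226h14.Delete4
import Vale.Agent.P226h14.Assemble

open MeasureTheory ProbabilityTheory Real Set Filter Topology
open scoped RealInnerProductSpace ENNReal NNReal

namespace Vale.Agent.P226h14

/-- one table with its scale shift and the range of the norm of the top vertex it serves -/
structure TabE where
  c : Head4
  th : ℚ
  vh2 : ℚ
  vl2 : ℚ

/-- check of a table for a big top vertex -/
def topBE (N : ℕ) (kap : ℚ) (e : TabE) : Bool :=
  decide (e.c.N = N) && decide (e.c.NS = N - 3) && decide (e.c.kap = kap) &&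
  decide (e.c.sg = 0) &&
  (decide (e.c.xt ≤ 0) || (decide (e.c.q ^ 2 < kap) &&
    decide ((1 + e.c.q) ^ 2 ≤ e.c.xt * (kap - e.c.q ^ 2)))) &&
  famOK4 e.c e.th e.vh2

/-- check of a table for a top vertex that is not big -/
def topSE (N : ℕ) (kap p q : ℚ) (e : TabE) : Bool :=
  decide (e.c.N = N) && decide (e.c.NS = N - 4) && decide (e.c.kap = kap) &&
  decide (e.c.p ≤ p) && decide (q ≤ e.c.q) &&
  (decide (e.c.xt ≤ 0) || (decide (0 < e.vl2) && decide (1 ≤ e.c.xt * e.vl2))) &&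
  famOK4 e.c e.th e.vh2

/-- cover check for the largest coefficient, big top vertex -/
def coverT : ℚ → List TabE → Bool
  | _, [] => false
  | lo, e :: es => decide (e.c.p ≤ lo) && (decide (1 ≤ e.c.q) || coverT e.c.q es)

lemma coverT_find : ∀ (L : List TabE) (lo : ℚ) {x : ℝ}, coverT lo L = true → (lo : ℝ) ≤ x →
    x < 1 → ∃ e ∈ L, (e.c.p : ℝ) ≤ x ∧ x < e.c.q := by
  intro L
  induction L with
  | nil =>
    intro lo x h
    simp [coverT] at h
  | cons e es ih =>
    intro lo x h h1 h2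
    simp only [coverT, Bool.and_eq_true, Bool.or_eq_true, decide_eq_true_eq] at h
    have hp : (e.c.p : ℝ) ≤ lo := by exact_mod_cast h.1
    by_cases hxq : x < e.c.q
    · exact ⟨e, List.mem_cons_self, hp.trans h1, hxq⟩
    · rcases h.2 with h3 | h3
      · have : (1 : ℝ) ≤ e.c.q := by exact_mod_cast h3
        linarith
      · obtain ⟨e', he', h4⟩ := ih _ h3 (not_lt.1 hxq) h2
        exact ⟨e', List.mem_cons_of_mem _ he', h4⟩

/-- cover check for the largest coefficient, groups of tables -/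
def coverG : ℚ → List (ℚ × ℚ × List TabE) → Bool
  | _, [] => false
  | lo, g :: gs => decide (g.1 ≤ lo) && (decide (1 ≤ g.2.1) || coverG g.2.1 gs)

lemma coverG_find : ∀ (L : List (ℚ × ℚ × List TabE)) (lo : ℚ) {x : ℝ}, coverG lo L = true →
    (lo : ℝ) ≤ x → x < 1 → ∃ g ∈ L, (g.1 : ℝ) ≤ x ∧ x < g.2.1 := by
  intro L
  induction L with
  | nil =>
    intro lo x h
    simp [coverG] at h
  | cons e es ih =>
    intro lo x h h1 h2
    simp only [coverG, Bool.and_eq_true, Bool.or_eq_true, decide_eq_true_eq] at h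
    have hp : (e.1 : ℝ) ≤ lo := by exact_mod_cast h.1
    by_cases hxq : x < e.2.1
    · exact ⟨e, List.mem_cons_self, hp.trans h1, hxq⟩
    · rcases h.2 with h3 | h3
      · have : (1 : ℝ) ≤ e.2.1 := by exact_mod_cast h3
        linarith
      · obtain ⟨e', he', h4⟩ := ih _ h3 (not_lt.1 hxq) h2
        exact ⟨e', List.mem_cons_of_mem _ he', h4⟩

/-- cover check for the square norm of the top vertex -/
def coverV : ℚ → ℚ → List TabE → Bool
  | _, _, [] => false
  | lo, hi, e :: es => decide (e.vl2 ≤ lo) && (decide (hi ≤ e.vh2) || coverV e.vh2 hi es)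

lemma coverV_find : ∀ (L : List TabE) (lo hi : ℚ) {x : ℝ}, coverV lo hi L = true → (lo : ℝ) ≤ x →
    x ≤ hi → ∃ e ∈ L, (e.vl2 : ℝ) ≤ x ∧ x ≤ e.vh2 := by
  intro L
  induction L with
  | nil =>
    intro lo hi x h
    simp [coverV] at h
  | cons e es ih =>
    intro lo hi x h h1 h2
    simp only [coverV, Bool.and_eq_true, Bool.or_eq_true, decide_eq_true_eq] at h
    have hp : (e.vl2 : ℝ) ≤ lo := by exact_mod_cast h.1
    by_cases hxq : x ≤ e.vh2
    · exact ⟨e, List.mem_cons_self, hp.trans h1, hxq⟩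
    · rcases h.2 with h3 | h3
      · have : (hi : ℝ) ≤ e.vh2 := by exact_mod_cast h3
        linarith
      · obtain ⟨e', he', h4⟩ := ih _ _ h3 (not_le.1 hxq).le h2
        exact ⟨e', List.mem_cons_of_mem _ he', h4⟩

/-- check of one group of tables for a top vertex that is not big -/
def groupOK (N : ℕ) (kap : ℚ) (g : ℚ × ℚ × List TabE) : Bool :=
  decide (0 ≤ g.1) &&
  coverV ((1 - g.2.1) / (1 + g.2.1)) ((kap - g.1 ^ 2) / (1 + g.1) ^ 2) g.2.2 &&
  g.2.2.all (topSE N kap g.1 g.2.1)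

/-- all the finite checks of a family of tables -/
def wrapOK (N : ℕ) (kap : ℚ) (topB : List TabE) (topS : List (ℚ × ℚ × List TabE)) : Bool :=
  coverT (1 / (N : ℚ)) topB && topB.all (topBE N kap) &&
  coverG (1 / (N : ℚ)) topS && topS.all (groupOK N kap)

variable {E : Type*} [NormedAddCommGroup E] [InnerProductSpace ℝ E] [FiniteDimensional ℝ E]
  [MeasurableSpace E] [BorelSpace E]

/-- the bound on the other coefficients from the family level check -/
lemma cap_of_fam {ι : Type*} [Fintype ι] {a : ι → ℝ} {j1 : ι} {c : Head4} {th vh2 : ℚ}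
    (hfam : famOK4 c th vh2 = true) (hq : a j1 < c.q) (hp : (c.p : ℝ) ≤ a j1)
    (hmax : ∀ l, a l ≤ a j1) (hpair : ∀ l, l ≠ j1 → a l + a j1 ≤ 1) :
    ∀ l, l ≠ j1 → a l ≤ c.cap := by
  simp only [famOK4, Bool.and_eq_true, Bool.or_eq_true, decide_eq_true_eq] at hfam
  intro l hl
  rcases hfam.2 with h | h
  · have h1 : (c.q : ℝ) ≤ c.cap := by exact_mod_cast h
    linarith [hmax l]
  · have h1 : (1 : ℝ) - c.p ≤ c.cap := by exact_mod_cast h
    linarith [hpair l hl]

/-- A family of tables, for the big top vertex and for the others, together with the cap bound,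
gives the deletion step. -/
theorem delstep_family {m N : ℕ} (hm : m = N + 1) (hN : 4 ≤ N) (kap : ℚ) (hkap : 1 < kap)
    (hcapb : ∀ w : Fin m → E, (∀ i, mom (vcell w i) = w i) → (∀ i j, i ≠ j → ⟪w i, w j⟫ < 0) →
      muP ≤ ∑ i, ‖w i‖ ^ 2 → ∀ i0, (∀ j, ‖w i0‖ ≤ ‖w j‖) →
      3 ≤ (Finset.univ.filter (fun j => j ≠ i0 ∧ (kap : ℝ) * ‖w i0‖ ^ 2 ≤ ‖w j‖ ^ 2)).card)
    (topB : List TabE) (topS : List (ℚ × ℚ × List TabE))
    (hok : wrapOK N kap topB topS = true)
    (hgoodB : ∀ e ∈ topB, Good4 e.c)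
    (hgoodS : ∀ g ∈ topS, ∀ e ∈ g.2.2, Good4 e.c) :
    DelStep E m := by
  classical
  subst hm
  intro w hfix hobt hlarge
  simp only [wrapOK, Bool.and_eq_true] at hok
  obtain ⟨⟨⟨hcovB, hallB⟩, hcovS⟩, hallS⟩ := hok
  have hne : Nonempty (Fin (N + 1)) := ⟨⟨0, by omega⟩⟩
  obtain ⟨i0, -, hi0⟩ := Finset.exists_min_image Finset.univ (fun l => ‖w l‖)
    Finset.univ_nonempty
  have hmin : ∀ j, ‖w i0‖ ≤ ‖w j‖ := fun j => hi0 j (Finset.mem_univ j)
  have hcapi := hcapb w hfix hobt hlarge i0 hmin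
  have hcardN : Fintype.card {l // l ≠ i0} = N := by
    rw [card_ne]
    simp
  have hne2 : Nonempty {l // l ≠ i0} := by
    apply Fintype.card_pos_iff.1
    omega
  obtain ⟨v, a, n, hnormw, hw0v, hz0, hgeo⟩ := geo_data4 (w := w) (i0 := i0) hfix hobt hmin
  have g0 := (hgeo (fun _ => 0) (fun _ => 0) 0 (fun _ => le_rfl)).1
  set z : ℝ := ‖w i0‖ with hz
  have hz2 : 0 < z ^ 2 := by positivity
  have hkap0 : (0 : ℝ) < kap := by
    have : (1 : ℝ) < kap := by exact_mod_cast hkap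
    linarith
  -- the big vertices
  set Big : Finset {l // l ≠ i0} := Finset.univ.filter
    (fun l => (kap : ℝ) * z ^ 2 ≤ ‖w l.1‖ ^ 2) with hBig
  have hBigcard : 3 ≤ Big.card := by
    refine hcapi.trans ?_
    have hsub : (Finset.univ.filter (fun j => j ≠ i0 ∧ (kap : ℝ) * ‖w i0‖ ^ 2 ≤ ‖w j‖ ^ 2)) ⊆
        Big.map (Function.Embedding.subtype _) := by
      intro j hj
      have hj' := (Finset.mem_filter.1 hj).2
      refine Finset.mem_map.2 ⟨⟨j, hj'.1⟩, ?_, rfl⟩
      exact Finset.mem_filter.2 ⟨Finset.mem_univ _, hj'.2⟩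
    have := Finset.card_le_card hsub
    rwa [Finset.card_map] at this
  have hbigv : ∀ l, l ∈ Big → (kap : ℝ) - a l ^ 2 ≤ (1 + a l) ^ 2 * ‖v l‖ ^ 2 := by
    intro l hl
    have h1 := (Finset.mem_filter.1 hl).2
    rw [hnormw l] at h1
    have h2 : (kap : ℝ) ≤ (1 + a l) ^ 2 * ‖v l‖ ^ 2 + a l ^ 2 := le_of_mul_le_mul_right h1 hz2
    linarith
  -- the largest coefficient
  obtain ⟨j1, -, hj1⟩ := Finset.exists_max_image Finset.univ a Finset.univ_nonempty
  have hj1' : ∀ l, a l ≤ a j1 := fun l => hj1 l (Finset.mem_univ l)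
  have hpair : ∀ l, l ≠ j1 → a l + a j1 ≤ 1 := by
    intro l hl
    rw [← g0.hsum, ← Finset.add_sum_erase _ _ (Finset.mem_univ j1),
      ← Finset.add_sum_erase (Finset.univ.erase j1) _ (Finset.mem_erase.2 ⟨hl, Finset.mem_univ l⟩)]
    have : 0 ≤ ∑ x ∈ (Finset.univ.erase j1).erase l, a x :=
      Finset.sum_nonneg fun x _ => (g0.ha x).le
    linarith
  obtain ⟨l0, hl0⟩ : ∃ l0, l0 ≠ j1 := by
    have : 1 < Fintype.card {l // l ≠ i0} := by omega
    obtain ⟨x, y, hxy⟩ := Fintype.exists_pair_of_one_lt_card this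
    by_cases hx : x = j1
    · exact ⟨y, fun h => hxy (hx.trans h.symm)⟩
    · exact ⟨x, hx⟩
  have ha1 : a j1 < 1 := by
    have := hpair l0 hl0
    have := g0.ha l0
    linarith
  have hN0 : (0 : ℝ) < N := by
    have : 4 ≤ N := hN
    exact_mod_cast (by omega : 0 < N)
  have hlow : (((1 / (N : ℚ)) : ℚ) : ℝ) ≤ a j1 := by
    have h1 : ∑ l, a l ≤ (Fintype.card {l // l ≠ i0} : ℝ) * a j1 := by
      have := Finset.sum_le_card_nsmul Finset.univ a (a j1) (fun l _ => hj1' l)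
      simpa using this
    rw [g0.hsum, hcardN] at h1
    push_cast
    rw [div_le_iff₀ hN0]
    linarith
  have hv1 : v j1 ≠ 0 := (norm_facts (g0.ha j1) ha1 (g0.hvar j1)).1
  have hV0 : 0 < ‖v j1‖ ^ 2 := by
    have := norm_pos_iff.2 hv1
    positivity
  -- the choice of the small vertices
  set U : Finset {l // l ≠ i0} := Finset.univ.erase j1 with hU
  have hUcard : U.card = N - 1 := by
    rw [hU, Finset.card_erase_of_mem (Finset.mem_univ _), Finset.card_univ, hcardN]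
  set U0 : Finset {l // l ≠ i0} := U.filter (fun l => l ∉ Big) with hU0
  have hU0sub : U0 ⊆ U := Finset.filter_subset _ _
  have hdisj : U0.card + (Big.erase j1).card ≤ U.card := by
    rw [← Finset.card_union_of_disjoint]
    · apply Finset.card_le_card
      intro l hl
      rcases Finset.mem_union.1 hl with h | h
      · exact hU0sub h
      · exact Finset.mem_erase.2 ⟨(Finset.mem_erase.1 h).1, Finset.mem_univ _⟩
    · rw [Finset.disjoint_left]
      intro l h1 h2
      exact (Finset.mem_filter.1 h1).2 (Finset.mem_of_mem_erase h2)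
  have hbigS : ∀ (Sm : Finset {l // l ≠ i0}), U0 ⊆ Sm → ∀ l, l ≠ j1 → l ∉ Sm →
      (kap : ℝ) - a l ^ 2 ≤ (1 + a l) ^ 2 * ‖v l‖ ^ 2 := by
    intro Sm hS l hl hlS
    apply hbigv
    by_contra hc
    exact hlS (hS (Finset.mem_filter.2 ⟨Finset.mem_erase.2 ⟨hl, Finset.mem_univ _⟩, hc⟩))
  by_cases htopbig : j1 ∈ Big
  · -- the top vertex is big
    have hcardB : (Big.erase j1).card = Big.card - 1 := Finset.card_erase_of_mem htopbig
    obtain ⟨Sm, hS1, hS2, hS3⟩ := Finset.exists_subsuperset_card_eq (n := N - 3) hU0sub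
      (by omega) (by omega)
    have hjS : j1 ∉ Sm := fun h => (Finset.mem_erase.1 (hS2 h)).1 rfl
    obtain ⟨e, he, hep, heq⟩ := coverT_find topB _ hcovB hlow ha1
    have hchk := List.all_eq_true.1 hallB e he
    simp only [topBE, Bool.and_eq_true, Bool.or_eq_true, decide_eq_true_eq] at hchk
    obtain ⟨⟨⟨⟨⟨h1, h2⟩, h3⟩, h4⟩, h5⟩, h6⟩ := hchk
    obtain ⟨B, hB, hF⟩ := del_table hfix hw0v hz0 hgeo e.c (hgoodB e he) e.th e.vh2 h6 j1 Sm
      ⟨l0, hl0⟩ hep heq (cap_of_fam h6 heq hep hj1' hpair) (by rw [hcardN, h1])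
      (by
        intro hxt
        rcases h5 with h5 | ⟨h5a, h5b⟩
        · exact absurd hxt (not_lt.2 h5)
        · have h7 := hbigv j1 htopbig
          have ha0 := g0.ha j1
          have hq0 : (0 : ℝ) < e.c.q := ha0.trans heq
          have h5a' : (e.c.q : ℝ) ^ 2 < kap := by exact_mod_cast h5a
          have h5b' : (1 + (e.c.q : ℝ)) ^ 2 ≤ e.c.xt * ((kap : ℝ) - (e.c.q : ℝ) ^ 2) := by
            exact_mod_cast h5b
          have h8 : a j1 ^ 2 ≤ (e.c.q : ℝ) ^ 2 := pow_le_pow_left₀ ha0.le heq.le 2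
          have h9 : (1 + a j1) ^ 2 ≤ (1 + (e.c.q : ℝ)) ^ 2 :=
            pow_le_pow_left₀ (by linarith) (by linarith) 2
          have hxt' : (0 : ℝ) < e.c.xt := by exact_mod_cast hxt
          -- the inverse bound
          have h10 : (1 + a j1) ^ 2 ≤ e.c.xt * ((1 + a j1) ^ 2 * ‖v j1‖ ^ 2) := by
            have h11 : (e.c.xt : ℝ) * ((kap : ℝ) - (e.c.q : ℝ) ^ 2) ≤
                e.c.xt * ((1 + a j1) ^ 2 * ‖v j1‖ ^ 2) :=
              mul_le_mul_of_nonneg_left (by linarith) hxt'.le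
            linarith
          have h12 : 1 ≤ e.c.xt * ‖v j1‖ ^ 2 := by
            have h13 : 0 < (1 + a j1) ^ 2 := by positivity
            have h14 : (1 + a j1) ^ 2 * 1 ≤ (1 + a j1) ^ 2 * (e.c.xt * ‖v j1‖ ^ 2) := by
              nlinarith
            exact le_of_mul_le_mul_left h14 h13
          rw [inv_eq_one_div, div_le_iff₀ hV0]
          exact h12)
      (fun h => absurd h4 h) hjS (by rw [hS3, h2])
      (fun l hl hlS => by
        rw [h3]
        exact hbigS Sm hS1 l hl hlS)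
      (by rw [h3]; exact Or.inl hkap0) hv1
    exact ⟨i0, B, hB, hF⟩
  · -- the top vertex is not big
    have hsubB : Big.erase j1 = Big := Finset.erase_eq_of_notMem htopbig
    obtain ⟨Sm, hS1, hS2, hS3⟩ := Finset.exists_subsuperset_card_eq (n := N - 4) hU0sub
      (by rw [hsubB] at hdisj; omega) (by omega)
    have hjS : j1 ∉ Sm := fun h => (Finset.mem_erase.1 (hS2 h)).1 rfl
    obtain ⟨gr, hgr, hgp, hgq⟩ := coverG_find topS _ hcovS hlow ha1
    have hchk := List.all_eq_true.1 hallS gr hgr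
    simp only [groupOK, Bool.and_eq_true, decide_eq_true_eq] at hchk
    obtain ⟨⟨hp0, hcovV⟩, hallE⟩ := hchk
    have ha0 := g0.ha j1
    have hp0' : (0 : ℝ) ≤ gr.1 := by exact_mod_cast hp0
    have hq0 : (0 : ℝ) < gr.2.1 := ha0.trans hgq
    -- the upper bound of the norm
    have hnotbig : (1 + a j1) ^ 2 * ‖v j1‖ ^ 2 + a j1 ^ 2 < kap := by
      by_contra hc
      push Not at hc
      apply htopbig
      refine Finset.mem_filter.2 ⟨Finset.mem_univ _, ?_⟩
      rw [hnormw j1]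
      exact mul_le_mul_of_nonneg_right hc hz2.le
    have hupper : ‖v j1‖ ^ 2 ≤ (((kap - gr.1 ^ 2) / (1 + gr.1) ^ 2 : ℚ) : ℝ) := by
      push_cast
      rw [le_div_iff₀ (by positivity)]
      have h1 : a j1 ^ 2 ≥ (gr.1 : ℝ) ^ 2 := pow_le_pow_left₀ hp0' hgp 2
      have h2 : (1 + (gr.1 : ℝ)) ^ 2 ≤ (1 + a j1) ^ 2 :=
        pow_le_pow_left₀ (by linarith) (by linarith) 2
      have h3 : ‖v j1‖ ^ 2 * (1 + (gr.1 : ℝ)) ^ 2 ≤ ‖v j1‖ ^ 2 * (1 + a j1) ^ 2 :=
        mul_le_mul_of_nonneg_left h2 hV0.le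
      linarith
    have hlower : (((1 - gr.2.1) / (1 + gr.2.1) : ℚ) : ℝ) ≤ ‖v j1‖ ^ 2 := by
      push_cast
      rw [div_le_iff₀ (by linarith)]
      have h1 := g0.hvar j1
      have h2 : (1 + a j1) * ‖v j1‖ ^ 2 ≤ (1 + (gr.2.1 : ℝ)) * ‖v j1‖ ^ 2 :=
        mul_le_mul_of_nonneg_right (by linarith) hV0.le
      linarith
    obtain ⟨e, he, hevl, hevh⟩ := coverV_find gr.2.2 _ _ hcovV hlower hupper
    have hchk2 := List.all_eq_true.1 hallE e he
    simp only [topSE, Bool.and_eq_true, Bool.or_eq_true, decide_eq_true_eq] at hchk2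
    obtain ⟨⟨⟨⟨⟨⟨h1, h2⟩, h3⟩, h4⟩, h5⟩, h6⟩, h7⟩ := hchk2
    have hep : (e.c.p : ℝ) ≤ a j1 := by
      have : (e.c.p : ℝ) ≤ gr.1 := by exact_mod_cast h4
      linarith
    have heq : a j1 < e.c.q := by
      have : (gr.2.1 : ℝ) ≤ e.c.q := by exact_mod_cast h5
      linarith
    obtain ⟨B, hB, hF⟩ := del_table hfix hw0v hz0 hgeo e.c (hgoodS gr hgr e he) e.th e.vh2 h7 j1 Sm
      ⟨l0, hl0⟩ hep heq (cap_of_fam h7 heq hep hj1' hpair) (by rw [hcardN, h1])
      (by
        intro hxt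
        rcases h6 with h6 | ⟨h6a, h6b⟩
        · exact absurd hxt (not_lt.2 h6)
        · have hxt' : (0 : ℝ) < e.c.xt := by exact_mod_cast hxt
          have h6b' : (1 : ℝ) ≤ e.c.xt * e.vl2 := by exact_mod_cast h6b
          have h8 : (e.c.xt : ℝ) * e.vl2 ≤ e.c.xt * ‖v j1‖ ^ 2 :=
            mul_le_mul_of_nonneg_left hevl hxt'.le
          rw [inv_eq_one_div, div_le_iff₀ hV0]
          linarith)
      (fun _ => hevh) hjS (by rw [hS3, h2])
      (fun l hl hlS => by
        rw [h3]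
        exact hbigS Sm hS1 l hl hlS)
      (by rw [h3]; exact Or.inl hkap0) hv1
    exact ⟨i0, B, hB, hF⟩

end Vale.Agent.P226h14
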