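import Vale.Agent.P226h14.Wrap4
import Vale.Agent.P226h15.Cap5J
import Vale.Agent.P226h15.Cap6J

open MeasureTheory ProbabilityTheory Real Set Filter Topology
open scoped RealInnerProductSpace ENNReal NNReal

namespace Vale.Agent.P226h14

variable {E : Type*} [NormedAddCommGroup E] [InnerProductSpace ℝ E] [FiniteDimensional ℝ E]
  [MeasurableSpace E] [BorelSpace E]

/-- the joint cap bound for five cells, in the form used by the family of tables -/
theorem capb5 (kap : ℚ) (hk : (kap : ℝ) ≤ 12) (w : Fin 5 → E) (hfix : ∀ i, mom (vcell w i) = w i)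
    (_hobt : ∀ i j, i ≠ j → ⟪w i, w j⟫ < 0) (hF : muP ≤ ∑ i, ‖w i‖ ^ 2) (i0 : Fin 5)
    (hmin : ∀ j, ‖w i0‖ ≤ ‖w j‖) :
    3 ≤ (Finset.univ.filter (fun j => j ≠ i0 ∧ (kap : ℝ) * ‖w i0‖ ^ 2 ≤ ‖w j‖ ^ 2)).card := by
  refine (Vale.Agent.P226h15.cap5_joint w hfix (by simp) hF i0 hmin).trans ?_
  apply Finset.card_le_card
  intro j hj
  obtain ⟨_, h1, h2⟩ := Finset.mem_filter.1 hj
  refine Finset.mem_filter.2 ⟨Finset.mem_univ _, h1, le_trans ?_ h2⟩
  exact mul_le_mul_of_nonneg_right hk (by positivity)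

/-- the joint cap bound for six cells, in the form used by the family of tables -/
theorem capb6 (kap : ℚ) (hk : (kap : ℝ) ≤ 20) (w : Fin 6 → E) (hfix : ∀ i, mom (vcell w i) = w i)
    (_hobt : ∀ i j, i ≠ j → ⟪w i, w j⟫ < 0) (hF : muP ≤ ∑ i, ‖w i‖ ^ 2) (i0 : Fin 6)
    (hmin : ∀ j, ‖w i0‖ ≤ ‖w j‖) :
    3 ≤ (Finset.univ.filter (fun j => j ≠ i0 ∧ (kap : ℝ) * ‖w i0‖ ^ 2 ≤ ‖w j‖ ^ 2)).card := by
  refine (Vale.Agent.P226h15.cap6_joint w hfix (by simp) hF i0 hmin).trans ?_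
  apply Finset.card_le_card
  intro j hj
  obtain ⟨_, h1, h2⟩ := Finset.mem_filter.1 hj
  refine Finset.mem_filter.2 ⟨Finset.mem_univ _, h1, le_trans ?_ h2⟩
  exact mul_le_mul_of_nonneg_right hk (by positivity)

end Vale.Agent.P226h14
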