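import Vale.Agent.P226h14.Delete4
import Vale.Agent.P226h14.Assemble

open MeasureTheory ProbabilityTheory Real Set Filter Topology
open scoped RealInnerProductSpace ENNReal NNReal

namespace Vale.Agent.P226h14

variable {E : Type*} [NormedAddCommGroup E] [InnerProductSpace ℝ E] [FiniteDimensional ℝ E]
  [MeasurableSpace E] [BorelSpace E]

/-- a table with the data of its family -/
structure TabE where
  c : Head4
  th : ℚ
  vh2 : ℚ
  vl2 : ℚ

/-- a list of half open intervals covers an interval -/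
def covers {α : Type} (l u : α → ℚ) : ℚ → ℚ → List α → Bool
  | lo, hi, [] => decide (hi ≤ lo)
  | lo, hi, e :: L => decide (l e ≤ lo) && covers l u (max lo (u e)) hi L

lemma covers_sound {α : Type} (l u : α → ℚ) : ∀ (L : List α) (lo hi : ℚ),
    covers l u lo hi L = true → ∀ x : ℝ, (lo : ℝ) ≤ x → x < hi →
      ∃ e ∈ L, (l e : ℝ) ≤ x ∧ x < u e := by
  intro L
  induction L with
  | nil =>
    intro lo hi h x h1 h2
    simp only [covers, decide_eq_true_eq] at h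
    have : (hi : ℝ) ≤ lo := by exact_mod_cast h
    linarith
  | cons e L ih =>
    intro lo hi h x h1 h2
    simp only [covers, Bool.and_eq_true, decide_eq_true_eq] at h
    obtain ⟨hl, hc⟩ := h
    have hl' : (l e : ℝ) ≤ lo := by exact_mod_cast hl
    by_cases hx : x < u e
    · exact ⟨e, List.mem_cons_self, by linarith, hx⟩
    · push Not at hx
      have hm : ((max lo (u e) : ℚ) : ℝ) ≤ x := by
        rw [Rat.cast_max]
        exact max_le h1 hx
      obtain ⟨e', he', h3⟩ := ih _ _ hc x hm h2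
      exact ⟨e', List.mem_cons_of_mem _ he', h3⟩

/-- a table valid when the top vertex is big -/
def bigOK (N : ℕ) (kap : ℚ) (e : TabE) : Bool :=
  famOK4 e.c e.th e.vh2 && decide (e.c.N = N) && decide (e.c.NS = N - 3) && decide (e.c.kap = kap) &&
    decide (e.c.q ^ 2 < kap) && decide ((1 + e.c.q) ^ 2 ≤ e.c.xt * (kap - e.c.q ^ 2)) &&
    decide (0 < e.c.xt) && decide (e.c.sg = 0)

/-- a table valid when the top vertex is small -/
def smallOK (N : ℕ) (kap p q : ℚ) (e : TabE) : Bool :=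
  famOK4 e.c e.th e.vh2 && decide (e.c.N = N) && decide (e.c.NS = N - 4) && decide (e.c.kap = kap) &&
    decide (e.c.p ≤ p) && decide (q ≤ e.c.q) &&
    (decide (e.c.xt ≤ 0) || (decide (0 < e.vl2) && decide (1 ≤ e.c.xt * e.vl2)))

/-- the checks for one range of the top coefficient, top vertex small -/
def rangeOK (N : ℕ) (kap : ℚ) (s : ℚ × ℚ × List TabE) : Bool :=
  s.2.2.all (smallOK N kap s.1 s.2.1) &&
    covers TabE.vl2 TabE.vh2 ((1 - s.2.1) / (1 + s.2.1)) ((kap - s.1 ^ 2) / (1 + s.1) ^ 2) s.2.2 &&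
    decide (0 ≤ s.1)

/-- The deletion step from a covering family of tables and the joint bound for the big vertices. -/
theorem delstep_family {m N : ℕ} (hm : m = N + 1) (hN : 4 ≤ N) (kap : ℚ) (hkap : 1 < kap)
    (hcapb : ∀ w : Fin m → E, (∀ i, mom (vcell w i) = w i) → muP ≤ ∑ i, ‖w i‖ ^ 2 →
      ∀ i0, (∀ j, ‖w i0‖ ≤ ‖w j‖) →
        3 ≤ (Finset.univ.filter fun j => j ≠ i0 ∧ (kap : ℝ) * ‖w i0‖ ^ 2 ≤ ‖w j‖ ^ 2).card)
    (topB : List TabE) (hBg : ∀ e ∈ topB, Good4 e.c)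
    (hBok : topB.all (bigOK N kap) = true)
    (hBcov : covers (fun e : TabE => e.c.p) (fun e : TabE => e.c.q) (1 / (N : ℚ)) 1 topB = true)
    (topS : List (ℚ × ℚ × List TabE)) (hSg : ∀ s ∈ topS, ∀ e ∈ s.2.2, Good4 e.c)
    (hSok : topS.all (rangeOK N kap) = true)
    (hScov : covers (fun s : ℚ × ℚ × List TabE => s.1) (fun s => s.2.1) (1 / (N : ℚ)) 1 topS = true) :
    DelStep E m := by
  classical
  subst hm
  intro w hfix hobt hF
  have hkapR : (1 : ℝ) < kap := by exact_mod_cast hkap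
  obtain ⟨i0, -, hmin⟩ := Finset.exists_min_image Finset.univ (fun i => ‖w i‖) Finset.univ_nonempty
  have hmin' : ∀ j, ‖w i0‖ ≤ ‖w j‖ := fun j => hmin j (Finset.mem_univ _)
  have hcI : Fintype.card {l // l ≠ i0} = N := by
    rw [card_ne]
    simp
  have hneI : Nonempty {l // l ≠ i0} := by
    apply Fintype.card_pos_iff.1
    omega
  obtain ⟨v, a, n, hnorm, hw0v, hz, hgeo⟩ := geo_data4 hfix hobt hmin'
  obtain ⟨g0, -⟩ := hgeo 0 0 0 (by simp)
  have ha := g0.ha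
  have hsum := g0.hsum
  have hvar := g0.hvar
  obtain ⟨j1, -, hj1⟩ := Finset.exists_max_image Finset.univ a Finset.univ_nonempty
  have hj1' : ∀ l, a l ≤ a j1 := fun l => hj1 l (Finset.mem_univ _)
  have hNpos : (0 : ℝ) < N := by
    have : 0 < N := by omega
    exact_mod_cast this
  -- the top coefficient is at least `1 / N`
  have hA1 : ((1 / (N : ℚ) : ℚ) : ℝ) ≤ a j1 := by
    push_cast
    rw [div_le_iff₀ hNpos]
    have h := Finset.sum_le_card_nsmul Finset.univ a (a j1) (fun l _ => hj1' l)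
    rw [hsum, Finset.card_univ, hcI, nsmul_eq_mul] at h
    linarith
  -- all others sum below
  have hpair : ∀ l, l ≠ j1 → a l + a j1 ≤ 1 := by
    intro l hl
    rw [← hsum, ← Finset.add_sum_erase Finset.univ a (Finset.mem_univ j1), add_comm]
    have hlm : l ∈ Finset.univ.erase j1 := Finset.mem_erase.2 ⟨hl, Finset.mem_univ _⟩
    have := Finset.single_le_sum (f := a) (fun i _ => (ha i).le) hlm
    linarith
  obtain ⟨l0, hl0⟩ : ∃ l, l ≠ j1 := by
    apply Fintype.exists_ne_of_one_lt_card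
    omega
  have hA2 : a j1 < ((1 : ℚ) : ℝ) := by
    have h1 := hpair l0 hl0
    have h2 := ha l0
    push_cast
    linarith
  have hA0 := ha j1
  have hA1' : a j1 < 1 := by simpa using hA2
  have hV2 : 0 < ‖v j1‖ ^ 2 := by
    have h1 := hvar j1
    have h2 : 0 < (1 + a j1) * ‖v j1‖ ^ 2 := by linarith
    exact (pos_iff_pos_of_mul_pos h2).1 (by linarith)
  have hv1 : v j1 ≠ 0 := by
    intro h0
    rw [h0] at hV2
    simp at hV2
  have hz2 : 0 < ‖w i0‖ ^ 2 := by positivity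
  -- the use of a table
  have final : ∀ (e : TabE) (Sm : Finset {l // l ≠ i0}), Good4 e.c →
      famOK4 e.c e.th e.vh2 = true → e.c.N = N → e.c.kap = kap →
      (e.c.p : ℝ) ≤ a j1 → a j1 < e.c.q → (0 < e.c.xt → (‖v j1‖ ^ 2)⁻¹ ≤ e.c.xt) →
      (e.c.sg ≠ 0 → ‖v j1‖ ^ 2 ≤ e.vh2) → j1 ∉ Sm → Sm.card = e.c.NS →
      (∀ l, l ≠ j1 → l ∉ Sm → (kap : ℝ) * ‖w i0‖ ^ 2 ≤ ‖w l.1‖ ^ 2) →
      ∃ i0 : Fin (N + 1), ∃ B : {l // l ≠ i0} → Set E, IsPart B ∧ Fval (vcell w) ≤ Fval B := by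
    intro e Sm hg hf hcN hck hp hq hx hV hSm1 hSm2 hb
    refine ⟨i0, del_table hfix hw0v hz hgeo e.c hg e.th e.vh2 hf j1 Sm ⟨l0, hl0⟩ hp hq ?_
      (by rw [hcI, hcN]) hx hV hSm1 hSm2 ?_ ?_ hv1⟩
    · -- the cap
      have hf' := hf
      simp only [famOK4, Bool.and_eq_true, Bool.or_eq_true, decide_eq_true_eq] at hf'
      have hcq := hf'.2
      intro l hl
      rcases hcq with h | h
      · have h' : (e.c.q : ℝ) ≤ e.c.cap := by exact_mod_cast h
        have := hj1' l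
        linarith
      · have h' : (1 : ℝ) - e.c.p ≤ e.c.cap := by exact_mod_cast h
        have := hpair l hl
        linarith
    · -- big vertices
      intro l hl hlS
      have h1 := hb l hl hlS
      rw [hnorm l] at h1
      have h2 : (kap : ℝ) ≤ (1 + a l) ^ 2 * ‖v l‖ ^ 2 + a l ^ 2 :=
        le_of_mul_le_mul_right h1 hz2
      rw [hck]
      linarith
    · left
      rw [hck]
      linarith
  -- the big set
  set bigS : Finset {l // l ≠ i0} :=
    Finset.univ.filter (fun l => (kap : ℝ) * ‖w i0‖ ^ 2 ≤ ‖w l.1‖ ^ 2) with hbigS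
  have hbc : 3 ≤ bigS.card := by
    have h := hcapb w hfix hF i0 hmin'
    refine h.trans ?_
    set S := Finset.univ.filter fun j => j ≠ i0 ∧ (kap : ℝ) * ‖w i0‖ ^ 2 ≤ ‖w j‖ ^ 2 with hS
    have h3 : S = (S.filter (fun j => j ≠ i0)) := by
      rw [Finset.filter_true_of_mem]
      intro j hj
      exact (Finset.mem_filter.1 hj).2.1
    rw [h3, ← Finset.card_subtype]
    apply Finset.card_le_card
    intro l hl
    rw [Finset.mem_subtype, hS] at hl
    exact Finset.mem_filter.2 ⟨Finset.mem_univ _, (Finset.mem_filter.1 hl).2.2⟩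
  set nonbig : Finset {l // l ≠ i0} := Finset.univ.filter (fun l => l ∉ bigS) with hnb
  have hnbc : nonbig.card + bigS.card = N := by
    have h := Finset.card_filter_add_card_filter_not (s := (Finset.univ : Finset {l // l ≠ i0}))
      (fun l => l ∈ bigS)
    rw [Finset.filter_mem_eq_inter, Finset.univ_inter, Finset.card_univ, hcI, add_comm] at h
    exact h
  -- the choice of the small set
  have hchoose : ∀ t : ℕ, (nonbig.erase j1).card ≤ t → t ≤ N - 1 →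
      ∃ Sm : Finset {l // l ≠ i0}, j1 ∉ Sm ∧ Sm.card = t ∧
        ∀ l, l ≠ j1 → l ∉ Sm → (kap : ℝ) * ‖w i0‖ ^ 2 ≤ ‖w l.1‖ ^ 2 := by
    intro t h1 h2
    have hsub : nonbig.erase j1 ⊆ Finset.univ.erase j1 :=
      Finset.erase_subset_erase _ (Finset.subset_univ _)
    have hcard : (Finset.univ.erase j1 : Finset {l // l ≠ i0}).card = N - 1 := by
      rw [Finset.card_erase_of_mem (Finset.mem_univ _), Finset.card_univ, hcI]
    obtain ⟨Sm, hs1, hs2, hs3⟩ := Finset.exists_subsuperset_card_eq hsub h1 (by omega)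
    refine ⟨Sm, fun h => (Finset.mem_erase.1 (hs2 h)).1 rfl, hs3, ?_⟩
    intro l hl hlS
    by_contra hcon
    apply hlS
    apply hs1
    refine Finset.mem_erase.2 ⟨hl, Finset.mem_filter.2 ⟨Finset.mem_univ _, ?_⟩⟩
    intro hmem
    exact hcon (Finset.mem_filter.1 hmem).2
  by_cases hbigj : (kap : ℝ) * ‖w i0‖ ^ 2 ≤ ‖w j1.1‖ ^ 2
  · -- the top vertex is big
    obtain ⟨e, he, hep, heq⟩ := covers_sound _ _ _ _ _ hBcov (a j1) hA1 hA2
    have hok := List.all_eq_true.1 hBok e he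
    simp only [bigOK, Bool.and_eq_true, decide_eq_true_eq] at hok
    obtain ⟨⟨⟨⟨⟨⟨⟨hf, hcN⟩, hcNS⟩, hck⟩, hq2⟩, hxc⟩, hx0⟩, hsg⟩ := hok
    obtain ⟨Sm, hS1, hS2, hS3⟩ := hchoose e.c.NS (by
      rw [hcNS]
      have h1 : (nonbig.erase j1).card ≤ nonbig.card := Finset.card_le_card (Finset.erase_subset _ _)
      omega) (by omega)
    refine final e Sm (hBg e he) hf hcN hck hep heq ?_ (fun h => absurd hsg h) hS1 hS2 hS3
    intro hx
    -- the inverse square bound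
    rw [hnorm j1] at hbigj
    have h2 : (kap : ℝ) ≤ (1 + a j1) ^ 2 * ‖v j1‖ ^ 2 + a j1 ^ 2 :=
      le_of_mul_le_mul_right hbigj hz2
    have hxR : (0 : ℝ) < e.c.xt := by exact_mod_cast hx
    have hxc' : (1 + (e.c.q : ℝ)) ^ 2 ≤ e.c.xt * ((kap : ℝ) - (e.c.q : ℝ) ^ 2) := by
      exact_mod_cast hxc
    rw [inv_le_comm₀ hV2 hxR, inv_eq_one_div, div_le_iff₀ hxR]
    have h3 : (1 + a j1) ^ 2 ≤ (1 + (e.c.q : ℝ)) ^ 2 := by
      apply pow_le_pow_left₀ (by linarith)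
      linarith
    have h4 : a j1 ^ 2 ≤ (e.c.q : ℝ) ^ 2 := pow_le_pow_left₀ hA0.le heq.le 2
    have h5 : (e.c.xt : ℝ) * ((kap : ℝ) - (e.c.q : ℝ) ^ 2) ≤
        e.c.xt * ((1 + a j1) ^ 2 * ‖v j1‖ ^ 2) :=
      mul_le_mul_of_nonneg_left (by linarith) hxR.le
    have h6 : (1 + a j1) ^ 2 * 1 ≤ (1 + a j1) ^ 2 * (‖v j1‖ ^ 2 * e.c.xt) := by
      nlinarith
    have h7 : (0 : ℝ) < (1 + a j1) ^ 2 := by positivity
    exact le_of_mul_le_mul_left h6 h7
  · -- the top vertex is small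
    obtain ⟨s, hs, hsp, hsq⟩ := covers_sound _ _ _ _ _ hScov (a j1) hA1 hA2
    have hok := List.all_eq_true.1 hSok s hs
    simp only [rangeOK, Bool.and_eq_true, decide_eq_true_eq] at hok
    obtain ⟨⟨hall, hcov⟩, hs0⟩ := hok
    have hs0' : (0 : ℝ) ≤ s.1 := by exact_mod_cast hs0
    have hq0 : (0 : ℝ) < s.2.1 := by linarith
    -- range of the square
    have hlo : (((1 - s.2.1) / (1 + s.2.1) : ℚ) : ℝ) ≤ ‖v j1‖ ^ 2 := by
      push_cast
      rw [div_le_iff₀ (by linarith)]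
      have h1 := hvar j1
      have h2 : 0 ≤ ‖v j1‖ ^ 2 := by positivity
      -- (1-q)(1+a) ≤ (1-a)(1+q)
      have h3 : (1 - (s.2.1 : ℝ)) * (1 + a j1) ≤ (1 - a j1) * (1 + s.2.1) := by nlinarith
      have h4 : (1 - a j1) * (1 + (s.2.1 : ℝ)) ≤ (1 + a j1) * ‖v j1‖ ^ 2 * (1 + s.2.1) :=
        mul_le_mul_of_nonneg_right h1 (by linarith)
      have h5 : (1 - (s.2.1 : ℝ)) * (1 + a j1) ≤ ‖v j1‖ ^ 2 * (1 + s.2.1) * (1 + a j1) := by
        nlinarith
      exact le_of_mul_le_mul_right h5 (by linarith)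
    have hhi : ‖v j1‖ ^ 2 < (((kap - s.1 ^ 2) / (1 + s.1) ^ 2 : ℚ) : ℝ) := by
      push_cast
      rw [lt_div_iff₀ (by positivity)]
      have h1 : ‖w j1.1‖ ^ 2 < (kap : ℝ) * ‖w i0‖ ^ 2 := not_le.1 hbigj
      rw [hnorm j1] at h1
      have h2 : (1 + a j1) ^ 2 * ‖v j1‖ ^ 2 + a j1 ^ 2 < (kap : ℝ) :=
        lt_of_mul_lt_mul_right h1 hz2.le
      have hp' : (s.1 : ℝ) ≤ a j1 := hsp
      have h3 : ((kap : ℝ) - a j1 ^ 2) * (1 + (s.1 : ℝ)) ^ 2 ≤
          ((kap : ℝ) - (s.1 : ℝ) ^ 2) * (1 + a j1) ^ 2 := by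
        have h4 : 0 ≤ (a j1 - s.1) * ((kap : ℝ) * (2 + a j1 + s.1) + (a j1 + s.1 + 2 * a j1 * s.1)) := by
          apply mul_nonneg (by linarith)
          have : 0 ≤ a j1 * s.1 := mul_nonneg hA0.le hs0'
          nlinarith
        nlinarith
      have h5 : ‖v j1‖ ^ 2 * (1 + a j1) ^ 2 < (kap : ℝ) - a j1 ^ 2 := by linarith
      have h6 : ‖v j1‖ ^ 2 * (1 + a j1) ^ 2 * (1 + (s.1 : ℝ)) ^ 2 <
          ((kap : ℝ) - a j1 ^ 2) * (1 + (s.1 : ℝ)) ^ 2 :=
        mul_lt_mul_of_pos_right h5 (by positivity)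
      have h7 : ‖v j1‖ ^ 2 * (1 + (s.1 : ℝ)) ^ 2 * (1 + a j1) ^ 2 <
          ((kap : ℝ) - (s.1 : ℝ) ^ 2) * (1 + a j1) ^ 2 := by linarith
      exact lt_of_mul_lt_mul_right h7 (by positivity)
    obtain ⟨e, he, hel, heu⟩ := covers_sound _ _ _ _ _ hcov (‖v j1‖ ^ 2) hlo hhi
    have hok2 := List.all_eq_true.1 hall e he
    simp only [smallOK, Bool.and_eq_true, Bool.or_eq_true, decide_eq_true_eq] at hok2
    obtain ⟨⟨⟨⟨⟨⟨hf, hcN⟩, hcNS⟩, hck⟩, hep⟩, heq⟩, hxc⟩ := hok2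
    have hj1nb : j1 ∈ nonbig := by
      refine Finset.mem_filter.2 ⟨Finset.mem_univ _, ?_⟩
      intro hmem
      exact hbigj (Finset.mem_filter.1 hmem).2
    obtain ⟨Sm, hS1, hS2, hS3⟩ := hchoose e.c.NS (by
      rw [hcNS, Finset.card_erase_of_mem hj1nb]
      omega) (by omega)
    have hep' : (e.c.p : ℝ) ≤ s.1 := by exact_mod_cast hep
    have heq' : (s.2.1 : ℝ) ≤ e.c.q := by exact_mod_cast heq
    refine final e Sm (hSg s hs e he) hf hcN hck (by linarith [hsp]) (by linarith [hsq]) ?_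
      (fun _ => heu.le) hS1 hS2 hS3
    intro hx
    have hxR : (0 : ℝ) < e.c.xt := by exact_mod_cast hx
    rcases hxc with h | ⟨h1, h2⟩
    · exact absurd hx (not_lt.2 h)
    · have h1' : (0 : ℝ) < e.vl2 := by exact_mod_cast h1
      have h2' : (1 : ℝ) ≤ e.c.xt * e.vl2 := by exact_mod_cast h2
      rw [inv_le_comm₀ hV2 hxR, inv_eq_one_div, div_le_iff₀ hxR]
      have : (e.c.xt : ℝ) * e.vl2 ≤ e.c.xt * ‖v j1‖ ^ 2 :=
        mul_le_mul_of_nonneg_left hel hxR.le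
      linarith

end Vale.Agent.P226h14
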